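import Mathlib

/-!
# P205: integrals depending smoothly on a parameter
-/

namespace Vale.Agent.P205.ParamInt

open scoped ContDiff
open MeasureTheory intervalIntegral

universe u

variable {E : Type} [NormedAddCommGroup E] [NormedSpace ℝ E] [FiniteDimensional ℝ E]

/-- The derivative of an integral over the unit interval. -/
lemma hasFDerivAt_integral01 {V : Type u} [NormedAddCommGroup V] [NormedSpace ℝ V]
    [CompleteSpace V] {F : E × ℝ → V} (hF : ContDiff ℝ 1 F) (x : E) :
    HasFDerivAt (fun x => ∫ t in (0 : ℝ)..1, F (x, t))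
      (∫ t in (0 : ℝ)..1, (fderiv ℝ F (x, t)).comp (ContinuousLinearMap.inl ℝ E ℝ)) x := by
  have hd : Continuous (fderiv ℝ F) := hF.continuous_fderiv one_ne_zero
  obtain ⟨C, hC⟩ := ((isCompact_closedBall x (1 : ℝ)).prod (isCompact_uIcc (a := (0 : ℝ))
    (b := 1))).exists_bound_of_continuousOn hd.continuousOn
  have hc : ∀ y : E, Continuous fun t : ℝ => F (y, t) := fun y =>
    hF.continuous.comp (Continuous.prodMk_right y)
  have hc' : Continuous fun t : ℝ =>
      (fderiv ℝ F (x, t)).comp (ContinuousLinearMap.inl ℝ E ℝ) :=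
    (hd.comp (Continuous.prodMk_right x)).clm_comp continuous_const
  refine intervalIntegral.hasFDerivAt_integral_of_dominated_of_fderiv_le
    (F := fun y t => F (y, t))
    (F' := fun y t => (fderiv ℝ F (y, t)).comp (ContinuousLinearMap.inl ℝ E ℝ))
    (bound := fun _ => C * ‖ContinuousLinearMap.inl ℝ E ℝ‖)
    (Metric.closedBall_mem_nhds x one_pos)
    (Filter.Eventually.of_forall fun y => (hc y).aestronglyMeasurable)
    ((hc x).intervalIntegrable 0 1) hc'.aestronglyMeasurable
    (Filter.Eventually.of_forall fun t ht y hy => ?_) intervalIntegrable_const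
    (Filter.Eventually.of_forall fun t _ y _ => ?_)
  · refine (ContinuousLinearMap.opNorm_comp_le _ _).trans
      (mul_le_mul_of_nonneg_right (hC (y, t) ⟨hy, Set.uIoc_subset_uIcc ht⟩) (norm_nonneg _))
  · exact ((hF.differentiable one_ne_zero).differentiableAt.hasFDerivAt).comp y
      (hasFDerivAt_prodMk_left y t)

/-- An integral over the unit interval of a smooth function is smooth in the parameter. -/
theorem contDiff_integral01 {V : Type u} [NormedAddCommGroup V] [NormedSpace ℝ V]
    [CompleteSpace V] {F : E × ℝ → V} (hF : ContDiff ℝ ∞ F) :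
    ContDiff ℝ ∞ fun x => ∫ t in (0 : ℝ)..1, F (x, t) := by
  refine contDiff_infty.2 fun n => ?_
  induction n generalizing V with
  | zero =>
    rw [show ((0 : ℕ) : WithTop ℕ∞) = 0 from rfl, contDiff_zero]
    exact continuous_iff_continuousAt.2 fun x =>
      (hasFDerivAt_integral01 (hF.of_le (by exact_mod_cast le_top)) x).continuousAt
  | succ n ih =>
    have h1 : ContDiff ℝ 1 F := hF.of_le (by exact_mod_cast le_top)
    rw [show ((n + 1 : ℕ) : WithTop ℕ∞) = (n : WithTop ℕ∞) + 1 from rfl, contDiff_succ_iff_fderiv]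
    refine ⟨fun x => (hasFDerivAt_integral01 h1 x).differentiableAt, by simp, ?_⟩
    rw [show fderiv ℝ (fun x => ∫ t in (0 : ℝ)..1, F (x, t)) = fun x => ∫ t in (0 : ℝ)..1,
        (fun z => (fderiv ℝ F z).comp (ContinuousLinearMap.inl ℝ E ℝ)) (x, t) from
      funext fun x => (hasFDerivAt_integral01 h1 x).fderiv]
    exact ih ((hF.fderiv_right (m := ∞) le_rfl).clm_comp contDiff_const)

end Vale.Agent.P205.ParamInt
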