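import Mathlib
import Vale.Agent.P205.Correction.Seminorm

/-!
# P205: periodic profiles and their oscillating compositions

A profile is a smooth map of a point of the plane and a phase, periodic in all three coordinates.
Evaluating it at the phase `lam * v x` costs one factor `lam` for each derivative.
-/

namespace Vale.Agent.P205.Profile

open scoped ContDiff
open Set

noncomputable section

variable {V : Type*} [NormedAddCommGroup V] [NormedSpace ℝ V]

/-- Smooth profiles, periodic in the point and in the phase. -/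
def IsProfile (U : R2 × ℝ → V) : Prop :=
  ContDiff ℝ ∞ U ∧ ∀ z, U (z + ((1, 0), 0)) = U z ∧ U (z + ((0, 1), 0)) = U z ∧
    U (z + ((0, 0), 1)) = U z

/-- A continuous function with periods along the three axes is bounded. -/
lemma bdd_periodic3 {g : R2 × ℝ → ℝ} (hc : Continuous g)
    (hp : ∀ z, g (z + ((1, 0), 0)) = g z ∧ g (z + ((0, 1), 0)) = g z ∧
      g (z + ((0, 0), 1)) = g z) : ∃ C, ∀ z, g z ≤ C := by
  obtain ⟨C, hC⟩ := (((isCompact_Icc (a := (0 : ℝ)) (b := 1)).prod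
    (isCompact_Icc (a := (0 : ℝ)) (b := 1))).prod
    (isCompact_Icc (a := (0 : ℝ)) (b := 1))).bddAbove_image hc.continuousOn
  refine ⟨C, ?_⟩
  rintro ⟨⟨p, q⟩, r⟩
  have h1 : Function.Periodic (fun s => g ((s, q), r)) 1 := fun s => by
    simpa using (hp ((s, q), r)).1
  have h2 : Function.Periodic (fun s => g ((Int.fract p, s), r)) 1 := fun s => by
    simpa using (hp ((Int.fract p, s), r)).2.1
  have h3 : Function.Periodic (fun s => g ((Int.fract p, Int.fract q), s)) 1 := fun s => by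
    simpa using (hp ((Int.fract p, Int.fract q), s)).2.2
  have e1 := h1.sub_zsmul_eq (x := p) ⌊p⌋
  have e2 := h2.sub_zsmul_eq (x := q) ⌊q⌋
  have e3 := h3.sub_zsmul_eq (x := r) ⌊r⌋
  simp only [zsmul_one, Int.self_sub_floor] at e1 e2 e3
  rw [← e1, ← e2, ← e3]
  exact hC ⟨((Int.fract p, Int.fract q), Int.fract r),
    ⟨⟨⟨Int.fract_nonneg p, (Int.fract_lt_one p).le⟩, Int.fract_nonneg q, (Int.fract_lt_one q).le⟩,
      Int.fract_nonneg r, (Int.fract_lt_one r).le⟩, rfl⟩

/-- The derivatives of a profile are bounded. -/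
lemma IsProfile.bound {U : R2 × ℝ → V} (hU : IsProfile U) (n : ℕ) :
    ∃ C, ∀ z, ‖iteratedFDeriv ℝ n U z‖ ≤ C := by
  refine bdd_periodic3 (hU.1.continuous_iteratedFDeriv (by exact_mod_cast le_top)).norm
    fun z => ⟨?_, ?_, ?_⟩
  · rw [← iteratedFDeriv_comp_add_right, funext fun w => (hU.2 w).1]
  · rw [← iteratedFDeriv_comp_add_right, funext fun w => (hU.2 w).2.1]
  · rw [← iteratedFDeriv_comp_add_right, funext fun w => (hU.2 w).2.2]

/-- Positive derivatives of a linear map are bounded. -/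
lemma clm_bound {E F : Type*} [NormedAddCommGroup E] [NormedSpace ℝ E] [NormedAddCommGroup F]
    [NormedSpace ℝ F] (L : E →L[ℝ] F) (i : ℕ) (hi : 1 ≤ i) (x : E) :
    ‖iteratedFDeriv ℝ i L x‖ ≤ ‖L‖ := by
  obtain ⟨k, rfl⟩ : ∃ k, i = k + 1 := ⟨i - 1, by omega⟩
  rw [← norm_iteratedFDeriv_fderiv, show fderiv ℝ (L : E → F) = fun _ => L from
    funext fun y => L.fderiv]
  rcases k with _ | k
  · simp [norm_iteratedFDeriv_zero]
  · simp [iteratedFDeriv_const_of_ne]

/-- The chain rule bound: one factor `lam` for each derivative. -/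
theorem exists_osc_bound {U : R2 × ℝ → V} (hU : ContDiff ℝ ∞ U)
    (hUb : ∀ n, ∃ C, ∀ z, ‖iteratedFDeriv ℝ n U z‖ ≤ C)
    {v : R2 → ℝ} (hv : ContDiff ℝ ∞ v)
    (hvb : ∀ n, 1 ≤ n → ∃ C, ∀ x, ‖iteratedFDeriv ℝ n v x‖ ≤ C) (n : ℕ) :
    ∃ C, 0 ≤ C ∧ ∀ lam, 1 ≤ lam → ∀ x,
      ‖iteratedFDeriv ℝ n (fun x => U (x, lam * v x)) x‖ ≤ C * lam ^ n := by
  choose CU hCU using hUb
  choose Cv hCv using hvb
  obtain ⟨L, hL⟩ : ∃ L, L = ContinuousLinearMap.inl ℝ R2 ℝ := ⟨_, rfl⟩
  obtain ⟨M, hM⟩ : ∃ M, M = ContinuousLinearMap.inr ℝ R2 ℝ := ⟨_, rfl⟩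
  obtain ⟨K, hK⟩ : ∃ K : ℝ, K = ∑ i ∈ Finset.range (n + 1), |CU i| := ⟨_, rfl⟩
  obtain ⟨D, hD⟩ : ∃ D : ℝ, D = 1 + ‖L‖ + ‖M‖ * ∑ i ∈ Finset.Icc 1 n,
      (if h : 1 ≤ i then |Cv i h| else 0) := ⟨_, rfl⟩
  have hS : 0 ≤ ∑ i ∈ Finset.Icc 1 n, (if h : 1 ≤ i then |Cv i h| else 0) :=
    Finset.sum_nonneg fun i _ => by split_ifs <;> positivity
  have hK0 : 0 ≤ K := by rw [hK]; positivity
  have hD1 : 1 ≤ D := by rw [hD]; nlinarith [norm_nonneg L, mul_nonneg (norm_nonneg M) hS]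
  refine ⟨(n.factorial : ℝ) * K * D ^ n, by positivity, fun lam hlam x => ?_⟩
  have hG : (fun x => U (x, lam * v x)) = U ∘ fun x => L x + lam • M (v x) :=
    funext fun y => by simp [hL, hM]
  rw [hG, mul_assoc ((n.factorial : ℝ) * K), ← mul_pow]
  have hMv : ContDiff ℝ ∞ fun x => M (v x) := M.contDiff.comp hv
  refine norm_iteratedFDeriv_comp_le hU (L.contDiff.add (hMv.const_smul lam))
    (by exact_mod_cast le_top) x (fun i hi => ?_) (fun i h1 hi => ?_)
  · exact (hCU i _).trans ((le_abs_self _).trans (hK ▸ Finset.single_le_sum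
      (f := fun i => |CU i|) (fun j _ => abs_nonneg _) (Finset.mem_range.2 (by omega))))
  · have b1 := clm_bound L i h1 x
    have b2 : ‖iteratedFDeriv ℝ i (fun x => M (v x)) x‖
        ≤ ‖M‖ * ∑ i ∈ Finset.Icc 1 n, (if h : 1 ≤ i then |Cv i h| else 0) := by
      refine (M.norm_iteratedFDeriv_comp_left hv.contDiffAt (by exact_mod_cast le_top)).trans
        (mul_le_mul_of_nonneg_left ?_ (norm_nonneg M))
      refine ((hCv i h1 x).trans (le_abs_self _)).trans ?_
      refine le_trans (le_of_eq ?_) (Finset.single_le_sum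
        (f := fun i => if h : 1 ≤ i then |Cv i h| else 0)
        (fun j _ => by split_ifs <;> positivity) (Finset.mem_Icc.2 ⟨h1, hi⟩))
      rw [dif_pos h1]
    have hle : ‖iteratedFDeriv ℝ i (fun x => L x + lam • M (v x)) x‖ ≤ D * lam := by
      rw [show (fun x => L x + lam • M (v x)) = ⇑L + (fun x => lam • M (v x)) from rfl,
        iteratedFDeriv_add_apply (L.contDiff.contDiffAt)
          ((hMv.of_le (by exact_mod_cast le_top)).const_smul lam).contDiffAt,
        iteratedFDeriv_const_smul_apply' (hMv.of_le (by exact_mod_cast le_top)).contDiffAt]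
      refine (norm_add_le _ _).trans ?_
      rw [norm_smul, Real.norm_eq_abs, abs_of_nonneg (by linarith : (0 : ℝ) ≤ lam)]
      have h' : lam * ‖iteratedFDeriv ℝ i (fun x => M (v x)) x‖ ≤
          lam * (‖M‖ * ∑ i ∈ Finset.Icc 1 n, (if h : 1 ≤ i then |Cv i h| else 0)) :=
        mul_le_mul_of_nonneg_left b2 (by linarith)
      rw [hD]
      nlinarith [norm_nonneg L, norm_nonneg M]
    refine hle.trans ?_
    exact le_self_pow₀ (one_le_mul_of_one_le_of_one_le hD1 hlam) (by omega)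

end

end Vale.Agent.P205.Profile
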