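import Mathlib
import Vale.Agent.P205.Full.Profile
import Vale.Agent.P205.Full.ParamInt

/-!
# P205: means and zero-mean primitives of profiles
-/

namespace Vale.Agent.P205.Profile

open scoped ContDiff
open intervalIntegral MeasureTheory

noncomputable section

variable {V W : Type*} [NormedAddCommGroup V] [NormedSpace ℝ V] [CompleteSpace V]
  [NormedAddCommGroup W] [NormedSpace ℝ W]

/-- The derivative in the phase. -/
def dPhase (U : R2 × ℝ → V) (z : R2 × ℝ) : V := fderiv ℝ U z (0, 1)

/-- The mean over a period of the phase. -/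
def mean (U : R2 × ℝ → V) (x : R2) : V := ∫ t in (0 : ℝ)..1, U (x, t)

/-- The primitive in the phase that starts at phase zero. -/
def prim0 (U : R2 × ℝ → V) (z : R2 × ℝ) : V := ∫ s in (0 : ℝ)..z.2, U (z.1, s)

/-- The primitive in the phase with mean zero. -/
def prim (U : R2 × ℝ → V) (z : R2 × ℝ) : V := prim0 U z - mean (prim0 U) z.1

lemma contDiff_mean {U : R2 × ℝ → V} (hU : ContDiff ℝ ∞ U) : ContDiff ℝ ∞ (mean U) :=
  ParamInt.contDiff_integral01 hU

lemma contDiff_prim0 {U : R2 × ℝ → V} (hU : ContDiff ℝ ∞ U) : ContDiff ℝ ∞ (prim0 U) := by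
  have h := ParamInt.contDiff_integral01 (E := R2 × ℝ)
    (F := fun w => U (w.1.1, w.1.2 * w.2)) (hU.comp ((contDiff_fst.comp contDiff_fst).prodMk
      ((contDiff_snd.comp contDiff_fst).mul contDiff_snd)))
  have e : prim0 U = fun z => z.2 • ∫ t in (0 : ℝ)..1, U (z.1, z.2 * t) := funext fun z => by
    rw [intervalIntegral.smul_integral_comp_mul_left (fun s => U (z.1, s)) z.2, mul_zero, mul_one]
    rfl
  rw [e]
  exact contDiff_snd.smul h

lemma hasDerivAt_prim0 {U : R2 × ℝ → V} (hU : Continuous U) (x : R2) (θ : ℝ) :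
    HasDerivAt (fun s => prim0 U (x, s)) (U (x, θ)) θ :=
  integral_hasDerivAt_right ((hU.comp (Continuous.prodMk_right x)).intervalIntegrable 0 θ)
    ((hU.comp (Continuous.prodMk_right x)).stronglyMeasurableAtFilter _ _)
    (hU.comp (Continuous.prodMk_right x)).continuousAt

omit [CompleteSpace V] in
lemma mean_periodic {U : R2 × ℝ → V} (hU : IsProfile U) :
    Periodic2 (1, 0) (0, 1) (mean U) :=
  ⟨fun p => integral_congr fun t _ => by simpa using (hU.2 (p, t)).1,
    fun p => integral_congr fun t _ => by simpa using (hU.2 (p, t)).2.1⟩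

lemma smooth2_mean {U : R2 × ℝ → V} (hU : IsProfile U) : Correction.Smooth2 (mean U) :=
  ⟨contDiff_mean hU.1, mean_periodic hU⟩

omit [CompleteSpace V] in
lemma phase_periodic {U : R2 × ℝ → V} (hU : IsProfile U) (x : R2) :
    Function.Periodic (fun s => U (x, s)) 1 := fun s => by
  have h := (hU.2 (x, s)).2.2
  rw [show (((x, s) : R2 × ℝ) + ((0, 0), 1)) = (x, s + 1) from
    Prod.ext (add_zero x) rfl] at h
  exact h

lemma isProfile_prim0 {U : R2 × ℝ → V} (hU : IsProfile U) (h0 : ∀ x, mean U x = 0) :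
    IsProfile (prim0 U) := by
  refine ⟨contDiff_prim0 hU.1, ?_⟩
  rintro ⟨x, θ⟩
  simp only [prim0, Prod.mk_add_mk, add_zero]
  refine ⟨integral_congr fun t _ => by simpa using (hU.2 (x, t)).1,
    integral_congr fun t _ => by simpa using (hU.2 (x, t)).2.1, ?_⟩
  have hp := phase_periodic hU x
  have hi : Continuous fun s => U (x, s) :=
    hU.1.continuous.comp (Continuous.prodMk_right x)
  rw [show x + (0, 0) = x from add_zero x, ← integral_add_adjacent_intervals
    (b := θ) (hi.intervalIntegrable 0 θ) (hi.intervalIntegrable θ (θ + 1)),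
    hp.intervalIntegral_add_eq θ 0, zero_add]
  exact add_eq_left.2 (h0 x)

lemma isProfile_prim {U : R2 × ℝ → V} (hU : IsProfile U) (h0 : ∀ x, mean U x = 0) :
    IsProfile (prim U) := by
  have h := isProfile_prim0 hU h0
  refine ⟨h.1.sub ((contDiff_mean h.1).comp contDiff_fst), ?_⟩
  rintro ⟨x, θ⟩
  obtain ⟨a, b, c⟩ := h.2 (x, θ)
  simp only [prim, Prod.mk_add_mk, add_zero] at a b c ⊢
  rw [(mean_periodic h).1, (mean_periodic h).2, show x + (0, 0) = x from add_zero x]
  exact ⟨by rw [a], by rw [b], by rw [show x + (0, 0) = x from add_zero x] at c; rw [c]⟩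

lemma dPhase_prim {U : R2 × ℝ → V} (hU : ContDiff ℝ ∞ U) (z : R2 × ℝ) :
    dPhase (prim U) z = U z := by
  obtain ⟨x, θ⟩ := z
  have hd : DifferentiableAt ℝ (prim U) (x, θ) :=
    (((contDiff_prim0 hU).sub ((contDiff_mean (contDiff_prim0 hU)).comp contDiff_fst)).differentiable
      (by simp)).differentiableAt
  have h1 : HasDerivAt (fun s => prim U (x, s)) (fderiv ℝ (prim U) (x, θ) (0, 1)) θ :=
    hd.hasFDerivAt.comp_hasDerivAt θ ((hasDerivAt_const θ x).prodMk (hasDerivAt_id θ))
  exact h1.unique ((hasDerivAt_prim0 hU.continuous x θ).sub_const (mean (prim0 U) x))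

lemma mean_prim {U : R2 × ℝ → V} (hU : ContDiff ℝ ∞ U) (x : R2) : mean (prim U) x = 0 := by
  show (∫ t in (0 : ℝ)..1, (prim0 U (x, t) - mean (prim0 U) x)) = 0
  have hc : Continuous fun t => prim0 U (x, t) :=
    (contDiff_prim0 hU).continuous.comp (Continuous.prodMk_right x)
  rw [intervalIntegral.integral_sub (hc.intervalIntegrable 0 1) intervalIntegrable_const,
    intervalIntegral.integral_const]
  simp [mean]

lemma mean_dPhase {U : R2 × ℝ → V} (hU : IsProfile U) (x : R2) : mean (dPhase U) x = 0 := by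
  have hd : ∀ t : ℝ, HasDerivAt (fun s => U (x, s)) (dPhase U (x, t)) t := fun t =>
    ((hU.1.differentiable (by simp)).differentiableAt.hasFDerivAt).comp_hasDerivAt t
      ((hasDerivAt_const t x).prodMk (hasDerivAt_id t))
  have hc : Continuous fun t => dPhase U (x, t) :=
    ((hU.1.continuous_fderiv (by simp)).clm_apply continuous_const).comp (Continuous.prodMk_right x)
  rw [mean, integral_eq_sub_of_hasDerivAt (fun t _ => hd t) (hc.intervalIntegrable 0 1), sub_eq_zero]
  simpa using phase_periodic hU x 0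

end

end Vale.Agent.P205.Profile
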