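import Mathlib
import Vale.Agent.P205.Full.Mean

/-!
# P205: profiles evaluated along a periodic phase
-/

namespace Vale.Agent.P205.Profile

open scoped ContDiff
open Correction

noncomputable section

variable {V : Type*} [NormedAddCommGroup V] [NormedSpace ℝ V]

/-- The profile evaluated at the phase `lam * v x`. -/
def osc (U : R2 × ℝ → V) (lam : ℝ) (v : R2 → ℝ) (x : R2) : V := U (x, lam * v x)

/-- The derivative in the point, at fixed phase. -/
def dPoint (U : R2 × ℝ → V) (z : R2 × ℝ) : R2 →L[ℝ] V :=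
  (fderiv ℝ U z).comp (ContinuousLinearMap.inl ℝ R2 ℝ)

lemma osc_smooth2 {U : R2 × ℝ → V} (hU : IsProfile U) {v : R2 → ℝ} (hv : ContDiff ℝ ∞ v)
    {lam : ℝ} (h1 : ∀ p, ∃ k : ℤ, lam * v (p + (1, 0)) = lam * v p + k)
    (h2 : ∀ p, ∃ k : ℤ, lam * v (p + (0, 1)) = lam * v p + k) : Smooth2 (osc U lam v) := by
  have hper : ∀ x, Function.Periodic (fun s => U (x, s)) 1 := fun x s => by
    have h := (hU.2 (x, s)).2.2
    rw [show (((x, s) : R2 × ℝ) + ((0, 0), 1)) = (x, s + 1) from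
      Prod.ext (add_zero x) rfl] at h
    exact h
  have hk : ∀ x s (k : ℤ), U (x, s + k) = U (x, s) := fun x s k => by
    simpa using (hper x).int_mul k s
  refine ⟨hU.1.comp (contDiff_id.prodMk (contDiff_const.mul hv)), fun p => ?_, fun p => ?_⟩
  · obtain ⟨k, hk'⟩ := h1 p
    show U (p + (1, 0), lam * v (p + (1, 0))) = U (p, lam * v p)
    rw [hk', hk]
    simpa using (hU.2 (p, lam * v p)).1
  · obtain ⟨k, hk'⟩ := h2 p
    show U (p + (0, 1), lam * v (p + (0, 1))) = U (p, lam * v p)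
    rw [hk', hk]
    simpa using (hU.2 (p, lam * v p)).2.1

/-- The seminorms grow by one factor `lam` for each derivative, uniformly in `lam`. -/
theorem exists_pn_osc_le {U : R2 × ℝ → V} (hU : IsProfile U) {v : R2 → ℝ} (hv : ContDiff ℝ ∞ v)
    (hvb : ∀ n, 1 ≤ n → ∃ C, ∀ x, ‖iteratedFDeriv ℝ n v x‖ ≤ C) (j : ℕ) :
    ∃ C, 0 ≤ C ∧ ∀ lam, 1 ≤ lam → pn j (osc U lam v) ≤ C * lam ^ j := by
  choose C hC0 hC using fun n => exists_osc_bound hU.1 hU.bound hv hvb n
  refine ⟨∑ m ∈ Finset.range (j + 1), C m, Finset.sum_nonneg fun m _ => hC0 m, fun lam hlam => ?_⟩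
  refine (pn_le_of_supD fun m hm => supD_le fun x => (hC m lam hlam x).trans
    (mul_le_mul_of_nonneg_left (pow_le_pow_right₀ hlam hm) (hC0 m))).trans_eq ?_
  rw [Finset.sum_mul]

/-- The chain rule. -/
lemma fderiv_osc {U : R2 × ℝ → V} (hU : ContDiff ℝ ∞ U) {v : R2 → ℝ} (hv : ContDiff ℝ ∞ v)
    (lam : ℝ) (x e : R2) : fderiv ℝ (osc U lam v) x e =
      dPoint U (x, lam * v x) e + (lam * fderiv ℝ v x e) • dPhase U (x, lam * v x) := by
  have h1 := (hU.differentiable (by simp)).differentiableAt (x := (x, lam * v x)) |>.hasFDerivAt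
  have h2 : HasFDerivAt (fun y => (y, lam * v y))
      ((ContinuousLinearMap.id ℝ R2).prod (lam • fderiv ℝ v x)) x :=
    (hasFDerivAt_id x).prodMk
      (((hv.differentiable (by simp)).differentiableAt.hasFDerivAt).const_mul lam)
  have h3 : HasFDerivAt (osc U lam v) ((fderiv ℝ U (x, lam * v x)).comp
      ((ContinuousLinearMap.id ℝ R2).prod (lam • fderiv ℝ v x))) x := h1.comp x h2
  rw [h3.fderiv]
  simp only [ContinuousLinearMap.comp_apply, ContinuousLinearMap.prod_apply, dPoint,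
    ContinuousLinearMap.inl_apply, dPhase, ← map_smul, ← map_add, Prod.smul_mk, Prod.mk_add_mk]
  simp

end

end Vale.Agent.P205.Profile
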