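import Mathlib

/-!
# P205: the loop of one corrugation step

Given a nonzero vector `q`, a vector `j` of the same length orthogonal to it, and an amplitude
`a`, the loop `q + a • (cA • q + cB • j)` runs back and forth on the circle of squared radius
`‖q‖ ^ 2 + a ^ 2` and has mean `q`. The coefficients are explicit, so they are smooth up to
`a = 0`.
-/

namespace Vale.Agent.P205.Loop

open scoped ContDiff RealInnerProductSpace
open intervalIntegral

noncomputable section

/-- The phase function. -/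
def wave (θ : ℝ) : ℝ := Real.sin (2 * Real.pi * θ)

/-- The radius. -/
def rad (n a : ℝ) : ℝ := √(n ^ 2 + a ^ 2)

/-- The squared swing, divided by the squared amplitude. -/
def swing (n a : ℝ) : ℝ := 2 / (rad n a * (rad n a + n))

/-- The coefficient along `q`, divided by the amplitude. -/
def cA (n a θ : ℝ) : ℝ := a * (1 - 2 * wave θ ^ 2) / (n * (rad n a + n))

/-- The coefficient along `j`, divided by the amplitude. -/
def cB (n a θ : ℝ) : ℝ :=
  rad n a * √(swing n a) * wave θ * √(2 - a ^ 2 * swing n a * wave θ ^ 2) / n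

lemma rad_pos {n : ℝ} (hn : 0 < n) (a : ℝ) : 0 < rad n a :=
  Real.sqrt_pos.2 (by positivity)

lemma rad_sq (n a : ℝ) : rad n a ^ 2 = n ^ 2 + a ^ 2 := Real.sq_sqrt (by positivity)

lemma swing_pos {n : ℝ} (hn : 0 < n) (a : ℝ) : 0 < swing n a := by
  have := rad_pos hn a
  rw [swing]; positivity

lemma radicand_pos {n : ℝ} (hn : 0 < n) (a θ : ℝ) :
    0 < 2 - a ^ 2 * swing n a * wave θ ^ 2 := by
  have hr := rad_pos hn a
  have h1 : wave θ ^ 2 ≤ 1 := Real.sin_sq_le_one _
  have h2 : a ^ 2 * swing n a < 2 := by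
    rw [swing, mul_div, div_lt_iff₀ (by positivity)]
    nlinarith [rad_sq n a, mul_pos hr hn]
  have h3 : a ^ 2 * swing n a * wave θ ^ 2 ≤ a ^ 2 * swing n a * 1 :=
    mul_le_mul_of_nonneg_left h1 (by have := swing_pos hn a; positivity)
  linarith

/-- The loop lies on the circle. -/
lemma circle {n : ℝ} (hn : 0 < n) (a θ : ℝ) :
    ((1 + a * cA n a θ) ^ 2 + (a * cB n a θ) ^ 2) * n ^ 2 = n ^ 2 + a ^ 2 := by
  have hr := rad_pos hn a
  have hs := Real.sq_sqrt (swing_pos hn a).le
  have hd := Real.sq_sqrt (radicand_pos hn a θ).le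
  have hn' : n ≠ 0 := hn.ne'
  have hrn : rad n a + n ≠ 0 := by positivity
  have key : (a * cB n a θ) ^ 2 * n ^ 2 = a ^ 2 * rad n a ^ 2 * swing n a * wave θ ^ 2 *
      (2 - a ^ 2 * swing n a * wave θ ^ 2) := by
    rw [cB]
    field_simp
    rw [show a ^ 2 * wave θ ^ 2 * swing n a = a ^ 2 * swing n a * wave θ ^ 2 by ring, hd, hs]
  rw [add_mul, key, cA, swing]
  have e := rad_sq n a
  field_simp
  rw [show a ^ 2 = rad n a ^ 2 - n ^ 2 by linarith]
  ring

lemma wave_half (θ : ℝ) : wave (θ + 1 / 2) = -wave θ := by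
  rw [wave, wave, show 2 * Real.pi * (θ + 1 / 2) = 2 * Real.pi * θ + Real.pi by ring, Real.sin_add_pi]

lemma wave_one (θ : ℝ) : wave (θ + 1) = wave θ := by
  rw [show θ + 1 = θ + 1 / 2 + 1 / 2 by ring, wave_half, wave_half, neg_neg]

lemma cA_one (n a θ : ℝ) : cA n a (θ + 1) = cA n a θ := by rw [cA, cA, wave_one]

lemma cB_one (n a θ : ℝ) : cB n a (θ + 1) = cB n a θ := by rw [cB, cB, wave_one]

lemma continuous_wave : Continuous wave := by unfold wave; fun_prop

lemma mean_cA (n a : ℝ) : ∫ θ in (0 : ℝ)..1, cA n a θ = 0 := by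
  have hc : Continuous fun θ => 1 - 2 * wave θ ^ 2 := by
    have := continuous_wave; fun_prop
  have hd : ∀ θ, HasDerivAt (fun t => Real.sin (2 * (2 * Real.pi * t)) / (4 * Real.pi))
      (1 - 2 * wave θ ^ 2) θ := by
    intro θ
    have h := ((((hasDerivAt_id θ).const_mul (2 * Real.pi)).const_mul 2).sin.div_const (4 * Real.pi))
    refine h.congr_deriv ?_
    rw [wave, show 1 - 2 * Real.sin (2 * Real.pi * θ) ^ 2 = Real.cos (2 * (2 * Real.pi * θ)) by
      rw [Real.cos_two_mul]; linarith [Real.sin_sq_add_cos_sq (2 * Real.pi * θ)]]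
    simp only [id, mul_one]
    field_simp
    ring
  simp only [cA, intervalIntegral.integral_div, intervalIntegral.integral_const_mul]
  rw [integral_eq_sub_of_hasDerivAt (fun θ _ => hd θ) (hc.intervalIntegrable 0 1)]
  rw [show 2 * (2 * Real.pi * 1) = ((4 : ℕ) : ℝ) * Real.pi by push_cast; ring, Real.sin_nat_mul_pi]
  simp

lemma mean_cB (n a : ℝ) : ∫ θ in (0 : ℝ)..1, cB n a θ = 0 := by
  have hp : Function.Periodic (cB n a) 1 := cB_one n a
  have h1 : (∫ θ in (0 : ℝ)..1, cB n a (θ + 1 / 2)) = ∫ θ in (0 : ℝ)..1, cB n a θ := by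
    rw [intervalIntegral.integral_comp_add_right, zero_add, add_comm (1 : ℝ)]
    simpa using hp.intervalIntegral_add_eq (1 / 2) 0
  have h2 : (∫ θ in (0 : ℝ)..1, cB n a (θ + 1 / 2)) = -∫ θ in (0 : ℝ)..1, cB n a θ := by
    rw [← intervalIntegral.integral_neg]
    exact integral_congr fun θ _ => by simp only [cB, wave_half, neg_sq]; ring
  linarith

section Smooth

variable {X : Type*} [NormedAddCommGroup X] [NormedSpace ℝ X] {n a θ : X → ℝ} {x : X}

lemma contDiffAt_rad (hn : ContDiffAt ℝ ∞ n x) (ha : ContDiffAt ℝ ∞ a x) (hpos : 0 < n x) :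
    ContDiffAt ℝ ∞ (fun y => rad (n y) (a y)) x :=
  ((hn.pow 2).add (ha.pow 2)).sqrt (by positivity)

lemma contDiffAt_wave (hθ : ContDiffAt ℝ ∞ θ x) : ContDiffAt ℝ ∞ (fun y => wave (θ y)) x :=
  (contDiffAt_const.mul hθ).sin

lemma contDiffAt_cA (hn : ContDiffAt ℝ ∞ n x) (ha : ContDiffAt ℝ ∞ a x)
    (hθ : ContDiffAt ℝ ∞ θ x) (hpos : 0 < n x) :
    ContDiffAt ℝ ∞ (fun y => cA (n y) (a y) (θ y)) x :=
  (ha.mul (contDiffAt_const.sub (contDiffAt_const.mul ((contDiffAt_wave hθ).pow 2)))).div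
    (hn.mul ((contDiffAt_rad hn ha hpos).add hn))
    (by have := rad_pos hpos (a x); positivity)

lemma contDiffAt_cB (hn : ContDiffAt ℝ ∞ n x) (ha : ContDiffAt ℝ ∞ a x)
    (hθ : ContDiffAt ℝ ∞ θ x) (hpos : 0 < n x) :
    ContDiffAt ℝ ∞ (fun y => cB (n y) (a y) (θ y)) x := by
  have hr := contDiffAt_rad hn ha hpos
  have hs : ContDiffAt ℝ ∞ (fun y => swing (n y) (a y)) x :=
    contDiffAt_const.div (hr.mul (hr.add hn)) (by have := rad_pos hpos (a x); positivity)
  exact (((hr.mul (hs.sqrt (swing_pos hpos (a x)).ne')).mul (contDiffAt_wave hθ)).mul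
    ((contDiffAt_const.sub (((ha.pow 2).mul hs).mul ((contDiffAt_wave hθ).pow 2))).sqrt
      (radicand_pos hpos (a x) (θ x)).ne')).div hn hpos.ne'

end Smooth

section Vector

variable {V : Type*} [NormedAddCommGroup V] [InnerProductSpace ℝ V]

/-- The increment of the loop, divided by the amplitude. -/
def gen (q j : V) (a θ : ℝ) : V := cA ‖q‖ a θ • q + cB ‖q‖ a θ • j

lemma gen_one (q j : V) (a θ : ℝ) : gen q j a (θ + 1) = gen q j a θ := by
  rw [gen, gen, cA_one, cB_one]

/-- The squared length along the loop. -/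
theorem norm_sq_add {q j : V} (hq : q ≠ 0) (hj : ‖j‖ = ‖q‖) (horth : ⟪q, j⟫ = 0) (a θ : ℝ) :
    ‖q + a • gen q j a θ‖ ^ 2 = ‖q‖ ^ 2 + a ^ 2 := by
  rw [← circle (norm_pos_iff.2 hq) a θ,
    show q + a • gen q j a θ = (1 + a * cA ‖q‖ a θ) • q + (a * cB ‖q‖ a θ) • j by
      simp only [gen, smul_add, smul_smul, add_smul, one_smul, add_assoc],
    norm_add_sq_real, real_inner_smul_left, real_inner_smul_right, horth, norm_smul, norm_smul,
    mul_pow, mul_pow, Real.norm_eq_abs, Real.norm_eq_abs, sq_abs, sq_abs, hj]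
  ring

/-- The increment has mean zero. -/
theorem mean_gen [CompleteSpace V] {q : V} (hq : q ≠ 0) (j : V) (a : ℝ) :
    ∫ θ in (0 : ℝ)..1, gen q j a θ = 0 := by
  have hn := norm_pos_iff.2 hq
  have hA : Continuous (cA ‖q‖ a) := continuous_iff_continuousAt.2 fun _ =>
    (contDiffAt_cA contDiffAt_const contDiffAt_const contDiffAt_id hn).continuousAt
  have hB : Continuous (cB ‖q‖ a) := continuous_iff_continuousAt.2 fun _ =>
    (contDiffAt_cB contDiffAt_const contDiffAt_const contDiffAt_id hn).continuousAt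
  simp only [gen]
  rw [intervalIntegral.integral_add ((hA.intervalIntegrable 0 1).smul_continuousOn continuousOn_const)
      ((hB.intervalIntegrable 0 1).smul_continuousOn continuousOn_const),
    intervalIntegral.integral_smul_const, intervalIntegral.integral_smul_const, mean_cA, mean_cB,
    zero_smul, zero_smul, add_zero]

/-- The increment is smooth in all data where `q` does not vanish. -/
theorem contDiffAt_gen {X : Type*} [NormedAddCommGroup X] [NormedSpace ℝ X] {q j : X → V}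
    {a θ : X → ℝ} {x : X} (hq : ContDiffAt ℝ ∞ q x) (hj : ContDiffAt ℝ ∞ j x)
    (ha : ContDiffAt ℝ ∞ a x) (hθ : ContDiffAt ℝ ∞ θ x) (h0 : q x ≠ 0) :
    ContDiffAt ℝ ∞ (fun y => gen (q y) (j y) (a y) (θ y)) x := by
  have hn : ContDiffAt ℝ ∞ (fun y => ‖q y‖) x := hq.norm ℝ h0
  have hp : 0 < ‖q x‖ := norm_pos_iff.2 h0
  exact ((contDiffAt_cA hn ha hθ hp).smul hq).add ((contDiffAt_cB hn ha hθ hp).smul hj)

end Vector

end

end Vale.Agent.P205.Loop
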