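import Mathlib
import Vale.Agent.P205.Defs
import Vale.Agent.P205.Full.ParamInt

/-!
# P205: characteristics and straightening of a line field on the plane

A line field spanned by `(1, b)`, with `b` smooth, bounded and with bounded `y`-derivative, has a
jointly smooth flow; its first integral `y + σ` straightens it globally.
-/

namespace Vale.Agent.P205.Flow

open scoped ContDiff NNReal
open Set Filter Topology

noncomputable section

/-- A smooth bounded slope with bounded `y`-derivative. -/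
structure Slope where
  /-- the slope -/
  b : R2 → ℝ
  /-- its bound -/
  B : ℝ≥0
  /-- the bound of its `y`-derivative -/
  L : ℝ≥0
  smooth : ContDiff ℝ ∞ b
  b_le : ∀ p, |b p| ≤ B
  dY_le : ∀ p, |dY b p| ≤ L

lemma hasDerivAt_dY {f : R2 → ℝ} (hf : Differentiable ℝ f) (x y : ℝ) :
    HasDerivAt (fun z => f (x, z)) (dY f (x, y)) y :=
  (hf (x, y)).hasFDerivAt.comp_hasDerivAt y ((hasDerivAt_const y x).prodMk (hasDerivAt_id y))

/-- An integral over the unit interval of a `C^n` function is `C^n` in the parameter. -/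
lemma contDiff_integral01_nat {E : Type} [NormedAddCommGroup E] [NormedSpace ℝ E]
    [FiniteDimensional ℝ E] (n : ℕ) : ∀ {V : Type} [NormedAddCommGroup V] [NormedSpace ℝ V]
    [CompleteSpace V] {F : E × ℝ → V}, ContDiff ℝ n F →
      ContDiff ℝ n fun x => ∫ t in (0 : ℝ)..1, F (x, t) := by
  induction n with
  | zero =>
    intro V _ _ _ F hF
    rw [show ((0 : ℕ) : WithTop ℕ∞) = 0 from rfl, contDiff_zero] at hF ⊢
    exact intervalIntegral.continuous_parametric_intervalIntegral_of_continuous'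
      (f := fun x t => F (x, t)) hF 0 1
  | succ n ih =>
    intro V _ _ _ F hF
    have hF' := hF
    rw [show ((n + 1 : ℕ) : WithTop ℕ∞) = (n : WithTop ℕ∞) + 1 from rfl,
      contDiff_succ_iff_fderiv] at hF' ⊢
    have h1 : ContDiff ℝ 1 F := hF.of_le (by exact_mod_cast Nat.le_add_left 1 n)
    refine ⟨fun x => (ParamInt.hasFDerivAt_integral01 h1 x).differentiableAt, by simp, ?_⟩
    rw [show fderiv ℝ (fun x => ∫ t in (0 : ℝ)..1, F (x, t)) = fun x => ∫ t in (0 : ℝ)..1,
        (fun z => (fderiv ℝ F z).comp (ContinuousLinearMap.inl ℝ E ℝ)) (x, t) from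
      funext fun x => (ParamInt.hasFDerivAt_integral01 h1 x).fderiv]
    exact ih (hF'.2.2.clm_comp contDiff_const)

namespace Slope

variable (S : Slope)

lemma differentiable : Differentiable ℝ S.b := S.smooth.differentiable (by simp)

lemma contDiff_dY : ContDiff ℝ ∞ (dY S.b) :=
  (S.smooth.fderiv_right (m := ∞) le_rfl).clm_apply contDiff_const

/-- The mean slope of `b` between two heights. -/
def avg (x a c : ℝ) : ℝ := ∫ t in (0 : ℝ)..1, dY S.b (x, a + t * (c - a))

lemma continuous_avg : Continuous fun w : ℝ × ℝ × ℝ => S.avg w.1 w.2.1 w.2.2 := by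
  refine intervalIntegral.continuous_parametric_intervalIntegral_of_continuous' ?_ 0 1
  have := S.contDiff_dY.continuous
  fun_prop

lemma abs_avg_le (x a c : ℝ) : |S.avg x a c| ≤ S.L := by
  simpa [avg] using intervalIntegral.norm_integral_le_of_norm_le_const (a := (0 : ℝ)) (b := 1)
    (f := fun t => dY S.b (x, a + t * (c - a))) (C := S.L) fun t _ => S.dY_le _

lemma sub_eq_avg (x a c : ℝ) : S.b (x, c) - S.b (x, a) = S.avg x a c * (c - a) := by
  have hd : ∀ t : ℝ, HasDerivAt (fun s => S.b (x, a + s * (c - a)))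
      (dY S.b (x, a + t * (c - a)) * (c - a)) t := fun t => by
    have h : HasDerivAt (fun s : ℝ => a + s * (c - a)) (c - a) t := by
      simpa using ((hasDerivAt_id t).mul_const (c - a)).const_add a
    exact (hasDerivAt_dY S.differentiable x _).comp t h
  have hc : Continuous fun t : ℝ => dY S.b (x, a + t * (c - a)) * (c - a) := by
    have := S.contDiff_dY.continuous
    fun_prop
  rw [avg, ← intervalIntegral.integral_mul_const,
    intervalIntegral.integral_eq_sub_of_hasDerivAt (fun t _ => hd t) (hc.intervalIntegrable 0 1)]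
  simp

lemma lipschitz (x : ℝ) : LipschitzWith S.L fun y => S.b (x, y) :=
  LipschitzWith.of_dist_le_mul fun c a => by
    rw [Real.dist_eq, Real.dist_eq, S.sub_eq_avg, abs_mul]
    exact mul_le_mul_of_nonneg_right (S.abs_avg_le _ _ _) (abs_nonneg _)

lemma exists_on_Icc {T : ℝ} (hT : 0 < T) (y : ℝ) : ∃ f : ℝ → ℝ, f 0 = y ∧
    ∀ x ∈ Ioo (-T) T, HasDerivAt f (S.b (x, f x)) x := by
  have hpl : IsPicardLindelof (fun x u => S.b (x, u)) (tmin := -T) (tmax := T)
      ⟨0, by constructor <;> linarith⟩ y (S.B * T.toNNReal) 0 S.B S.L := by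
    refine ⟨fun x _ => (S.lipschitz x).lipschitzOnWith, fun u _ => ?_, fun x _ u _ => S.b_le _, ?_⟩
    · have := S.smooth.continuous
      fun_prop
    · simp [Real.coe_toNNReal _ hT.le]
  obtain ⟨f, h0, hf⟩ := hpl.exists_eq_forall_mem_Icc_hasDerivWithinAt₀
  exact ⟨f, h0, fun x hx =>
    (hf x (Ioo_subset_Icc_self hx)).hasDerivAt (Icc_mem_nhds hx.1 hx.2)⟩

lemma exists_solution (y : ℝ) :
    ∃ f : ℝ → ℝ, f 0 = y ∧ ∀ x, HasDerivAt f (S.b (x, f x)) x := by
  choose f h0 hf using fun n : ℕ => S.exists_on_Icc (T := (n : ℝ) + 1) (by positivity) y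
  have heq : ∀ m n : ℕ, ∀ x, |x| < (m : ℝ) + 1 → |x| < (n : ℝ) + 1 → f m x = f n x := by
    intro m n x hm hn
    obtain ⟨T, hT⟩ : ∃ T : ℝ, T = min ((m : ℝ) + 1) ((n : ℝ) + 1) := ⟨_, rfl⟩
    have hT0 : 0 < T := hT ▸ lt_min (by positivity) (by positivity)
    have hTm : T ≤ (m : ℝ) + 1 := hT ▸ min_le_left _ _
    have hTn : T ≤ (n : ℝ) + 1 := hT ▸ min_le_right _ _
    have hx : x ∈ Ioo (-T) T := abs_lt.1 (hT ▸ lt_min hm hn)
    exact ODE_solution_unique_of_mem_Ioo (v := fun x u => S.b (x, u)) (s := fun _ => univ)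
      (K := S.L) (fun t _ => (S.lipschitz t).lipschitzOnWith) (t₀ := 0)
      ⟨by linarith, hT0⟩
      (fun t ht => ⟨hf m t ⟨by linarith [ht.1], by linarith [ht.2]⟩, trivial⟩)
      (fun t ht => ⟨hf n t ⟨by linarith [ht.1], by linarith [ht.2]⟩, trivial⟩)
      (by rw [h0, h0]) hx
  refine ⟨fun x => f ⌈|x|⌉₊ x, by simp [h0], fun x => ?_⟩
  have hx : |x| < (⌈|x|⌉₊ : ℝ) + 1 := by linarith [Nat.le_ceil |x|]
  refine (hf ⌈|x|⌉₊ x (abs_lt.1 hx)).congr_of_eventuallyEq ?_
  filter_upwards [continuous_abs.continuousAt.eventually (gt_mem_nhds hx)] with z hz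
  exact heq _ _ z (by linarith [Nat.le_ceil |z|]) hz

/-- The characteristic through `(0, y)`, at `x`, as a function of `(x, y)`. -/
def Y (p : R2) : ℝ := (S.exists_solution p.2).choose p.1

lemma Y_zero (y : ℝ) : S.Y (0, y) = y := (S.exists_solution y).choose_spec.1

lemma hasDerivAt_Y (x y : ℝ) : HasDerivAt (fun s => S.Y (s, y)) (S.b (x, S.Y (x, y))) x :=
  (S.exists_solution y).choose_spec.2 x

/-- Characteristics are unique. -/
theorem eq_Y {f : ℝ → ℝ} {y : ℝ} (h0 : f 0 = y) (hf : ∀ x, HasDerivAt f (S.b (x, f x)) x)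
    (x : ℝ) : f x = S.Y (x, y) :=
  congrFun (ODE_solution_unique_univ (v := fun x u => S.b (x, u)) (s := fun _ => univ) (K := S.L)
    (t₀ := 0) (fun t => (S.lipschitz t).lipschitzOnWith) (fun t => ⟨hf t, trivial⟩)
    (fun t => ⟨S.hasDerivAt_Y t y, trivial⟩) (by rw [h0, S.Y_zero])) x

lemma lipschitz_time (y : ℝ) : LipschitzWith S.B fun x => S.Y (x, y) :=
  lipschitzWith_of_nnnorm_deriv_le (fun x => (S.hasDerivAt_Y x y).differentiableAt) fun x => by
    rw [(S.hasDerivAt_Y x y).deriv, ← NNReal.coe_le_coe, coe_nnnorm]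
    exact S.b_le _

lemma continuous_time (y : ℝ) : Continuous fun x => S.Y (x, y) := (S.lipschitz_time y).continuous

/-- The characteristics move at most at speed `B`. -/
theorem abs_Y_sub_le (x y : ℝ) : |S.Y (x, y) - y| ≤ S.B * |x| := by
  simpa [Real.dist_eq, S.Y_zero] using (S.lipschitz_time y).dist_le_mul x 0

/-- Two characteristics differ by an exponential factor. -/
lemma Y_sub_eq (x y z : ℝ) : S.Y (x, z) - S.Y (x, y)
    = (z - y) * Real.exp (∫ s in (0 : ℝ)..x, S.avg s (S.Y (s, y)) (S.Y (s, z))) := by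
  obtain ⟨α, hα⟩ : ∃ α : ℝ → ℝ, α = fun s => S.avg s (S.Y (s, y)) (S.Y (s, z)) := ⟨_, rfl⟩
  have hc : Continuous α := hα ▸ S.continuous_avg.comp
    (continuous_id.prodMk ((S.continuous_time y).prodMk (S.continuous_time z)))
  have hI : ∀ s, HasDerivAt (fun t => ∫ u in (0 : ℝ)..t, α u) (α s) s := fun s =>
    intervalIntegral.integral_hasDerivAt_right (hc.intervalIntegrable 0 s)
      (hc.stronglyMeasurableAtFilter _ _) hc.continuousAt
  have hd : ∀ s, HasDerivAt
      (fun t => (S.Y (t, z) - S.Y (t, y)) * Real.exp (-∫ u in (0 : ℝ)..t, α u)) 0 s := fun s => by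
    refine (((S.hasDerivAt_Y s z).sub (S.hasDerivAt_Y s y)).mul (hI s).neg.exp).congr_deriv ?_
    simp only [Pi.sub_apply, Pi.neg_apply]
    rw [S.sub_eq_avg, show α s = S.avg s (S.Y (s, y)) (S.Y (s, z)) by rw [hα]]
    ring
  have h := is_const_of_deriv_eq_zero (fun s => (hd s).differentiableAt) (fun s => (hd s).deriv) x 0
  rw [intervalIntegral.integral_same, neg_zero, Real.exp_zero, mul_one, S.Y_zero, S.Y_zero] at h
  rw [← h, mul_assoc, ← Real.exp_add]
  simp [hα]

lemma abs_Y_sub_le' (x y z : ℝ) :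
    |S.Y (x, z) - S.Y (x, y)| ≤ |z - y| * Real.exp (S.L * |x|) := by
  rw [S.Y_sub_eq, abs_mul, Real.abs_exp]
  refine mul_le_mul_of_nonneg_left (Real.exp_le_exp.2 ((le_abs_self _).trans ?_)) (abs_nonneg _)
  simpa using intervalIntegral.norm_integral_le_of_norm_le_const (a := (0 : ℝ)) (b := x)
    (f := fun s => S.avg s (S.Y (s, y)) (S.Y (s, z))) (C := S.L) fun t _ => S.abs_avg_le _ _ _

lemma continuous_Y : Continuous S.Y := by
  refine continuous_iff_continuousAt.2 fun p => tendsto_iff_dist_tendsto_zero.2 ?_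
  refine squeeze_zero (fun _ => dist_nonneg)
    (g := fun q : R2 => S.B * |q.1 - p.1| + |q.2 - p.2| * Real.exp (S.L * |p.1|)) (fun q => ?_) ?_
  · refine (dist_triangle _ (S.Y (p.1, q.2)) _).trans (add_le_add ?_ ?_)
    · simpa [Real.dist_eq] using (S.lipschitz_time q.2).dist_le_mul q.1 p.1
    · simpa [Real.dist_eq] using S.abs_Y_sub_le' p.1 p.2 q.2
  · exact (Continuous.tendsto' (by fun_prop) p 0 (by simp))

/-- The `y`-derivative of the flow. -/
def E (p : R2) : ℝ :=
  Real.exp (p.1 * ∫ t in (0 : ℝ)..1, dY S.b (p.1 * t, S.Y (p.1 * t, p.2)))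

lemma E_pos (p : R2) : 0 < S.E p := Real.exp_pos _

lemma hasDerivAt_space (x y : ℝ) : HasDerivAt (fun z => S.Y (x, z)) (S.E (x, y)) y := by
  obtain ⟨G, hG⟩ : ∃ G : ℝ → ℝ, G = fun z => Real.exp
      (x * ∫ t in (0 : ℝ)..1, S.avg (x * t) (S.Y (x * t, y)) (S.Y (x * t, z))) := ⟨_, rfl⟩
  have hGe : ∀ z, G z = Real.exp (∫ s in (0 : ℝ)..x, S.avg s (S.Y (s, y)) (S.Y (s, z))) := fun z => by
    rw [hG]
    simp only
    rw [show x * (∫ t in (0 : ℝ)..1, S.avg (x * t) (S.Y (x * t, y)) (S.Y (x * t, z)))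
      = x • ∫ t in (0 : ℝ)..1, S.avg (x * t) (S.Y (x * t, y)) (S.Y (x * t, z)) from rfl,
      intervalIntegral.smul_integral_comp_mul_left (fun s => S.avg s (S.Y (s, y)) (S.Y (s, z))) x,
      mul_zero, mul_one]
  have hGc : Continuous G := by
    rw [hG]
    refine Real.continuous_exp.comp (continuous_const.mul
      (intervalIntegral.continuous_parametric_intervalIntegral_of_continuous' ?_ 0 1))
    have h1 : Continuous fun w : ℝ × ℝ => S.Y (x * w.2, y) := by
      have := S.continuous_Y; fun_prop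
    have h2 : Continuous fun w : ℝ × ℝ => S.Y (x * w.2, w.1) := by
      have := S.continuous_Y; fun_prop
    exact S.continuous_avg.comp ((continuous_const.mul continuous_snd).prodMk (h1.prodMk h2))
  have hGy : G y = S.E (x, y) := by simp [hG, E, avg]
  rw [← hGy, hasDerivAt_iff_tendsto_slope]
  refine ((hGc.tendsto y).mono_left nhdsWithin_le_nhds).congr' ?_
  filter_upwards [self_mem_nhdsWithin] with z hz
  have hne : z - y ≠ 0 := sub_ne_zero.2 hz
  rw [slope_def_field, S.Y_sub_eq, ← hGe]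
  field_simp

lemma hasStrictFDerivAt_Y (p : R2) : HasStrictFDerivAt S.Y
    (S.b (p.1, S.Y p) • ContinuousLinearMap.fst ℝ ℝ ℝ + S.E p • ContinuousLinearMap.snd ℝ ℝ ℝ) p := by
  have hY := S.continuous_Y
  have hb := S.smooth.continuous
  have hE : Continuous S.E := Real.continuous_exp.comp (continuous_fst.mul
    (intervalIntegral.continuous_parametric_intervalIntegral_of_continuous' (by
      have := S.contDiff_dY.continuous; fun_prop) 0 1))
  have h := hasStrictFDerivAt_uncurry_coprod (f := fun x y => S.Y (x, y))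
    (f₁ := fun x y => S.b (x, S.Y (x, y)) • ContinuousLinearMap.id ℝ ℝ)
    (f₂ := fun x y => S.E (x, y) • ContinuousLinearMap.id ℝ ℝ) (u := p)
    (Eventually.of_forall fun v => by
      refine (S.hasDerivAt_Y v.1 v.2).hasFDerivAt.congr_fderiv ?_
      ext; simp [Function.HasUncurry.uncurry])
    (Eventually.of_forall fun v => by
      refine (S.hasDerivAt_space v.1 v.2).hasFDerivAt.congr_fderiv ?_
      ext; simp [Function.HasUncurry.uncurry])
    (((hb.comp (continuous_fst.prodMk hY)).smul continuous_const).continuousAt)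
    ((hE.smul continuous_const).continuousAt)
  refine h.congr_fderiv ?_
  ext <;> simp [Function.HasUncurry.uncurry]

lemma contDiff_Y_nat (n : ℕ) : ContDiff ℝ n S.Y := by
  induction n with
  | zero => exact contDiff_zero.2 S.continuous_Y
  | succ n ih =>
    rw [show ((n + 1 : ℕ) : WithTop ℕ∞) = (n : WithTop ℕ∞) + 1 from rfl, contDiff_succ_iff_fderiv]
    refine ⟨fun p => (S.hasStrictFDerivAt_Y p).differentiableAt, by simp, ?_⟩
    rw [funext fun p => (S.hasStrictFDerivAt_Y p).hasFDerivAt.fderiv]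
    have hn : (n : WithTop ℕ∞) ≤ ∞ := by exact_mod_cast le_top
    refine (((S.smooth.of_le hn).comp (contDiff_fst.prodMk ih)).smul contDiff_const).add
      (ContDiff.smul (Real.contDiff_exp.comp (contDiff_fst.mul
        (contDiff_integral01_nat n (F := fun w : R2 × ℝ =>
          dY S.b (w.1.1 * w.2, S.Y (w.1.1 * w.2, w.1.2))) ?_))) contDiff_const)
    have h1 : ContDiff ℝ n (fun w : R2 × ℝ => w.1.1 * w.2) :=
      (contDiff_fst.comp contDiff_fst).mul contDiff_snd
    exact (S.contDiff_dY.of_le hn).comp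
      (h1.prodMk (ih.comp (h1.prodMk (contDiff_snd.comp contDiff_fst))))

/-- The flow is jointly smooth. -/
theorem contDiff_Y : ContDiff ℝ ∞ S.Y := contDiff_infty.2 S.contDiff_Y_nat

lemma strictMono_Y (x : ℝ) : StrictMono fun y => S.Y (x, y) :=
  strictMono_of_deriv_pos fun y => by rw [(S.hasDerivAt_space x y).deriv]; exact S.E_pos _

lemma surjective_Y (x : ℝ) : Function.Surjective fun y => S.Y (x, y) := by
  have hc : Continuous fun y => S.Y (x, y) := S.continuous_Y.comp (Continuous.prodMk_right x)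
  refine hc.surjective ?_ ?_
  · refine tendsto_atTop_mono (fun y => ?_) (tendsto_atTop_add_const_right _ (-(S.B * |x|)) tendsto_id)
    simp only [id]
    linarith [(abs_le.1 (S.abs_Y_sub_le x y)).1]
  · refine tendsto_atBot_mono (fun y => ?_) (tendsto_atBot_add_const_right _ (S.B * |x| : ℝ) tendsto_id)
    simp only [id]
    linarith [(abs_le.1 (S.abs_Y_sub_le x y)).2]

/-- The first integral: the height at `x = 0` of the characteristic through a point. -/
def phi (p : R2) : ℝ := (S.surjective_Y p.1 p.2).choose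

lemma Y_phi (p : R2) : S.Y (p.1, S.phi p) = p.2 := (S.surjective_Y p.1 p.2).choose_spec

lemma phi_Y (x y : ℝ) : S.phi (x, S.Y (x, y)) = y := (S.strictMono_Y x).injective (S.Y_phi _)

/-- The first integral is smooth. -/
theorem contDiff_phi : ContDiff ℝ ∞ S.phi := by
  refine contDiff_iff_contDiffAt.2 fun p => ?_
  obtain ⟨a, ha⟩ : ∃ a : R2, a = (p.1, S.phi p) := ⟨_, rfl⟩
  obtain ⟨H, hH⟩ : ∃ H : R2 → R2, H = fun q => (q.1, S.Y q) := ⟨_, rfl⟩
  obtain ⟨c, hc⟩ : ∃ c, c = S.b (a.1, S.Y a) := ⟨_, rfl⟩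
  obtain ⟨e, he⟩ : ∃ e, e = S.E a := ⟨_, rfl⟩
  have he0 : e ≠ 0 := he ▸ (S.E_pos a).ne'
  let D : R2 ≃L[ℝ] R2 := ContinuousLinearEquiv.equivOfInverse
    ((ContinuousLinearMap.fst ℝ ℝ ℝ).prod
      (c • ContinuousLinearMap.fst ℝ ℝ ℝ + e • ContinuousLinearMap.snd ℝ ℝ ℝ))
    ((ContinuousLinearMap.fst ℝ ℝ ℝ).prod
      (e⁻¹ • (ContinuousLinearMap.snd ℝ ℝ ℝ - c • ContinuousLinearMap.fst ℝ ℝ ℝ)))
    (fun v => by ext <;> simp [he0])
    (fun v => by ext <;> simp [he0])
  have hD : HasFDerivAt H (D : R2 →L[ℝ] R2) a := by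
    rw [hH, show (D : R2 →L[ℝ] R2) = (ContinuousLinearMap.fst ℝ ℝ ℝ).prod
      (c • ContinuousLinearMap.fst ℝ ℝ ℝ + e • ContinuousLinearMap.snd ℝ ℝ ℝ) from rfl, hc, he]
    exact hasFDerivAt_fst.prodMk (S.hasStrictFDerivAt_Y a).hasFDerivAt
  have hHs : ContDiffAt ℝ ∞ H a := hH ▸ (contDiff_fst.prodMk S.contDiff_Y).contDiffAt
  have hHa : H a = p := by
    rw [hH, ha]; simp [S.Y_phi]
  have hG := hHs.to_localInverse hD (by simp)
  have hR := (hHs.hasStrictFDerivAt' hD (by simp)).eventually_right_inverse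
  rw [hHa] at hG hR
  refine (contDiff_snd.contDiffAt.comp p hG).congr_of_eventuallyEq ?_
  have hinj : ∀ w q, H w = q → S.phi q = w.2 := fun w q h => by
    rw [← h, congrFun hH w]; exact S.phi_Y w.1 w.2
  filter_upwards [hR] with q hq using hinj _ _ hq

/-- The first integral is constant along the line field and increases with `y`. -/
theorem phi_equation (p : R2) : dX S.phi p + S.b p * dY S.phi p = 0 ∧ 0 < dY S.phi p := by
  have hd : HasFDerivAt S.phi (fderiv ℝ S.phi p) (p.1, S.Y (p.1, S.phi p)) := by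
    rw [S.Y_phi]; exact ((S.contDiff_phi.differentiable (by simp)) p).hasFDerivAt
  constructor
  · have h := hd.comp_hasDerivAt p.1 ((hasDerivAt_id p.1).prodMk (S.hasDerivAt_Y p.1 (S.phi p)))
    have h0 : HasDerivAt (fun _ : ℝ => S.phi p) 0 p.1 := hasDerivAt_const _ _
    have := (h.congr_of_eventuallyEq (Eventually.of_forall fun s => (S.phi_Y s _).symm)).unique h0
    rw [S.Y_phi, show ((1, S.b (p.1, p.2)) : R2) = (1, 0) + S.b (p.1, p.2) • (0, 1) by simp,
      map_add, map_smul] at this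
    simpa [dX, dY] using this
  · have h := hd.comp_hasDerivAt (S.phi p)
      ((hasDerivAt_const _ p.1).prodMk (S.hasDerivAt_space p.1 (S.phi p)))
    have := (h.congr_of_eventuallyEq (Eventually.of_forall fun s => (S.phi_Y p.1 s).symm)).unique
      (hasDerivAt_id (S.phi p))
    rw [show ((0, S.E (p.1, S.phi p)) : R2) = S.E (p.1, S.phi p) • (0, 1) by simp,
      map_smul, smul_eq_mul] at this
    exact pos_of_mul_pos_right (this ▸ one_pos : 0 < S.E _ * dY S.phi p) (S.E_pos _).le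

lemma phi_zero (y : ℝ) : S.phi (0, y) = y := by simpa [S.Y_zero] using S.phi_Y 0 y

lemma abs_phi_sub_le (p : R2) : |S.phi p - p.2| ≤ S.B * |p.1| := by
  rw [abs_sub_comm]
  simpa [S.Y_phi] using S.abs_Y_sub_le p.1 (S.phi p)

/-- A horizontal line without slope is a characteristic. -/
theorem phi_eq_of_row {y : ℝ} (h : ∀ x, S.b (x, y) = 0) (x : ℝ) : S.phi (x, y) = y := by
  have := S.eq_Y (f := fun _ => y) rfl (fun s => by simpa [h] using hasDerivAt_const s y) x
  simpa [← this] using S.phi_Y x y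

/-- Before the slope starts, nothing moves. -/
theorem phi_eq_of_left (h : ∀ p : R2, p.1 ≤ 0 → S.b p = 0) {x : ℝ} (hx : x ≤ 0) (y : ℝ) :
    S.phi (x, y) = y := by
  have hY : S.Y (x, y) = y := by
    have := constant_of_has_deriv_right_zero (f := fun s => S.Y (s, y)) (a := x) (b := 0)
      (S.continuous_time y).continuousOn (fun s hs => by
        simpa [h (s, S.Y (s, y)) hs.2.le] using (S.hasDerivAt_Y s y).hasDerivWithinAt)
      0 (right_mem_Icc.2 hx)
    simpa [S.Y_zero] using this.symm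
  simpa [hY] using S.phi_Y x y

/-- A period in `y` is a period of the displacement. -/
theorem phi_add_period {c : ℝ} (h : ∀ p : R2, S.b (p.1, p.2 + c) = S.b p) (x y : ℝ) :
    S.phi (x, y + c) = S.phi (x, y) + c := by
  have hY : ∀ z, S.Y (x, z + c) = S.Y (x, z) + c := fun z =>
    (S.eq_Y (f := fun s => S.Y (s, z) + c) (by rw [S.Y_zero]) (fun s => by
      simpa [h (s, S.Y (s, z))] using (S.hasDerivAt_Y s z).add_const c) x).symm
  have hy : S.Y (x, S.phi (x, y)) = y := S.Y_phi (x, y)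
  have := S.phi_Y x (S.phi (x, y) + c)
  rwa [hY, hy] at this

/-- The slope seen from the vertical line `x = a`. -/
def shift (a : ℝ) : Slope where
  b p := S.b (p.1 + a, p.2)
  B := S.B
  L := S.L
  smooth := S.smooth.comp ((contDiff_fst.add contDiff_const).prodMk contDiff_snd)
  b_le _ := S.b_le _
  dY_le p := by
    have hd : Differentiable ℝ fun p : R2 => S.b (p.1 + a, p.2) :=
      (S.smooth.comp ((contDiff_fst.add contDiff_const).prodMk contDiff_snd)).differentiable
        (by simp)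
    rw [(hasDerivAt_dY hd p.1 p.2).unique (hasDerivAt_dY S.differentiable (p.1 + a) p.2)]
    exact S.dY_le _

/-- **Straightening.** `(x, y) ↦ (x, y + σ)` is a diffeomorphism of the plane, the identity on
`x = a`, which makes the line field `(1, b)` horizontal. -/
theorem exists_straighten (a : ℝ) :
    ∃ σ τ : R2 → ℝ, ContDiff ℝ ∞ σ ∧ ContDiff ℝ ∞ τ ∧
      (∀ x y, τ (x, y + σ (x, y)) = -σ (x, y) ∧ σ (x, y + τ (x, y)) = -τ (x, y)) ∧
      (∀ p, dX σ p + S.b p * (1 + dY σ p) = 0) ∧ (∀ p, 0 < 1 + dY σ p) ∧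
      (∀ y, σ (a, y) = 0) ∧ (∀ p, |σ p| ≤ S.B * |p.1 - a|) ∧
      ((∀ p : R2, p.1 ≤ a → S.b p = 0) → ∀ p : R2, p.1 ≤ a → σ p = 0) ∧
      (∀ y, (∀ x, S.b (x, y) = 0) → ∀ x, σ (x, y) = 0) ∧
      ∀ c, (∀ p : R2, S.b (p.1, p.2 + c) = S.b p) → ∀ p : R2, σ (p.1, p.2 + c) = σ p := by
  obtain ⟨T, hT⟩ : ∃ T, T = S.shift a := ⟨_, rfl⟩
  have hb : ∀ p : R2, T.b p = S.b (p.1 + a, p.2) := fun p => by rw [hT]; rfl
  have hm : ContDiff ℝ ∞ fun p : R2 => ((p.1 - a, p.2) : R2) :=
    (contDiff_fst.sub contDiff_const).prodMk contDiff_snd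
  obtain ⟨σ, hσ⟩ : ∃ σ : R2 → ℝ, σ = fun p => T.phi (p.1 - a, p.2) - p.2 := ⟨_, rfl⟩
  obtain ⟨τ, hτ⟩ : ∃ τ : R2 → ℝ, τ = fun p => T.Y (p.1 - a, p.2) - p.2 := ⟨_, rfl⟩
  have hs : ContDiff ℝ ∞ σ := hσ ▸ (T.contDiff_phi.comp hm).sub contDiff_snd
  have hd : ∀ p, fderiv ℝ σ p
      = fderiv ℝ T.phi (p.1 - a, p.2) - ContinuousLinearMap.snd ℝ ℝ ℝ := fun p => by
    have h1 : HasFDerivAt (fun q : R2 => ((q.1 - a, q.2) : R2)) (ContinuousLinearMap.id ℝ R2) p := by
      rw [show (fun q : R2 => ((q.1 - a, q.2) : R2)) = fun q => q + (-a, 0) from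
        funext fun q => Prod.ext (sub_eq_add_neg q.1 a) (add_zero q.2).symm]
      exact (hasFDerivAt_id p).add_const _
    have h2 := ((T.contDiff_phi.differentiable (by simp)) _).hasFDerivAt.comp p h1
    rw [hσ]
    exact (h2.sub hasFDerivAt_snd).fderiv
  refine ⟨σ, τ, hs, hτ ▸ (T.contDiff_Y.comp hm).sub contDiff_snd, fun x y => ?_, fun p => ?_,
    fun p => ?_, fun y => ?_, fun p => ?_, fun h p hp => ?_, fun y h x => ?_, fun c h p => ?_⟩
  · constructor
    · simp [hσ, hτ]
      exact T.Y_phi (x - a, y)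
    · simp [hσ, hτ, T.phi_Y]
  · have := (T.phi_equation (p.1 - a, p.2)).1
    rw [hb, sub_add_cancel] at this
    simp only [dX, dY] at this ⊢
    simp [hd]
    linarith
  · have := (T.phi_equation (p.1 - a, p.2)).2
    simp only [dY] at this ⊢
    simpa [hd] using this
  · simp [hσ, T.phi_zero]
  · have := T.abs_phi_sub_le (p.1 - a, p.2)
    simpa [hσ, hT, shift] using this
  · have := T.phi_eq_of_left (fun q hq => by rw [hb]; exact h _ (by simpa using hq))
      (sub_nonpos.2 hp) p.2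
    simp [hσ, this]
  · have := T.phi_eq_of_row (y := y) (fun s => by rw [hb]; exact h _) (x - a)
    simp [hσ, this]
  · have := T.phi_add_period (c := c) (fun q => by rw [hb, hb]; exact h (q.1 + a, q.2)) (p.1 - a) p.2
    simp [hσ, this]

end Slope

/-- A compactly supported smooth function is a slope. -/
theorem exists_slope {b : R2 → ℝ} (hb : ContDiff ℝ ∞ b) (hc : HasCompactSupport b) :
    ∃ S : Slope, S.b = b := by
  obtain ⟨B, hB⟩ := hc.exists_bound_of_continuous hb.continuous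
  have hd : Continuous (fderiv ℝ b) := hb.continuous_fderiv (by simp)
  obtain ⟨L, hL⟩ := (hc.fderiv ℝ).exists_bound_of_continuous hd
  refine ⟨⟨b, B.toNNReal, L.toNNReal, hb, fun p => ?_, fun p => ?_⟩, rfl⟩
  · exact (hB p).trans (Real.le_coe_toNNReal B)
  · refine ((fderiv ℝ b p).le_opNorm _).trans ?_
    rw [show ‖((0, 1) : R2)‖ = 1 by simp [Prod.norm_def], mul_one]
    exact (hL p).trans (Real.le_coe_toNNReal L)

/-- Straightening of a compactly supported slope. -/
theorem exists_straighten {b : R2 → ℝ} (hb : ContDiff ℝ ∞ b) (hc : HasCompactSupport b) :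
    ∃ σ : R2 → ℝ, ContDiff ℝ ∞ σ ∧ ∀ p, dX (fun q => q.2 + σ q) p
      + b p * dY (fun q => q.2 + σ q) p = 0 ∧ 0 < dY (fun q => q.2 + σ q) p := by
  obtain ⟨S, rfl⟩ := exists_slope hb hc
  refine ⟨fun p => S.phi p - p.2, S.contDiff_phi.sub contDiff_snd, fun p => ?_⟩
  simpa using S.phi_equation p

end

end Vale.Agent.P205.Flow
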