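import Vale.Agent.P205.Full.Interface
import Vale.Agent.P205.Full.Flow

/-!
# P205: the chart of the hybrid step

The covector of the piece becomes `dx` and the rank one form becomes a multiple of `dy ⊗ dy`.
-/

namespace Vale.Agent.P205.Full

open Set Function
open scoped ContDiff Manifold Topology

noncomputable section

/-- A global diffeomorphism from the plane in which `ν = dx` and, near the compact set `K`,
`σ = s dy ⊗ dy` with `s > 0`. -/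
theorem exists_adapted_chart {U K : Set E2} (hU : IsOpen U) (hK : IsCompact K) (hKU : K ⊆ U)
    {ν : E2 →L[ℝ] ℝ} (hν : ν ≠ 0) {σ : Form2} (hσ : ContDiff ℝ ∞ σ)
    (hr : ∀ y ∈ U, RankOne (σ y))
    (ht : ∀ y ∈ U, ∀ u : E2, u ≠ 0 → σ y u u = 0 → ν u ≠ 0) :
    ∃ (Φ : R2 → E2) (Ψ : E2 → R2) (V : Set E2), ContDiff ℝ ∞ Φ ∧ ContDiff ℝ ∞ Ψ ∧
      (∀ y, Φ (Ψ y) = y) ∧ (∀ p, Ψ (Φ p) = p) ∧ IsOpen V ∧ K ⊆ V ∧ V ⊆ U ∧
      (∀ p v, ν (fderiv ℝ Φ p v) = v.1) ∧ (∀ p, Injective (fderiv ℝ Φ p)) ∧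
      ∀ p, Φ p ∈ V → 0 < σ (Φ p) (fderiv ℝ Φ p (0, 1)) (fderiv ℝ Φ p (0, 1)) ∧
        ∀ v w, σ (Φ p) (fderiv ℝ Φ p v) (fderiv ℝ Φ p w)
          = σ (Φ p) (fderiv ℝ Φ p (0, 1)) (fderiv ℝ Φ p (0, 1)) * v.2 * w.2 := by
  obtain ⟨u, hu⟩ : ∃ u, ν u ≠ 0 := by
    by_contra h
    push Not at h
    exact hν (ContinuousLinearMap.ext fun u => by simpa using h u)
  obtain ⟨e₁, he₁⟩ : ∃ e₁, ν e₁ = 1 := ⟨(ν u)⁻¹ • u, by simp [hu]⟩
  obtain ⟨e₂, he₂, hne₂⟩ : ∃ e₂, ν e₂ = 0 ∧ e₂ ≠ 0 := by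
    obtain ⟨x, hx, hx0⟩ := (Submodule.ne_bot_iff _).1
      (LinearMap.ker_ne_bot_of_finrank_lt (f := (ν : E2 →ₗ[ℝ] ℝ)) (by simp))
    exact ⟨x, hx, hx0⟩
  let L₀ : R2 →ₗ[ℝ] E2 := (LinearMap.fst ℝ ℝ ℝ).smulRight e₁ + (LinearMap.snd ℝ ℝ ℝ).smulRight e₂
  have hL₀ : ∀ v : R2, L₀ v = v.1 • e₁ + v.2 • e₂ := fun v => rfl
  have hinj : Injective L₀ := (injective_iff_map_eq_zero _).2 fun v hv => by
    have h1 : v.1 = 0 := by simpa [hL₀, he₁, he₂] using congrArg ν hv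
    have h2 : v.2 = 0 := by simpa [hL₀, h1, hne₂] using hv
    exact Prod.ext h1 h2
  let L : R2 ≃L[ℝ] E2 := (LinearEquiv.ofBijective L₀ ⟨hinj,
    (LinearMap.injective_iff_surjective_of_finrank_eq_finrank (by simp)).1 hinj⟩).toContinuousLinearEquiv
  have hL : ∀ v : R2, L v = v.1 • e₁ + v.2 • e₂ := fun v => rfl
  have hpos : ∀ y ∈ U, 0 < σ y e₂ e₂ := fun y hy => by
    obtain ⟨l, -, hl⟩ := hr y hy
    rw [hl]
    exact mul_self_pos.2 fun h => ht y hy e₂ hne₂ (by rw [hl, h, mul_zero]) he₂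
  obtain ⟨K₁, hK₁, hK₁i, hK₁U⟩ := exists_compact_between hK hU hKU
  obtain ⟨K₂, hK₂, hK₂i, hK₂U⟩ := exists_compact_between hK₁ hU hK₁U
  obtain ⟨χ, hχ0, hχ1, -⟩ := exists_contMDiffMap_zero_one_of_isClosed (n := ⊤) 𝓘(ℝ, E2)
    (s := (interior K₂)ᶜ) (t := K₁) isOpen_interior.isClosed_compl hK₁.isClosed
    (disjoint_left.mpr fun y hy hy' => hy (hK₂i hy'))
  obtain ⟨b, hb⟩ : ∃ b : R2 → ℝ, b = fun p => χ (L p) * (-σ (L p) e₁ e₂ / σ (L p) e₂ e₂) :=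
    ⟨_, rfl⟩
  have hbs : ContDiff ℝ ∞ b := by
    refine contDiff_iff_contDiffAt.2 fun p => ?_
    have hχp : ContDiffAt ℝ ∞ (fun q => χ (L q)) p :=
      (χ.contMDiff.contDiff.comp L.contDiff).contDiffAt
    by_cases hp : L p ∈ U
    · have hs : ∀ e e' : E2, ContDiffAt ℝ ∞ (fun q => σ (L q) e e') p := fun e e' =>
        (((hσ.comp L.contDiff).clm_apply contDiff_const).clm_apply contDiff_const).contDiffAt
      rw [hb]
      exact hχp.mul ((hs e₁ e₂).neg.div (hs e₂ e₂) (hpos _ hp).ne')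
    · refine (contDiffAt_const (c := (0 : ℝ))).congr_of_eventuallyEq ?_
      filter_upwards [(hK₂.isClosed.isOpen_compl.preimage L.continuous).mem_nhds
        fun h => hp (hK₂U h)] with q hq
      have : χ (L q) = 0 := hχ0 fun h => hq (interior_subset h)
      simp [hb, this]
  have hbc : HasCompactSupport b :=
    HasCompactSupport.intro (L.toHomeomorph.isCompact_preimage.2 hK₂) fun q hq => by
      have : χ (L q) = 0 := hχ0 fun h => hq (show L q ∈ K₂ from interior_subset h)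
      simp [hb, this]
  obtain ⟨S, hS⟩ := Flow.exists_slope hbs hbc
  obtain ⟨Φ, hΦ⟩ : ∃ Φ : R2 → E2, Φ = fun p => L (p.1, S.Y p) := ⟨_, rfl⟩
  obtain ⟨Ψ, hΨ⟩ : ∃ Ψ : E2 → R2, Ψ = fun y => ((L.symm y).1, S.phi (L.symm y)) := ⟨_, rfl⟩
  have hd : ∀ p v, fderiv ℝ Φ p v = L (v.1, S.b (p.1, S.Y p) * v.1 + S.E p * v.2) := fun p v => by
    have h := L.hasFDerivAt.comp p
      (hasFDerivAt_fst.prodMk (S.hasStrictFDerivAt_Y p).hasFDerivAt)
    rw [hΦ]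
    exact congrArg (fun T : R2 →L[ℝ] E2 => T v) h.fderiv
  refine ⟨Φ, Ψ, interior K₁, hΦ ▸ L.contDiff.comp (contDiff_fst.prodMk S.contDiff_Y),
    hΨ ▸ (contDiff_fst.comp L.symm.contDiff).prodMk (S.contDiff_phi.comp L.symm.contDiff),
    fun y => ?_, fun p => ?_, isOpen_interior, hK₁i, interior_subset.trans hK₁U, fun p v => ?_,
    fun p => ?_, fun p hp => ?_⟩
  · simp [hΦ, hΨ, S.Y_phi]
  · simp [hΦ, hΨ, S.phi_Y]
  · simp [hd, hL, he₁, he₂]
  · refine (injective_iff_map_eq_zero _).2 fun v hv => ?_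
    rw [hd] at hv
    have h := Prod.ext_iff.1 (L.injective (hv.trans (map_zero L).symm))
    have h2 : S.E p * v.2 = 0 := by simpa [show v.1 = 0 from h.1] using h.2
    exact Prod.ext h.1 ((mul_eq_zero.1 h2).resolve_left (S.E_pos p).ne')
  · have hpU : Φ p ∈ U := hK₁U (interior_subset hp)
    obtain ⟨l, -, hl⟩ := hr _ hpU
    have hp2 := hpos _ hpU
    rw [hl] at hp2
    have hχp : χ (Φ p) = 1 := hχ1 (interior_subset hp)
    have hne : l e₂ ≠ 0 := fun h => by simp [h] at hp2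
    have hslope : S.b (p.1, S.Y p) = -(l e₁ / l e₂) := by
      rw [hS, hb]
      show χ (L (p.1, S.Y p)) * _ = _
      rw [show L (p.1, S.Y p) = Φ p by rw [hΦ], hχp, hl, hl]
      field_simp
    have hlv : ∀ v, l (fderiv ℝ Φ p v) = S.E p * l e₂ * v.2 := fun v => by
      rw [hd, hL, map_add, map_smul, map_smul, hslope]
      simp only [smul_eq_mul]
      field_simp
      ring
    refine ⟨?_, fun v w => by rw [hl, hl, hlv, hlv, hlv]; ring⟩
    rw [hl, hlv]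
    exact mul_self_pos.2 (by simp [hne, (S.E_pos p).ne'])

end

end Vale.Agent.P205.Full
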