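import Vale.Agent.P205.Full.Interface

/-!
# P205: the final statement in Mathlib terms
-/

namespace Vale.Agent.P205.Full

open Bundle Function
open scoped Manifold ContDiff RealInnerProductSpace

noncomputable section

universe u

/-- `GlobalStatement` unfolded: a smooth map with injective differentials inducing the metric. -/
theorem exists_immersion_of_global (h : GlobalStatement.{u}) (M : Type u) [TopologicalSpace M]
    [T2Space M] [CompactSpace M] [ChartedSpace (EuclideanSpace ℝ (Fin 2)) M]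
    [IsManifold (𝓡 2) ∞ M]
    (g : ContMDiffRiemannianMetric (𝓡 2) ∞ (EuclideanSpace ℝ (Fin 2))
      (fun x : M => TangentSpace (𝓡 2) x)) :
    ∃ F : M → EuclideanSpace ℝ (Fin 4),
      ContMDiff (𝓡 2) 𝓘(ℝ, EuclideanSpace ℝ (Fin 4)) ∞ F ∧
      (∀ x : M, Injective (mfderiv (𝓡 2) 𝓘(ℝ, EuclideanSpace ℝ (Fin 4)) F x)) ∧
      ∀ (x : M) (v w : TangentSpace (𝓡 2) x),
        inner ℝ (show EuclideanSpace ℝ (Fin 4) from
            mfderiv (𝓡 2) 𝓘(ℝ, EuclideanSpace ℝ (Fin 4)) F x v)
          (show EuclideanSpace ℝ (Fin 4) from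
            mfderiv (𝓡 2) 𝓘(ℝ, EuclideanSpace ℝ (Fin 4)) F x w) = g.inner x v w := by
  obtain ⟨F, hF, hm⟩ := h M g
  refine ⟨F, hF, fun x => ?_, fun x v w => hm x v w⟩
  refine (injective_iff_map_eq_zero _).mpr fun v hv => ?_
  by_contra hne
  have hp : 0 < pullInner F x v v := (hm x v v).symm ▸ g.pos x v hne
  have : pullInner F x v v = 0 := by simp only [pullInner, hv]; exact inner_zero_left _
  linarith

end

end Vale.Agent.P205.Full
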