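import Vale.Agent.P205.Full.Global.Chart
import Vale.Agent.P205.Full.Algebra.Jets

/-!
# P205: the statements of the three plane steps

The plane steps act on maps `E2 → E4` inside an open set `U` and change them only in a compact
set `K₀ ⊆ U`.  `σ` is the rank one form still to be added, so `NormalAccelKer` says that the
kernel lines of `σ` have normal acceleration.
-/

namespace Vale.Agent.P205.Full

open Set Function Metric
open scoped Manifold ContDiff Topology RealInnerProductSpace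

noncomputable section

/-- A field of bilinear forms on the plane. -/
abbrev Form2 := E2 → E2 →L[ℝ] E2 →L[ℝ] ℝ

/-- The second derivative of `f` along `u` has a normal part: `II_f (u, u) ≠ 0`. -/
def NormalAccel (f : E2 → E4) (y u : E2) : Prop :=
  fderiv ℝ (fun z => fderiv ℝ f z u) y u ∉ Set.range (fderiv ℝ f y)

/-- A nonzero positive semidefinite form of rank one. -/
def RankOne (σ : E2 →L[ℝ] E2 →L[ℝ] ℝ) : Prop :=
  ∃ l : E2 →L[ℝ] ℝ, l ≠ 0 ∧ ∀ v w, σ v w = l v * l w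

/-- The kernel lines of `σ` have normal acceleration. -/
def NormalAccelKer (f : E2 → E4) (σ : Form2) (y : E2) : Prop :=
  ∀ u : E2, u ≠ 0 → σ y u u = 0 → NormalAccel f y u

/-- The induced form. -/
def pullE2 (f : E2 → E4) (y v w : E2) : ℝ := ⟪fderiv ℝ f y v, fderiv ℝ f y w⟫

/-- The closure criterion holds at `y` in some local chart. -/
def GoodAt (f : E2 → E4) (y : E2) : Prop :=
  ∃ (φ : R2 → E2) (q : R2), ContDiff ℝ ∞ φ ∧ φ q = y ∧ Injective (fderiv ℝ φ q) ∧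
    Algebra.detg (f ∘ φ) q ≠ 0 ∧ Algebra.Wsq (fun _ => 1) (f ∘ φ) q ≠ 0 ∧
    Algebra.criterion (fun _ => 1) (f ∘ φ) q ≠ 0

/-- The hybrid step: a piece `a² ν²`, transversal to the kernel of the remaining rank one form,
is added; the remaining form keeps rank one and moves by at most `ε`. -/
def HybridStatement : Prop :=
  ∀ (U K₀ : Set E2) (c : E2) (r : ℝ) (ν : E2 →L[ℝ] ℝ) (a : E2 → ℝ) (f : E2 → E4) (σ : Form2)
    (ε : ℝ),
    IsOpen U → IsCompact K₀ → K₀ ⊆ U → 0 < r → closedBall c r ⊆ interior K₀ →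
    ContDiff ℝ ∞ a → (∀ y, 0 ≤ a y) → (∀ y ∉ ball c r, a y = 0) →
    ContDiff ℝ ∞ f → ContDiff ℝ ∞ σ → (∀ y ∈ U, Injective (fderiv ℝ f y)) →
    (∀ y ∈ U, RankOne (σ y)) → (∀ y ∈ U, NormalAccelKer f σ y) →
    (∀ y ∈ U, ∀ u : E2, u ≠ 0 → σ y u u = 0 → ν u ≠ 0) → 0 < ε →
    ∃ (F : E2 → E4) (τ : Form2), ContDiff ℝ ∞ F ∧ ContDiff ℝ ∞ τ ∧ (∀ y ∉ K₀, F y = f y) ∧
      (∀ y ∈ U, Injective (fderiv ℝ F y)) ∧
      (∀ y ∈ U, ∀ v w,
        pullE2 F y v w + τ y v w = pullE2 f y v w + σ y v w + a y ^ 2 * ν v * ν w) ∧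
      (∀ y ∈ U, RankOne (τ y)) ∧ (∀ y ∈ U, NormalAccelKer F τ y) ∧
      ∀ y ∈ U, ‖τ y - σ y‖ ≤ ε

/-- Round one: a small change that makes the map good on `C`, keeps it good on `C'` and keeps
the remaining form of rank one.  The covector `ξ` is transversal to the kernel lines. -/
def GenericStatement : Prop :=
  ∀ (U K₀ C C' : Set E2) (ξ : E2 →L[ℝ] ℝ) (f : E2 → E4) (σ : Form2) (ε : ℝ),
    IsOpen U → IsCompact K₀ → K₀ ⊆ U → IsCompact C → C ⊆ interior K₀ → IsCompact C' → C' ⊆ U →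
    ContDiff ℝ ∞ f → ContDiff ℝ ∞ σ → (∀ y ∈ U, Injective (fderiv ℝ f y)) →
    (∀ y ∈ U, RankOne (σ y)) → (∀ y ∈ U, NormalAccelKer f σ y) →
    (∀ y ∈ U, ∀ u : E2, u ≠ 0 → σ y u u = 0 → ξ u ≠ 0) → (∀ y ∈ C', GoodAt f y) → 0 < ε →
    ∃ (F : E2 → E4) (τ : Form2), ContDiff ℝ ∞ F ∧ ContDiff ℝ ∞ τ ∧ (∀ y ∉ K₀, F y = f y) ∧
      (∀ y ∈ U, Injective (fderiv ℝ F y)) ∧
      (∀ y ∈ U, ∀ v w, pullE2 F y v w + τ y v w = pullE2 f y v w + σ y v w) ∧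
      (∀ y ∈ U, RankOne (τ y)) ∧ (∀ y ∈ U, NormalAccelKer F τ y) ∧
      (∀ y ∈ C ∪ C', GoodAt F y) ∧ ∀ y ∈ U, ‖τ y - σ y‖ ≤ ε

/-- Round two: the exact step along a field of covectors `ν`, on a good map.  The covector `ξ`
is transversal to the kernel lines of `ν`. -/
def ExactStatement : Prop :=
  ∀ (U K₀ : Set E2) (c : E2) (r : ℝ) (ξ : E2 →L[ℝ] ℝ) (ν : E2 → E2 →L[ℝ] ℝ) (a : E2 → ℝ)
    (f : E2 → E4),
    IsOpen U → IsCompact K₀ → K₀ ⊆ U → 0 < r → closedBall c r ⊆ interior K₀ →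
    ContDiff ℝ ∞ a → (∀ y ∉ ball c r, a y = 0) →
    ContDiff ℝ ∞ f → ContDiff ℝ ∞ ν → (∀ y ∈ U, Injective (fderiv ℝ f y)) →
    (∀ y ∈ U, ν y ≠ 0) → (∀ y ∈ U, ∀ u : E2, u ≠ 0 → ν y u = 0 → ξ u ≠ 0) →
    (∀ y ∈ U, ∀ u : E2, u ≠ 0 → ν y u = 0 → NormalAccel f y u) → (∀ y ∈ U, GoodAt f y) →
    ∃ F : E2 → E4, ContDiff ℝ ∞ F ∧ (∀ y ∉ K₀, F y = f y) ∧
      (∀ y ∈ U, ∀ v w, pullE2 F y v w = pullE2 f y v w + a y ^ 2 * ν y v * ν y w) ∧
      (∀ y ∈ U, ∀ u : E2, u ≠ 0 → ν y u = 0 → NormalAccel F y u) ∧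
      ∀ y ∈ U, GoodAt F y

/-- The full answer. -/
def GlobalStatement : Prop :=
  ∀ (M : Type*) [TopologicalSpace M] [T2Space M] [CompactSpace M] [ChartedSpace E2 M]
    [IsManifold (𝓡 2) ∞ M] (g : SurfaceMetric M), HasIsometricImmersion g

end

end Vale.Agent.P205.Full
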