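import Vale.Agent.P205.Full.Bridge.Plane
import Vale.Agent.P205.Full.Bridge.Pieces
import Vale.Agent.P205.Full.Algebra.Scalar

/-!
# P205: calculus for the chart of the hybrid step

Second derivatives of a map seen in a chart of the plane, and the induced form as a field of
bilinear forms.
-/

namespace Vale.Agent.P205.HybridAdapter

open scoped ContDiff Topology RealInnerProductSpace
open Set Function Filter
open Vale.Agent.P205.Algebra Vale.Agent.P205.Full Vale.Agent.P205.Bridge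

noncomputable section

/-- A positive metric determinant makes the differential injective. -/
lemma injective_of_detg_pos {G : R2 → V4} {p : R2} (h : 0 < detg G p) :
    Injective (fderiv ℝ G p) := by
  refine (injective_iff_map_eq_zero _).2 fun v hv => ?_
  have h1 := inner_fderiv_eq G p v (1, 0)
  have h2 := inner_fderiv_eq G p v (0, 1)
  rw [hv, inner_zero_left] at h1 h2
  simp [metF] at h1 h2
  refine Prod.ext (mul_left_cancel₀ h.ne' ?_) (mul_left_cancel₀ h.ne' ?_)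
  · simp only [detg, Prod.fst_zero, mul_zero]
    linear_combination (-(g22 G p)) * h1 + g12 G p * h2
  · simp only [detg, Prod.snd_zero, mul_zero]
    linear_combination g12 G p * h1 - g11 G p * h2

/-- The second derivative in coordinates. -/
lemma fderiv_fderiv_eq {G : R2 → V4} (hG : ContDiff ℝ ∞ G) (p u : R2) :
    fderiv ℝ (fderiv ℝ G) p u u
      = (u.1 * u.1) • F11 G p + (2 * (u.1 * u.2)) • F12 G p + (u.2 * u.2) • F22 G p := by
  have hd : DifferentiableAt ℝ (fderiv ℝ G) p :=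
    (hG.fderiv_right (m := ∞) le_rfl).differentiable (by simp) p
  have e : ∀ v w : R2, fderiv ℝ (fun z => fderiv ℝ G z v) p w = fderiv ℝ (fderiv ℝ G) p w v :=
    fun v w => by rw [fderiv_clm_apply hd (differentiableAt_const v)]; simp
  have e11 : F11 G p = fderiv ℝ (fderiv ℝ G) p (1, 0) (1, 0) := e _ _
  have e12 : F12 G p = fderiv ℝ (fderiv ℝ G) p (0, 1) (1, 0) := e _ _
  have e22 : F22 G p = fderiv ℝ (fderiv ℝ G) p (0, 1) (0, 1) := e _ _
  have hs : fderiv ℝ (fderiv ℝ G) p (1, 0) (0, 1) = fderiv ℝ (fderiv ℝ G) p (0, 1) (1, 0) :=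
    (hG.contDiffAt.isSymmSndFDerivAt (by rw [minSmoothness_of_isRCLikeNormedField]; exact WithTop.coe_le_coe.2 (le_top (a := (2 : ℕ∞))))).eq _ _
  rw [show fderiv ℝ (fderiv ℝ G) p u u = fderiv ℝ (fderiv ℝ G) p (u.1 • (1, 0) + u.2 • (0, 1))
    (u.1 • (1, 0) + u.2 • (0, 1)) by
      rw [show u.1 • ((1 : ℝ), (0 : ℝ)) + u.2 • ((0 : ℝ), (1 : ℝ)) = u by ext <;> simp]]
  simp only [map_add, map_smul, add_apply, smul_apply, smul_add, smul_smul, e11, e12, e22, hs]
  module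

/-- The acceleration along the image of a vector, in the chart. -/
lemma normalAccel_iff_chart {f : E2 → E4} {Φ : R2 → E2} (hf : ContDiff ℝ ∞ f)
    (hΦ : ContDiff ℝ ∞ Φ) {p : R2} (hs : Surjective (fderiv ℝ Φ p)) (v : R2) :
    NormalAccel f (Φ p) (fderiv ℝ Φ p v) ↔
      fderiv ℝ (fderiv ℝ (f ∘ Φ)) p v v ∉ range (fderiv ℝ (f ∘ Φ) p) := by
  have hf' : Differentiable ℝ (fderiv ℝ f) :=
    (hf.fderiv_right (m := ∞) le_rfl).differentiable (by simp)
  have hΦ' : Differentiable ℝ (fderiv ℝ Φ) :=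
    (hΦ.fderiv_right (m := ∞) le_rfl).differentiable (by simp)
  have e : fderiv ℝ (f ∘ Φ) = fun q => (fderiv ℝ f (Φ q)).comp (fderiv ℝ Φ q) := funext fun q =>
    fderiv_comp q (hf.differentiable (by simp) _) (hΦ.differentiable (by simp) _)
  have hd : DifferentiableAt ℝ (fun q => fderiv ℝ f (Φ q)) p :=
    (hf' _).comp p (hΦ.differentiable (by simp) p)
  have hc : fderiv ℝ (fun q => fderiv ℝ f (Φ q)) p
      = (fderiv ℝ (fderiv ℝ f) (Φ p)).comp (fderiv ℝ Φ p) :=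
    fderiv_comp p (hf' _) (hΦ.differentiable (by simp) p)
  rw [normalAccel_iff hf.contDiffAt, e, fderiv_clm_comp hd (hΦ' p)]
  simp only [hc, add_apply, ContinuousLinearMap.comp_apply, ContinuousLinearMap.compL_apply,
    ContinuousLinearMap.flip_apply]
  have hr : range (⇑((fderiv ℝ f (Φ p)).comp (fderiv ℝ Φ p)) : R2 → E4)
      = range (fderiv ℝ f (Φ p)) := hs.range_comp _
  rw [hr]
  constructor
  · rintro h ⟨a, ha⟩
    exact h ⟨a - fderiv ℝ (fderiv ℝ Φ) p v v, by rw [map_sub, ha]; abel⟩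
  · rintro h ⟨a, ha⟩
    exact h ⟨fderiv ℝ (fderiv ℝ Φ) p v v + a, by rw [map_add, ha]⟩

/-- The induced form as a field of bilinear forms. -/
def gram (f : E2 → E4) : Form2 := fun y =>
  (innerSL ℝ (E := E4)).bilinearComp (fderiv ℝ f y) (fderiv ℝ f y)

lemma gram_apply (f : E2 → E4) (y v w : E2) : gram f y v w = pullE2 f y v w := rfl

lemma contDiff_gram {f : E2 → E4} (hf : ContDiff ℝ ∞ f) : ContDiff ℝ ∞ (gram f) := by
  have hd : ∀ v, ContDiff ℝ ∞ fun y => fderiv ℝ f y v := fun v =>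
    (hf.fderiv_right (m := ∞) le_rfl).clm_apply contDiff_const
  exact contDiff_clm_apply_iff.2 fun v => contDiff_clm_apply_iff.2 fun w => by
    simpa only [gram_apply, pullE2] using (hd v).inner ℝ (hd w)

lemma gram_congr {f g : E2 → E4} {y : E2} (h : f =ᶠ[𝓝 y] g) : gram f y = gram g y := by
  simp only [gram, h.fderiv_eq]

/-- The bilinear form with coefficients `r`. -/
def form (r : Fin 3 → ℝ) (x z : R2) : ℝ :=
  r 0 * (x.1 * z.1) + r 1 * (x.1 * z.2 + x.2 * z.1) + r 2 * (x.2 * z.2)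

/-- A degenerate form with positive last coefficient has rank one. -/
lemma rankOne_of_form {τ : E2 →L[ℝ] E2 →L[ℝ] ℝ} {D : E2 →L[ℝ] R2} {e : E2} (he : D e = (0, 1))
    {r : Fin 3 → ℝ} (h0 : rdet r = 0) (h2 : 0 < r 2)
    (hτ : ∀ v w, τ v w = form r (D v) (D w)) : RankOne τ := by
  obtain ⟨q, hq0, hq⟩ : ∃ q : ℝ, 0 < q ∧ q * q = r 2 :=
    ⟨√(r 2), Real.sqrt_pos.2 h2, Real.mul_self_sqrt h2.le⟩
  refine ⟨(r 1 / q) • (ContinuousLinearMap.fst ℝ ℝ ℝ).comp D
    + q • (ContinuousLinearMap.snd ℝ ℝ ℝ).comp D, fun hl => hq0.ne' ?_, fun v w => ?_⟩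
  · have h := congrArg (fun T : E2 →L[ℝ] ℝ => T e) hl
    simpa [he] using h
  · simp only [hτ, form, add_apply, smul_apply, ContinuousLinearMap.comp_apply,
      ContinuousLinearMap.coe_fst', ContinuousLinearMap.coe_snd', smul_eq_mul]
    rw [rdet] at h0
    rw [← hq] at h0 ⊢
    field_simp
    linear_combination ((D v).1 * (D w).1) * h0

/-- The kernel line of a degenerate form. -/
lemma kernel_of_form {r : Fin 3 → ℝ} (h0 : rdet r = 0) {d : R2} (h : form r d d = 0) :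
    r 2 * d.2 + r 1 * d.1 = 0 := by
  rw [rdet] at h0
  rw [form] at h
  refine (pow_eq_zero_iff (n := 2) two_ne_zero).1 ?_
  linear_combination r 2 * h - d.1 ^ 2 * h0

/-- The norm of a form in terms of its coefficients. -/
lemma norm_le_of_form {τ : E2 →L[ℝ] E2 →L[ℝ] ℝ} {D : E2 →L[ℝ] R2} {d : Fin 3 → ℝ} {δ M : ℝ}
    (hM : ‖D‖ ≤ M) (hd : ∀ i, |d i| ≤ δ) (hτ : ∀ v w, τ v w = form d (D v) (D w)) :
    ‖τ‖ ≤ δ * (4 * M ^ 2) := by
  have hδ : 0 ≤ δ := (abs_nonneg _).trans (hd 0)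
  refine ContinuousLinearMap.opNorm_le_bound₂ _ (by positivity) fun v w => ?_
  have hb : ∀ i j : ℝ, ∀ k, |i| ≤ ‖D v‖ → |j| ≤ ‖D w‖ →
      |d k * (i * j)| ≤ δ * (‖D v‖ * ‖D w‖) := fun i j k hi hj => by
    rw [abs_mul, abs_mul]
    exact mul_le_mul (hd k) (mul_le_mul hi hj (abs_nonneg _) (norm_nonneg _)) (by positivity) hδ
  have h0 : 0 ≤ M := (norm_nonneg _).trans hM
  have hn : ‖D v‖ * ‖D w‖ ≤ M ^ 2 * (‖v‖ * ‖w‖) := by
    have := mul_le_mul (D.le_of_opNorm_le hM v) (D.le_of_opNorm_le hM w) (norm_nonneg _)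
      (by positivity)
    linarith
  have v1 : |(D v).1| ≤ ‖D v‖ := by simpa using norm_fst_le (D v)
  have v2 : |(D v).2| ≤ ‖D v‖ := by simpa using norm_snd_le (D v)
  have w1 : |(D w).1| ≤ ‖D w‖ := by simpa using norm_fst_le (D w)
  have w2 : |(D w).2| ≤ ‖D w‖ := by simpa using norm_snd_le (D w)
  rw [hτ, Real.norm_eq_abs]
  calc |form d (D v) (D w)|
      ≤ |d 0 * ((D v).1 * (D w).1)|
        + (|d 1 * ((D v).1 * (D w).2)| + |d 1 * ((D v).2 * (D w).1)|)
        + |d 2 * ((D v).2 * (D w).2)| := by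
        rw [form, mul_add]
        exact (abs_add_three _ _ _).trans (by gcongr; exact abs_add_le _ _)
    _ ≤ δ * (‖D v‖ * ‖D w‖) + (δ * (‖D v‖ * ‖D w‖) + δ * (‖D v‖ * ‖D w‖))
        + δ * (‖D v‖ * ‖D w‖) := by
        exact add_le_add (add_le_add (hb _ _ 0 v1 w1) (add_le_add (hb _ _ 1 v1 w2) (hb _ _ 1 v2 w1)))
          (hb _ _ 2 v2 w2)
    _ ≤ δ * (4 * M ^ 2) * ‖v‖ * ‖w‖ := by
        nlinarith [mul_le_mul_of_nonneg_left hn hδ]

end

end Vale.Agent.P205.HybridAdapter
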