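import Vale.Agent.P205.Full.HybridPlane
import Vale.Agent.P205.Full.HybridChart

/-!
# P205: the hybrid step reduces to the periodic plane

`hybridStatement_of_periodic` gives `HybridStatement` from `HybridPlane.PeriodicStatement`: adapted
chart, periodisation, and extension of the change by zero.
-/

namespace Vale.Agent.P205.HybridAdapter

open scoped ContDiff Topology RealInnerProductSpace
open Set Function Filter Metric Correction
open Vale.Agent.P205.Algebra Vale.Agent.P205.Full Vale.Agent.P205.Bridge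

noncomputable section

/-- The adapted chart, scaled so that the compact set lies in the unit square. -/
theorem exists_cell_chart {U K : Set E2} (hU : IsOpen U) (hK : IsCompact K) (hKU : K ⊆ U)
    {ν : E2 →L[ℝ] ℝ} (hν : ν ≠ 0) {σ : Form2} (hσ : ContDiff ℝ ∞ σ)
    (hr : ∀ y ∈ U, RankOne (σ y))
    (ht : ∀ y ∈ U, ∀ u : E2, u ≠ 0 → σ y u u = 0 → ν u ≠ 0) :
    ∃ (Φ : R2 → E2) (Ψ : E2 → R2) (R : ℝ) (s : R2 → ℝ) (V : Set E2), 0 < R ∧
      ContDiff ℝ ∞ Φ ∧ ContDiff ℝ ∞ Ψ ∧ ContDiff ℝ ∞ s ∧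
      (∀ y, Φ (Ψ y) = y) ∧ (∀ p, Ψ (Φ p) = p) ∧ IsOpen V ∧ K ⊆ V ∧ V ⊆ U ∧
      (∀ y ∈ K, Ψ y ∈ sq) ∧ (∀ p v, ν (fderiv ℝ Φ p v) = R * v.1) ∧
      (∀ p, Injective (fderiv ℝ Φ p)) ∧
      ∀ p, Φ p ∈ V → 0 < s p ∧
        ∀ v w, σ (Φ p) (fderiv ℝ Φ p v) (fderiv ℝ Φ p w) = s p * v.2 * w.2 := by
  obtain ⟨Φ₀, Ψ₀, V, hΦ₀, hΨ₀, hΦΨ₀, hΨΦ₀, hV, hKV, hVU, hν₀, hi₀, hVs⟩ :=
    exists_adapted_chart hU hK hKU hν hσ hr ht
  obtain ⟨ρ, hρ0, hρ⟩ : ∃ ρ, 0 < ρ ∧ ∀ y ∈ K, ‖Ψ₀ y‖ ≤ ρ := by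
    obtain ⟨ρ, hρ⟩ := hK.exists_bound_of_continuousOn hΨ₀.continuous.continuousOn
    exact ⟨max ρ 1, by positivity, fun y hy => (hρ y hy).trans (le_max_left _ _)⟩
  obtain ⟨R, hR⟩ : ∃ R, R = 4 * ρ := ⟨_, rfl⟩
  have hR0 : 0 < R := by linarith
  set o : R2 := (1 / 2, 1 / 2)
  set Φ : R2 → E2 := fun p => Φ₀ (R • (p - o)) with hΦdef
  set Ψ : E2 → R2 := fun y => R⁻¹ • Ψ₀ y + o with hΨdef
  have hΦ : ContDiff ℝ ∞ Φ := hΦ₀.comp ((contDiff_id.sub contDiff_const).const_smul R)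
  have hdΦ : ∀ p v, fderiv ℝ Φ p v = fderiv ℝ Φ₀ (R • (p - o)) (R • v) := fun p v => by
    have h2 := ((hΦ₀.differentiable (by simp) _).hasFDerivAt.comp p
      (((hasFDerivAt_id p).sub_const o).const_smul R)).fderiv
    exact congrArg (fun T : R2 →L[ℝ] E2 => T v) h2
  refine ⟨Φ, Ψ, R, fun p => σ (Φ p) (fderiv ℝ Φ p (0, 1)) (fderiv ℝ Φ p (0, 1)), V, hR0, hΦ,
    (hΨ₀.const_smul R⁻¹).add contDiff_const, ?_, fun y => ?_, fun p => ?_, hV, hKV, hVU,
    fun y hy => ?_, fun p v => ?_, fun p v w h => ?_, fun p hp => ?_⟩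
  · have hd : ContDiff ℝ ∞ fun p => fderiv ℝ Φ p (0, 1) :=
      (hΦ.fderiv_right (m := ∞) le_rfl).clm_apply contDiff_const
    exact ((hσ.comp hΦ).clm_apply hd).clm_apply hd
  · simp only [Φ, Ψ, add_sub_cancel_right, smul_smul, mul_inv_cancel₀ hR0.ne', one_smul, hΦΨ₀]
  · simp only [Φ, Ψ, hΨΦ₀, smul_smul, inv_mul_cancel₀ hR0.ne', one_smul, sub_add_cancel]
  · have h := hρ y hy
    rw [Prod.norm_def, max_le_iff, Real.norm_eq_abs, Real.norm_eq_abs, abs_le, abs_le] at h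
    have hs : ∀ x : ℝ, -ρ ≤ x → x ≤ ρ → R⁻¹ * x + 1 / 2 ∈ Ioo (0 : ℝ) 1 := fun x h1 h2 => by
      have e : R⁻¹ * x = x / R := by rw [div_eq_inv_mul]
      rw [e]
      constructor
      · have : -(1 / 4) ≤ x / R := by rw [le_div_iff₀ hR0]; linarith
        linarith
      · have : x / R ≤ 1 / 4 := by rw [div_le_iff₀ hR0]; linarith
        linarith
    exact ⟨hs _ h.1.1 h.1.2, hs _ h.2.1 h.2.2⟩
  · rw [hdΦ, hν₀]
    rfl
  · rw [hdΦ, hdΦ] at h
    exact smul_right_injective R2 hR0.ne' (hi₀ _ h)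
  · obtain ⟨hs, hform⟩ := hVs (R • (p - o)) hp
    constructor
    · simp only [hdΦ, map_smul, smul_apply, smul_eq_mul]
      exact mul_pos hR0 (mul_pos hR0 hs)
    · intro v w
      simp only [hdΦ]
      show σ (Φ₀ (R • (p - o))) _ _ = σ (Φ₀ (R • (p - o))) _ _ * v.2 * w.2
      rw [hform, hform (R • ((0 : ℝ), (1 : ℝ)))]
      simp only [Prod.smul_snd, smul_eq_mul, mul_one]
      ring

/-- `HybridStatement` from its periodic form. -/
theorem hybridStatement_of_periodic (H : HybridPlane.PeriodicStatement) : HybridStatement := by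
  intro U K₀ c r ν a f σ ε hU hK₀ hK₀U hr hball ha ha0 hab hf hσ hinj hrank hacc htrans hε
  have hcU : c ∈ U := hK₀U (interior_subset (hball (mem_closedBall_self hr.le)))
  have hν : ν ≠ 0 := by
    rintro rfl
    obtain ⟨l, -, hl⟩ := hrank c hcU
    obtain ⟨u, hu, hu0⟩ := (Submodule.ne_bot_iff _).1
      (LinearMap.ker_ne_bot_of_finrank_lt (f := (l : E2 →ₗ[ℝ] ℝ)) (by simp))
    have hlu : l u = 0 := by simpa using hu
    exact htrans c hcU u hu0 (by rw [hl, hlu, mul_zero]) (by simp)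
  obtain ⟨Φ, Ψ, R, s, V, hR0, hΦ, hΨ, hs, hΦΨ, hΨΦ, hV, hKV, hVU, hKsq, hνΦ, hΦi, hVs⟩ :=
    exists_cell_chart hU hK₀ hK₀U hν hσ hrank htrans
  have hΦs : ∀ p, Surjective (fderiv ℝ Φ p) := fun p =>
    (LinearMap.injective_iff_surjective_of_finrank_eq_finrank (by simp)
      (f := (fderiv ℝ Φ p : R2 →ₗ[ℝ] E2))).1 (hΦi p)
  have hDD : ∀ y v, fderiv ℝ Φ (Ψ y) (fderiv ℝ Ψ y v) = v := fun y v => by
    have h := fderiv_comp y (hΦ.differentiable (by simp) (Ψ y)) (hΨ.differentiable (by simp) y)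
    rw [show Φ ∘ Ψ = id from funext hΦΨ, fderiv_id] at h
    exact (congrArg (fun T : E2 →L[ℝ] E2 => T v) h).symm
  have hfΦ : ContDiff ℝ ∞ (f ∘ Φ) := hf.comp hΦ
  -- the nested regions
  set N₀ : Set R2 := sq ∩ Φ ⁻¹' V
  have hN₀ : IsOpen N₀ := isOpen_sq.inter (hV.preimage hΦ.continuous)
  set Nψ : Set R2 := N₀ ∩ Φ ⁻¹' interior K₀
  set C₀ : Set R2 := Ψ '' closedBall c r
  have hC₀ : IsCompact C₀ := (isCompact_closedBall c r).image hΨ.continuous
  have hC₀N : C₀ ⊆ Nψ := by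
    rintro _ ⟨y, hy, rfl⟩
    have hyK : y ∈ K₀ := interior_subset (hball hy)
    exact ⟨⟨hKsq y hyK, by rw [mem_preimage, hΦΨ]; exact hKV hyK⟩,
      by rw [mem_preimage, hΦΨ]; exact hball hy⟩
  obtain ⟨ψ₀, C₁, hC₁, hC₁N, hC₀₁, hψs, -, hψ1, hψ0⟩ :=
    exists_bump hC₀ (hN₀.inter (isOpen_interior.preimage hΦ.continuous)) hC₀N
  have hC₁N₀ : C₁ ⊆ N₀ := fun p hp => (hC₁N hp).1
  obtain ⟨η₀, C₃, hC₃, hC₃N, hC₁₃, hηs, hη01, hη1, hη0⟩ := exists_bump hC₁ hN₀ hC₁N₀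
  obtain ⟨χ, C₅, hC₅, hC₅N, hC₃₅, hχs, hχ01, hχ1, hχ0⟩ := exists_bump hC₃ hN₀ hC₃N
  have hsq : ∀ {p}, p ∈ N₀ → p ∈ sq := fun h => h.1
  have hC₁₃' : C₁ ⊆ C₃ := hC₁₃.trans interior_subset
  have hVU' : ∀ p ∈ N₀, Φ p ∈ U := fun p hp => hVU hp.2
  -- the periodic data
  set fp : R2 → V4 := per fun p => χ p • f (Φ p) with hfp
  set ap : R2 → ℝ := per fun p => R * a (Φ p) with hap
  set B : R2 → ℝ := per fun p => χ p * s p with hB
  set η : R2 → ℝ := per η₀ with hη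
  set radial : R2 → ℝ := fun p => 3 - 3 * per ψ₀ p with hrad
  have ha0' : ∀ p ∉ C₀, R * a (Φ p) = 0 := fun p hp => by
    rw [hab _ fun h => hp ⟨Φ p, ball_subset_closedBall h, hΨΦ p⟩, mul_zero]
  have hfp_s : Smooth2 fp := smooth2_per hC₅ (fun p hp => hsq (hC₅N hp))
    (fun p hp => by simp [hχ0 p hp]) (hχs.smul hfΦ)
  have hap_s : Smooth2 ap := smooth2_per hC₀ (fun p hp => hsq (hC₀N hp).1) ha0'
    (contDiff_const.mul (ha.comp hΦ))
  have hB_s : Smooth2 B := smooth2_per hC₅ (fun p hp => hsq (hC₅N hp))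
    (fun p hp => by simp [hχ0 p hp]) (hχs.mul hs)
  have hη_s : Smooth2 η := smooth2_per hC₃ (fun p hp => hsq (hC₃N hp)) hη0 hηs
  have hrad_s : Smooth2 radial := by
    have h := smooth2_per hC₁ (fun p hp => hsq (hC₁N₀ hp)) hψ0 hψs
    exact ⟨contDiff_const.sub (contDiff_const.mul h.1),
      fun p => by simp only [radial, h.2.1], fun p => by simp only [radial, h.2.2]⟩
  -- near a point whose representative is in `C₃` the periodic map is a translate of `f ∘ Φ`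
  have hgerm : ∀ p, frac p ∈ C₃ → Sh (frac p - p) p fp (f ∘ Φ) := fun p hp => by
    refine per_germ (hsq (hC₃N hp)) ?_
    filter_upwards [hχ1 _ hp] with q hq
    simp [hq]
  have hsupp : ∀ p ∈ tsupport η, frac p ∈ C₃ := fun p hp =>
    tsupport_per_subset hC₃ (fun q hq => hsq (hC₃N hq)) hη0 hp
  have hjets : ∀ p ∈ tsupport η, Algebra.dx fp p = fderiv ℝ (f ∘ Φ) (frac p) (1, 0) ∧
      Algebra.dy fp p = fderiv ℝ (f ∘ Φ) (frac p) (0, 1) ∧
      Algebra.dx (Algebra.dx fp) p = F11 (f ∘ Φ) (frac p) := fun p hp => by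
    have h := dx_congr (hgerm p (hsupp p hp))
    have h' := dy_congr (hgerm p (hsupp p hp))
    have h'' := dx_congr h
    refine ⟨h.eq_of_nhds.trans ?_, h'.eq_of_nhds.trans ?_, h''.eq_of_nhds.trans ?_⟩ <;>
      simp only [add_sub_cancel] <;> rfl
  have hinjC : ∀ q ∈ N₀, Injective (fderiv ℝ (f ∘ Φ) q) := fun q hq => by
    rw [fderiv_comp q (hf.differentiable (by simp) _) (hΦ.differentiable (by simp) _)]
    exact (hinj _ (hVU' q hq)).comp (hΦi q)
  let I : HybridData.Input :=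
    { f := fp
      a := ap
      B := B
      η := η
      K := {p | frac p ∈ C₀}
      f_smooth := hfp_s
      a_smooth := hap_s
      B_smooth := hB_s
      η_smooth := hη_s
      K_closed := isClosed_frac_mem hC₀ fun p hp => hsq (hC₀N hp).1
      η_le := fun p => (hη01 _).2
      η_one := fun p hp => (hη1 (frac p) (interior_subset (hC₀₁ hp))).eq_of_nhds
      a_zero := fun p hp => ha0' _ hp
      B_nonneg := fun p => by
        by_cases hp : frac p ∈ C₅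
        · exact mul_nonneg (hχ01 _).1 (hVs _ (hC₅N hp).2).1.le
        · simp [hB, per, hχ0 _ hp]
      B_pos := fun p hp => by
        have h3 : frac p ∈ C₃ := by
          by_contra h
          exact zero_ne_one ((hη0 _ h).symm.trans hp)
        simp only [hB, per, (hχ1 _ h3).eq_of_nhds, one_mul]
        exact (hVs _ (hC₃N h3).2).1
      dy_ne := fun p hp h => by
        rw [(hjets p hp).2.1, ← map_zero (fderiv ℝ (f ∘ Φ) (frac p))] at h
        exact one_ne_zero (congrArg Prod.snd (hinjC _ (hC₃N (hsupp p hp)) h))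
      indep := fun p hp t h => by
        rw [(hjets p hp).1, (hjets p hp).2.1, ← map_smul] at h
        exact one_ne_zero (α := ℝ)
          ((congrArg Prod.fst (hinjC _ (hC₃N (hsupp p hp)) h)).trans (by simp))
      accel := fun p hp x t h => by
        obtain ⟨e1, e2, e3⟩ := hjets p hp
        rw [e1, e2, e3] at h
        have hq := hC₃N (hsupp p hp)
        have h10 := hacc _ (hVU' _ hq) (fderiv ℝ Φ (frac p) (1, 0))
          (fun h0 => one_ne_zero (α := ℝ)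
            (congrArg Prod.fst (hΦi _ (h0.trans (map_zero _).symm))))
          (by rw [(hVs _ hq.2).2]; simp)
        rw [normalAccel_iff_chart hf hΦ (hΦs _), fderiv_fderiv_eq hfΦ] at h10
        exact h10 ⟨(x, t), by rw [fderiv_apply_eq]; simpa [Algebra.dx, Algebra.dy] using h.symm⟩ }
  obtain ⟨M, hM0, hM⟩ : ∃ M : ℝ, 0 ≤ M ∧ ∀ y ∈ Φ '' C₁, ‖fderiv ℝ Ψ y‖ ≤ M := by
    obtain ⟨M, hM⟩ := (hC₁.image hΦ.continuous).exists_bound_of_continuousOn
      ((hΨ.continuous_fderiv (by simp)).continuousOn)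
    exact ⟨max M 0, le_max_right _ _, fun y hy => (hM y hy).trans (le_max_left _ _)⟩
  set ε' := ε / (4 * (M + 1) ^ 2) with hε'
  obtain ⟨G, hG, hGoff, hGin⟩ := H I radial ε' hrad_s
    (fun p hp => by
      simp only [radial, per, (hψ1 (frac p) hp).eq_of_nhds]
      norm_num)
    (fun p hp => by
      have h1 : frac p ∈ C₁ := by
        by_contra h
        simp only [radial, per, hψ0 _ h] at hp
        linarith
      rw [mem_interior_iff_mem_nhds]
      exact (per_germ (hsq (hC₁N₀ h1)) (hη1 _ h1)).mono fun q hq => hq)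
    (fun p => mul_nonneg hR0.le (ha0 _)) (by positivity)
  -- the new map
  set h : R2 → V4 := fun p => χ p • (G p - fp p) with hh
  have hh0 : ∀ p ∉ C₁, h p = 0 := fun p hp => by
    by_cases h5 : p ∈ C₅
    · have h2 : 2 ≤ radial p := by
        simp only [radial, per_of_mem ψ₀ (hsq (hC₅N h5)), hψ0 _ hp]
        norm_num
      simp [h, hGoff p h2, I]
    · simp [h, hχ0 p h5]
  set F : E2 → E4 := fun y => f y + h (Ψ y) with hF
  have hFs : ContDiff ℝ ∞ F := hf.add ((hχs.smul (hG.1.sub hfp_s.1)).comp hΨ)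
  have hFoff : ∀ y, Ψ y ∉ C₁ → F =ᶠ[𝓝 y] f := fun y hy =>
    eventually_of_mem ((hC₁.isClosed.isOpen_compl.preimage hΨ.continuous).mem_nhds hy)
      fun z hz => by simp [F, hh0 _ hz]
  have haoff : ∀ y, Ψ y ∉ C₁ → a y = 0 := fun y hy => hab y fun hyb => hy <| by
    by_contra h1
    have := hψ0 _ h1
    rw [(hψ1 _ ⟨y, ball_subset_closedBall hyb, rfl⟩).eq_of_nhds] at this
    exact one_ne_zero this
  have hfin : ∀ y, Ψ y ∈ C₁ →
      (F ∘ Φ) =ᶠ[𝓝 (Ψ y)] G ∧ fp =ᶠ[𝓝 (Ψ y)] f ∘ Φ := fun y hy => by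
    have e : fp =ᶠ[𝓝 (Ψ y)] f ∘ Φ := by
      filter_upwards [isOpen_sq.mem_nhds (hsq (hC₁N₀ hy)), hχ1 _ (hC₁₃' hy)] with q hq hq1
      simp [fp, per_of_mem _ hq, hq1]
    refine ⟨?_, e⟩
    filter_upwards [e, hχ1 _ (hC₁₃' hy)] with q hq hq1
    simp only [F, comp_apply, hΨΦ, h, hq1, one_smul, hq]
    abel
  set τ : Form2 := fun y => σ y + (a y ^ 2) • ν.smulRight ν + (gram f y - gram F y) with hτ
  have hτapp : ∀ y v w, τ y v w
      = σ y v w + a y ^ 2 * (ν v * ν w) + (pullE2 f y v w - pullE2 F y v w) := fun y v w => by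
    simp [τ, gram_apply]
  have hτs : ContDiff ℝ ∞ τ := contDiff_clm_apply_iff.2 fun v => contDiff_clm_apply_iff.2 fun w => by
    simp only [hτapp, ← gram_apply]
    exact (((hσ.clm_apply contDiff_const).clm_apply contDiff_const).add
      ((ha.pow 2).mul contDiff_const)).add
      ((((contDiff_gram hf).clm_apply contDiff_const).clm_apply contDiff_const).sub
        (((contDiff_gram hFs).clm_apply contDiff_const).clm_apply contDiff_const))
  have hτoff : ∀ y, Ψ y ∉ C₁ → τ y = σ y := fun y hy => by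
    ext v w
    rw [hτapp, haoff y hy, ← gram_apply, ← gram_apply, gram_congr (hFoff y hy)]
    ring
  -- the rest in the chart
  have hin : ∀ y, Ψ y ∈ C₁ → I.η (Ψ y) = 1 ∧
      ∀ v w : E2, τ y v w =
        form (HybridPlane.rest I G (Ψ y)) (fderiv ℝ Ψ y v) (fderiv ℝ Ψ y w) := by
    intro y hy
    obtain ⟨eG, ef⟩ := hfin y hy
    have hp := hC₁N₀ hy
    refine ⟨?_, fun v w => ?_⟩
    · show per η₀ (Ψ y) = 1
      rw [per_of_mem _ (hsq hp)]
      exact (hη1 _ hy).eq_of_nhds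
    have hpull : ∀ (g : E2 → E4) (G' : R2 → V4), ContDiff ℝ ∞ g → g ∘ Φ =ᶠ[𝓝 (Ψ y)] G' →
        pullE2 g y v w = metF G' (Ψ y) 0 * ((fderiv ℝ Ψ y v).1 * (fderiv ℝ Ψ y w).1)
          + metF G' (Ψ y) 1 * ((fderiv ℝ Ψ y v).1 * (fderiv ℝ Ψ y w).2
            + (fderiv ℝ Ψ y v).2 * (fderiv ℝ Ψ y w).1)
          + metF G' (Ψ y) 2 * ((fderiv ℝ Ψ y v).2 * (fderiv ℝ Ψ y w).2) := fun g G' hg hgG => by
      have hd : ∀ v, fderiv ℝ g y v = fderiv ℝ G' (Ψ y) (fderiv ℝ Ψ y v) := fun v => by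
        conv_lhs => rw [← hDD y v]
        rw [← hgG.fderiv_eq, fderiv_comp _ (hg.differentiable (by simp) _)
          (hΦ.differentiable (by simp) _), hΦΨ]
        rfl
      rw [pullE2, hd, hd, inner_fderiv_eq]
    have hσy := (hVs (Ψ y) hp.2).2 (fderiv ℝ Ψ y v) (fderiv ℝ Ψ y w)
    rw [hDD, hDD, hΦΨ] at hσy
    have hνy : ∀ v, ν v = R * (fderiv ℝ Ψ y v).1 := fun v => by rw [← hνΦ (Ψ y), hDD]
    have eB : B (Ψ y) = s (Ψ y) := by
      simp only [B, per_of_mem _ (hsq hp), (hχ1 _ (hC₁₃' hy)).eq_of_nhds, one_mul]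
    have ea : ap (Ψ y) = R * a y := by simp only [ap, per_of_mem _ (hsq hp), hΦΨ]
    rw [hτapp, hpull F G hFs eG, hpull f fp hf ef.symm, hσy, hνy, hνy]
    simp only [form, HybridPlane.rest, I, Pi.add_apply, Pi.sub_apply, Matrix.cons_val_zero,
      Matrix.cons_val_one, Matrix.cons_val, eB, ea]
    ring
  refine ⟨F, τ, hFs, hτs, fun y hy => ?_, fun y hy => ?_, fun y _ v w => ?_, fun y hy => ?_,
    fun y hy u hu hτu => ?_, fun y hy => ?_⟩
  · refine (hFoff y fun h1 => hy (interior_subset ?_)).eq_of_nhds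
    have := (hC₁N h1).2
    rwa [mem_preimage, hΦΨ] at this
  · by_cases h1 : Ψ y ∈ C₁
    · obtain ⟨hp, -⟩ := hin y h1
      have hi := injective_of_detg_pos (hGin _ hp).1
      rw [← (hfin y h1).1.fderiv_eq, fderiv_comp _ (hFs.differentiable (by simp) _)
        (hΦ.differentiable (by simp) _), hΦΨ] at hi
      intro v w hvw
      obtain ⟨v', rfl⟩ := hΦs (Ψ y) v
      obtain ⟨w', rfl⟩ := hΦs (Ψ y) w
      rw [hi hvw]
    · rw [(hFoff y h1).fderiv_eq]
      exact hinj y hy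
  · rw [hτapp]
    ring
  · by_cases h1 : Ψ y ∈ C₁
    · obtain ⟨hp, hform⟩ := hin y h1
      obtain ⟨-, h0, h2, -, -⟩ := hGin _ hp
      exact rankOne_of_form (hΦi (Ψ y) (hDD y _) : fderiv ℝ Ψ y (fderiv ℝ Φ (Ψ y) (0, 1)) = (0, 1))
        h0 h2 hform
    · rw [hτoff y h1]
      exact hrank y hy
  · by_cases h1 : Ψ y ∈ C₁
    · obtain ⟨hp, hform⟩ := hin y h1
      obtain ⟨-, h0, h2, -, hA⟩ := hGin _ hp
      set d := fderiv ℝ Ψ y u with hd
      have hkey : HybridPlane.rest I G (Ψ y) 2 * d.2 + HybridPlane.rest I G (Ψ y) 1 * d.1 = 0 :=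
        kernel_of_form h0 (by rw [hd, ← hform, hτu])
      have hd1 : d.1 ≠ 0 := fun e => hu <| by
        rw [e, mul_zero, add_zero] at hkey
        have : d = 0 := Prod.ext e ((mul_eq_zero.1 hkey).resolve_left h2.ne')
        rw [← hDD y u, ← hd, this, map_zero]
      have hA' := hA (d.2 / d.1) (by field_simp; linear_combination hkey)
      have hGF := (hfin y h1).1
      rw [← hDD y u, ← hd]
      have key := (normalAccel_iff_chart (p := Ψ y) hFs hΦ (hΦs _) d).2 ?_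
      · rwa [hΦΨ] at key
      rw [hGF.fderiv_eq, hGF.fderiv.fderiv_eq, fderiv_fderiv_eq hG.1]
      rintro ⟨z, hz⟩
      refine hA' ⟨(d.1 * d.1)⁻¹ • z, ?_⟩
      rw [map_smul, hz]
      match_scalars <;> field_simp
    · rw [hτoff y h1] at hτu
      exact (hacc y hy u hu hτu).congr (hFoff y h1).symm
  · by_cases h1 : Ψ y ∈ C₁
    · obtain ⟨hp, hform⟩ := hin y h1
      obtain ⟨-, -, -, hd, -⟩ := hGin _ hp
      have hD := hM y ⟨Ψ y, h1, hΦΨ y⟩
      have eB : I.B (Ψ y) = s (Ψ y) := by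
        simp only [I, B, per_of_mem _ (hsq (hC₁N₀ h1)), (hχ1 _ (hC₁₃' h1)).eq_of_nhds, one_mul]
      refine (norm_le_of_form (d := fun i => HybridPlane.rest I G (Ψ y) i - ![0, 0, I.B (Ψ y)] i)
        (hD.trans (le_add_of_nonneg_right zero_le_one)) hd fun v w => ?_).trans_eq
          (by rw [hε']; field_simp)
      have hσy := (hVs (Ψ y) (hC₁N₀ h1).2).2 (fderiv ℝ Ψ y v) (fderiv ℝ Ψ y w)
      rw [hDD, hDD, hΦΨ] at hσy
      simp only [sub_apply, hform, hσy, form, eB, Matrix.cons_val_zero, Matrix.cons_val_one,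
        Matrix.cons_val]
      ring
    · refine ContinuousLinearMap.opNorm_le_bound₂ _ hε.le fun v w => ?_
      rw [hτoff y h1]
      show ‖σ y v w - σ y v w‖ ≤ _
      rw [sub_self, norm_zero]
      positivity

end

end Vale.Agent.P205.HybridAdapter
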