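import Mathlib
import Vale.Agent.P205.Full.Algebra.Jets
import Vale.Agent.P205.Full.WKB.SpinLoop

/-!
# P205: the frame of the hybrid loop

For first derivatives `X, Y` and the second derivative `Z` along the first coordinate: `qv` is
the part of `X` orthogonal to `Y`, `acc` the normal part of `Z`, and `qv, jv, kv` are orthogonal,
of one length, orthogonal to `Y`, with `kv` along `acc`.
-/

namespace Vale.Agent.P205.HybridFrame

open scoped ContDiff RealInnerProductSpace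
open Vale.Agent.P205.Algebra

noncomputable section

/-- The part of `X` orthogonal to `Y`. -/
def qv (X Y : V4) : V4 := X - (⟪X, Y⟫ / ⟪Y, Y⟫) • Y

/-- The part of `Z` orthogonal to `X` and `Y`. -/
def acc (X Y Z : V4) : V4 :=
  Z - (⟪Z, Y⟫ / ⟪Y, Y⟫) • Y - (⟪Z, qv X Y⟫ / ⟪qv X Y, qv X Y⟫) • qv X Y

/-- The side vector. -/
def jv (X Y Z : V4) : V4 := (‖Y‖ * ‖acc X Y Z‖)⁻¹ • cross4 Y (qv X Y) (acc X Y Z)

/-- The vector along the normal acceleration. -/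
def kv (X Y Z : V4) : V4 := (‖qv X Y‖ / ‖acc X Y Z‖) • acc X Y Z

variable {X Y Z : V4}

lemma inner_qv (hY : Y ≠ 0) : ⟪Y, qv X Y⟫ = 0 := by
  rw [qv, inner_sub_right, real_inner_smul_right, real_inner_comm Y X,
    div_mul_cancel₀ _ (inner_self_ne_zero.2 hY), sub_self]

lemma inner_acc (hY : Y ≠ 0) (hq : qv X Y ≠ 0) :
    ⟪Y, acc X Y Z⟫ = 0 ∧ ⟪qv X Y, acc X Y Z⟫ = 0 := by
  have h0 : ⟪qv X Y, Y⟫ = 0 := by rw [real_inner_comm]; exact inner_qv hY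
  constructor
  · rw [acc, inner_sub_right, inner_sub_right, real_inner_smul_right, real_inner_smul_right,
      inner_qv hY, mul_zero, sub_zero, real_inner_comm Y Z,
      div_mul_cancel₀ _ (inner_self_ne_zero.2 hY), sub_self]
  · rw [acc, inner_sub_right, inner_sub_right, real_inner_smul_right, real_inner_smul_right, h0,
      mul_zero, sub_zero, real_inner_comm (qv X Y) Z,
      div_mul_cancel₀ _ (inner_self_ne_zero.2 hq), sub_self]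

lemma qv_ne_zero (h : ∀ t : ℝ, X ≠ t • Y) : qv X Y ≠ 0 := fun h0 =>
  h _ (sub_eq_zero.1 h0)

lemma acc_ne_zero (h : ∀ s t : ℝ, Z ≠ s • X + t • Y) : acc X Y Z ≠ 0 := fun h0 => by
  obtain ⟨r, hr⟩ : ∃ r, r = ⟪Z, qv X Y⟫ / ⟪qv X Y, qv X Y⟫ := ⟨_, rfl⟩
  rw [acc, ← hr, sub_sub, sub_eq_zero, qv, smul_sub, smul_smul] at h0
  refine h r (⟪Z, Y⟫ / ⟪Y, Y⟫ - r * (⟪X, Y⟫ / ⟪Y, Y⟫)) (h0.trans ?_)
  rw [sub_smul]
  abel

/-- The frame: lengths and orthogonality. -/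
theorem frame (hY : Y ≠ 0) (hq : qv X Y ≠ 0) (hA : acc X Y Z ≠ 0) :
    ‖jv X Y Z‖ = ‖qv X Y‖ ∧ ‖kv X Y Z‖ = ‖qv X Y‖ ∧ ⟪qv X Y, jv X Y Z⟫ = 0 ∧
      ⟪qv X Y, kv X Y Z⟫ = 0 ∧ ⟪jv X Y Z, kv X Y Z⟫ = 0 ∧
      ⟪Y, qv X Y⟫ = 0 ∧ ⟪Y, jv X Y Z⟫ = 0 ∧ ⟪Y, kv X Y Z⟫ = 0 := by
  obtain ⟨hya, hqa⟩ := inner_acc (Z := Z) hY hq
  obtain ⟨c1, c2, c3⟩ := WKB.cross4_orth Y (qv X Y) (acc X Y Z)
  have pY := norm_pos_iff.2 hY
  have pA := norm_pos_iff.2 hA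
  refine ⟨?_, ?_, ?_, ?_, ?_, inner_qv hY, ?_, ?_⟩
  · have hg : ‖cross4 Y (qv X Y) (acc X Y Z)‖ = ‖Y‖ * ‖qv X Y‖ * ‖acc X Y Z‖ := by
      have h := WKB.cross4_gram Y (qv X Y) (acc X Y Z)
      rw [inner_qv hY, hya, hqa] at h
      simp only [real_inner_self_eq_norm_sq] at h
      refine (pow_left_inj₀ (norm_nonneg _) (by positivity) two_ne_zero).1 (h.trans ?_)
      ring
    rw [jv, norm_smul, norm_inv, Real.norm_eq_abs, abs_of_pos (by positivity), hg]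
    field_simp
  · rw [kv, norm_smul, norm_div, norm_norm, norm_norm, div_mul_cancel₀ _ pA.ne']
  · rw [jv, real_inner_smul_right, c2, mul_zero]
  · rw [kv, real_inner_smul_right, hqa, mul_zero]
  · rw [jv, kv, real_inner_smul_right, real_inner_smul_left,
      real_inner_comm (acc X Y Z) (cross4 Y (qv X Y) (acc X Y Z)), c3, mul_zero, mul_zero]
  · rw [jv, real_inner_smul_right, c1, mul_zero]
  · rw [kv, real_inner_smul_right, hya, mul_zero]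

/-- The slow part at amplitude zero: no side part, and the vertical part is `|II(X, X)|`. -/
lemma slow_zero (hY : Y ≠ 0) (hq : qv X Y ≠ 0) (hA : acc X Y Z ≠ 0) :
    ⟪jv X Y Z, Z⟫ = 0 ∧ ⟪kv X Y Z, Z⟫ = ‖qv X Y‖ * ‖acc X Y Z‖ := by
  obtain ⟨hya, hqa⟩ := inner_acc (Z := Z) hY hq
  obtain ⟨c1, c2, c3⟩ := WKB.cross4_orth Y (qv X Y) (acc X Y Z)
  have pA := norm_pos_iff.2 hA
  have hZ : Z = acc X Y Z + (⟪Z, Y⟫ / ⟪Y, Y⟫) • Y +
      (⟪Z, qv X Y⟫ / ⟪qv X Y, qv X Y⟫) • qv X Y := by rw [acc]; abel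
  constructor
  · rw [show ⟪jv X Y Z, Z⟫ = ⟪jv X Y Z, acc X Y Z + (⟪Z, Y⟫ / ⟪Y, Y⟫) • Y +
      (⟪Z, qv X Y⟫ / ⟪qv X Y, qv X Y⟫) • qv X Y⟫ from congrArg _ hZ]
    simp only [jv, inner_add_right, real_inner_smul_left, real_inner_smul_right,
      real_inner_comm Y (cross4 Y (qv X Y) (acc X Y Z)),
      real_inner_comm (qv X Y) (cross4 Y (qv X Y) (acc X Y Z)),
      real_inner_comm (acc X Y Z) (cross4 Y (qv X Y) (acc X Y Z)), c1, c2, c3, mul_zero, add_zero]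
  · rw [show ⟪kv X Y Z, Z⟫ = ⟪kv X Y Z, acc X Y Z + (⟪Z, Y⟫ / ⟪Y, Y⟫) • Y +
      (⟪Z, qv X Y⟫ / ⟪qv X Y, qv X Y⟫) • qv X Y⟫ from congrArg _ hZ]
    simp only [kv, inner_add_right, real_inner_smul_left, real_inner_smul_right,
      real_inner_comm Y (acc X Y Z), real_inner_comm (qv X Y) (acc X Y Z), hya, hqa,
      real_inner_self_eq_norm_sq, mul_zero, add_zero]
    field_simp

section Smooth

variable {W : Type*} [NormedAddCommGroup W] [NormedSpace ℝ W] {x : W} {A B C : W → V4}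

lemma contDiffAt_qv (hA : ContDiffAt ℝ ∞ A x) (hB : ContDiffAt ℝ ∞ B x) (h0 : B x ≠ 0) :
    ContDiffAt ℝ ∞ (fun y => qv (A y) (B y)) x :=
  hA.sub (((hA.inner ℝ hB).div (hB.inner ℝ hB) (inner_self_ne_zero.2 h0)).smul hB)

lemma contDiffAt_acc (hA : ContDiffAt ℝ ∞ A x) (hB : ContDiffAt ℝ ∞ B x)
    (hC : ContDiffAt ℝ ∞ C x) (h0 : B x ≠ 0) (hq : qv (A x) (B x) ≠ 0) :
    ContDiffAt ℝ ∞ (fun y => acc (A y) (B y) (C y)) x :=
  (hC.sub (((hC.inner ℝ hB).div (hB.inner ℝ hB) (inner_self_ne_zero.2 h0)).smul hB)).sub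
    (((hC.inner ℝ (contDiffAt_qv hA hB h0)).div ((contDiffAt_qv hA hB h0).inner ℝ
      (contDiffAt_qv hA hB h0)) (inner_self_ne_zero.2 hq)).smul (contDiffAt_qv hA hB h0))

lemma contDiffAt_cross4 (hA : ContDiffAt ℝ ∞ A x) (hB : ContDiffAt ℝ ∞ B x)
    (hC : ContDiffAt ℝ ∞ C x) : ContDiffAt ℝ ∞ (fun y => cross4 (A y) (B y) (C y)) x := by
  have a := fun i => contDiffAt_euclidean.1 hA i
  have b := fun i => contDiffAt_euclidean.1 hB i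
  have c := fun i => contDiffAt_euclidean.1 hC i
  refine contDiffAt_euclidean.2 fun i => ?_
  fin_cases i <;> simp [cross4] <;> fun_prop

lemma contDiffAt_jv (hA : ContDiffAt ℝ ∞ A x) (hB : ContDiffAt ℝ ∞ B x)
    (hC : ContDiffAt ℝ ∞ C x) (h0 : B x ≠ 0) (hq : qv (A x) (B x) ≠ 0)
    (ha : acc (A x) (B x) (C x) ≠ 0) :
    ContDiffAt ℝ ∞ (fun y => jv (A y) (B y) (C y)) x :=
  (((hB.norm ℝ h0).mul ((contDiffAt_acc hA hB hC h0 hq).norm ℝ ha)).inv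
    (mul_ne_zero (norm_ne_zero_iff.2 h0) (norm_ne_zero_iff.2 ha))).smul
    (contDiffAt_cross4 hB (contDiffAt_qv hA hB h0) (contDiffAt_acc hA hB hC h0 hq))

lemma contDiffAt_kv (hA : ContDiffAt ℝ ∞ A x) (hB : ContDiffAt ℝ ∞ B x)
    (hC : ContDiffAt ℝ ∞ C x) (h0 : B x ≠ 0) (hq : qv (A x) (B x) ≠ 0)
    (ha : acc (A x) (B x) (C x) ≠ 0) :
    ContDiffAt ℝ ∞ (fun y => kv (A y) (B y) (C y)) x :=
  (((contDiffAt_qv hA hB h0).norm ℝ hq).div ((contDiffAt_acc hA hB hC h0 hq).norm ℝ ha)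
    (norm_ne_zero_iff.2 ha)).smul (contDiffAt_acc hA hB hC h0 hq)

end Smooth

end

end Vale.Agent.P205.HybridFrame
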