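import Mathlib
import Vale.Agent.P205.Full.Loop

/-!
# P205: the hybrid loop

With `S, C` the sine and cosine of the phase and `p ^ 2 < 2`, the point
`(1 - p ^ 2 S ^ 2, p S √(2 - μ ^ 2 C ^ 2 - p ^ 2 S ^ 2), - μ p S C)` lies on the unit sphere and
has mean `(1 - p ^ 2 / 2, 0, 0)`. Its horizontal turning `X Y' - Y X'` is `p C` times a positive
number and its vertical velocity is `2 π μ p (1 - 2 C ^ 2)`, so the two are never small together.
Scaled to squared radius `‖q‖ ^ 2 + a ^ 2` this is the loop `q + a • gen` with mean `q`, smooth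
up to `a = 0`.
-/

namespace Vale.Agent.P205.HybridLoop

open scoped ContDiff RealInnerProductSpace
open intervalIntegral Loop

noncomputable section

/-- The cosine of the phase. -/
def cwave (θ : ℝ) : ℝ := Real.cos (2 * Real.pi * θ)

/-- The radicand of the horizontal coordinate. -/
def radicand (μ p θ : ℝ) : ℝ := 2 - μ ^ 2 * cwave θ ^ 2 - p ^ 2 * wave θ ^ 2

/-- The first coordinate. -/
def fx (p θ : ℝ) : ℝ := 1 - p ^ 2 * wave θ ^ 2

/-- The second coordinate, divided by `p`. -/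
def fy (μ p θ : ℝ) : ℝ := wave θ * √(radicand μ p θ)

/-- The third coordinate, divided by `p`. -/
def fz (μ θ : ℝ) : ℝ := -μ * (wave θ * cwave θ)

/-- The velocity of the second coordinate, divided by `p`. -/
def fy' (μ p θ : ℝ) : ℝ :=
  2 * Real.pi * cwave θ * (radicand μ p θ + wave θ ^ 2 * (μ ^ 2 - p ^ 2)) / √(radicand μ p θ)

/-- The velocity of the third coordinate, divided by `p`. -/
def fz' (μ θ : ℝ) : ℝ := 2 * Real.pi * μ * (1 - 2 * cwave θ ^ 2)

/-- The velocity of the first coordinate, divided by `p`. -/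
def fx' (p θ : ℝ) : ℝ := -(4 * Real.pi * p * wave θ * cwave θ)

/-- The horizontal turning `X Y' - Y X'`, divided by `p`. -/
def horiz (μ p θ : ℝ) : ℝ := fx p θ * fy' μ p θ - p * fy μ p θ * fx' p θ

lemma wave_sq_add (θ : ℝ) : wave θ ^ 2 + cwave θ ^ 2 = 1 := Real.sin_sq_add_cos_sq _

lemma cwave_half (θ : ℝ) : cwave (θ + 1 / 2) = -cwave θ := by
  rw [cwave, cwave, show 2 * Real.pi * (θ + 1 / 2) = 2 * Real.pi * θ + Real.pi by ring,
    Real.cos_add_pi]

lemma cwave_one (θ : ℝ) : cwave (θ + 1) = cwave θ := by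
  rw [show θ + 1 = θ + 1 / 2 + 1 / 2 by ring, cwave_half, cwave_half, neg_neg]

lemma radicand_pos {μ p : ℝ} (hμ : μ ^ 2 < 2) (hp : p ^ 2 < 2) (θ : ℝ) :
    0 < radicand μ p θ := by
  have h := wave_sq_add θ
  rw [radicand]
  rcases (sq_nonneg (cwave θ)).lt_or_eq with hc | hc
  · nlinarith [sq_nonneg (wave θ)]
  · rw [← hc] at h ⊢; nlinarith

/-- The point lies on the unit sphere. -/
lemma sphere {μ p : ℝ} (hμ : μ ^ 2 < 2) (hp : p ^ 2 < 2) (θ : ℝ) :
    fx p θ ^ 2 + (p * fy μ p θ) ^ 2 + (p * fz μ θ) ^ 2 = 1 := by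
  rw [fy, mul_pow, mul_pow, Real.sq_sqrt (radicand_pos hμ hp θ).le, fx, fz, radicand]
  ring

lemma hasDerivAt_wave (θ : ℝ) : HasDerivAt wave (cwave θ * (2 * Real.pi)) θ := by
  have hl : HasDerivAt (fun t => 2 * Real.pi * t) (2 * Real.pi) θ := by
    simpa using (hasDerivAt_id θ).const_mul (2 * Real.pi)
  exact hl.sin

lemma hasDerivAt_cwave (θ : ℝ) : HasDerivAt cwave (-wave θ * (2 * Real.pi)) θ := by
  have hl : HasDerivAt (fun t => 2 * Real.pi * t) (2 * Real.pi) θ := by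
    simpa using (hasDerivAt_id θ).const_mul (2 * Real.pi)
  exact hl.cos

lemma hasDerivAt_fx (p θ : ℝ) : HasDerivAt (fx p) (p * fx' p θ) θ :=
  ((((hasDerivAt_wave θ).pow 2).const_mul (p ^ 2)).const_sub 1).congr_deriv (by
    simp only [fx']; push_cast; ring)

lemma hasDerivAt_fy {μ p : ℝ} (hμ : μ ^ 2 < 2) (hp : p ^ 2 < 2) (θ : ℝ) :
    HasDerivAt (fy μ p) (fy' μ p θ) θ := by
  have hpos := radicand_pos hμ hp θ
  have hr : HasDerivAt (radicand μ p)
      (4 * Real.pi * wave θ * cwave θ * (μ ^ 2 - p ^ 2)) θ := by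
    refine ((((hasDerivAt_cwave θ).pow 2).const_mul (μ ^ 2)).const_sub 2 |>.sub
      (((hasDerivAt_wave θ).pow 2).const_mul (p ^ 2))).congr_deriv ?_
    push_cast; ring
  refine ((hasDerivAt_wave θ).mul (hr.sqrt hpos.ne')).congr_deriv ?_
  have hs : √(radicand μ p θ) ≠ 0 := (Real.sqrt_pos.2 hpos).ne'
  rw [fy']
  field_simp
  rw [Real.sq_sqrt hpos.le]
  ring

lemma hasDerivAt_fz (μ θ : ℝ) : HasDerivAt (fz μ) (fz' μ θ) θ := by
  refine (((hasDerivAt_wave θ).mul (hasDerivAt_cwave θ)).const_mul (-μ)).congr_deriv ?_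
  rw [fz', show 1 - 2 * cwave θ ^ 2 = wave θ ^ 2 - cwave θ ^ 2 by linarith [wave_sq_add θ]]
  ring

/-- The horizontal turning in closed form. -/
lemma horiz_eq {μ p : ℝ} (hμ : μ ^ 2 < 2) (hp : p ^ 2 < 2) (θ : ℝ) :
    horiz μ p θ = 2 * Real.pi * cwave θ *
      (2 - μ ^ 2 + wave θ ^ 2 * (p ^ 2 * (2 - μ ^ 2) - 2 * (p ^ 2 - μ ^ 2))) /
        √(radicand μ p θ) := by
  have hpos := radicand_pos hμ hp θ
  have hs : √(radicand μ p θ) ≠ 0 := (Real.sqrt_pos.2 hpos).ne'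
  rw [horiz, fy', fy, fx', fx]
  field_simp
  rw [Real.sq_sqrt hpos.le, radicand,
    show cwave θ ^ 2 = 1 - wave θ ^ 2 by linarith [wave_sq_add θ]]
  ring

lemma horiz_ge {μ p : ℝ} (hμ : μ ^ 2 ≤ 1) (hp : p ^ 2 < 2) (θ : ℝ) :
    4 * |cwave θ| ≤ |horiz μ p θ| := by
  have hμ' : μ ^ 2 < 2 := by linarith
  have hpos := radicand_pos hμ' hp θ
  have hs := Real.sqrt_pos.2 hpos
  obtain ⟨B, hB⟩ : ∃ B, B = 2 - μ ^ 2 + wave θ ^ 2 *
    (p ^ 2 * (2 - μ ^ 2) - 2 * (p ^ 2 - μ ^ 2)) := ⟨_, rfl⟩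
  have hB1 : 1 ≤ B := by
    have h1 : wave θ ^ 2 ≤ 1 := Real.sin_sq_le_one _
    rcases le_or_gt 0 (p ^ 2 * (2 - μ ^ 2) - 2 * (p ^ 2 - μ ^ 2)) with h | h
    · rw [hB]; nlinarith [mul_nonneg (sq_nonneg (wave θ)) h]
    · rw [hB]
      nlinarith [mul_le_mul_of_nonpos_right h1 h.le, mul_nonneg (sq_nonneg μ)
        (sub_pos.2 hp).le]
  have hr : √(radicand μ p θ) ≤ 3 / 2 := by
    rw [Real.sqrt_le_iff]
    refine ⟨by norm_num, ?_⟩
    simp only [radicand]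
    nlinarith [mul_nonneg (sq_nonneg μ) (sq_nonneg (cwave θ)),
      mul_nonneg (sq_nonneg p) (sq_nonneg (wave θ))]
  rw [horiz_eq hμ' hp, ← hB, abs_div, abs_of_pos hs, le_div_iff₀ hs, abs_mul, abs_mul,
    abs_of_pos (by linarith : 0 < B), abs_of_pos (by positivity : (0 : ℝ) < 2 * Real.pi)]
  have hpi := Real.pi_gt_three
  calc 4 * |cwave θ| * √(radicand μ p θ) ≤ 4 * |cwave θ| * (3 / 2) :=
        mul_le_mul_of_nonneg_left hr (by positivity)
    _ ≤ 2 * Real.pi * |cwave θ| * 1 := by nlinarith [abs_nonneg (cwave θ)]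
    _ ≤ 2 * Real.pi * |cwave θ| * B :=
        mul_le_mul_of_nonneg_left hB1 (by positivity)

/-- Where the horizontal turning is small the vertical velocity has a sign. -/
theorem turning {μ p : ℝ} (hμ0 : 0 < μ) (hμ : μ ≤ 1) (hp : p ^ 2 < 2) (θ : ℝ) :
    2 ≤ |horiz μ p θ| ∨ Real.pi * μ ≤ fz' μ θ := by
  rcases le_or_gt (1 / 2) |cwave θ| with h | h
  · exact Or.inl (le_trans (by linarith) (horiz_ge (by nlinarith) hp θ))
  · refine Or.inr ?_
    have : cwave θ ^ 2 ≤ 1 / 4 := by rw [← sq_abs]; nlinarith [abs_nonneg (cwave θ)]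
    rw [fz']
    nlinarith [mul_pos Real.pi_pos hμ0]

/-- The part of `L • velocity + s` along `(-Y, X, 0)`. -/
def side (μ L p θ : ℝ) (s : ℝ × ℝ × ℝ) : ℝ :=
  L * p * horiz μ p θ + (fx p θ * s.2.1 - p * fy μ p θ * s.1)

/-- The part of `L • velocity + s` along `(0, 0, 1) - Z • (X, Y, Z)`. -/
def lift0 (μ L p θ : ℝ) (s : ℝ × ℝ × ℝ) : ℝ :=
  L * p * fz' μ θ + (s.2.2 - p * fz μ θ *
    (fx p θ * s.1 + p * fy μ p θ * s.2.1 + p * fz μ θ * s.2.2))

/-- The velocity is tangent to the sphere. -/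
lemma tangent {μ p : ℝ} (hμ : μ ^ 2 < 2) (hp : p ^ 2 < 2) (θ : ℝ) :
    fx p θ * fx' p θ + p * fy μ p θ * fy' μ p θ + p * fz μ θ * fz' μ θ = 0 := by
  have hpos := radicand_pos hμ hp θ
  have hs : √(radicand μ p θ) ≠ 0 := (Real.sqrt_pos.2 hpos).ne'
  rw [fx, fx', fy, fy', fz, fz']
  field_simp
  rw [radicand]
  linear_combination (p * wave θ * cwave θ * μ ^ 2 * 2 * Real.pi) * wave_sq_add θ

lemma abs_le_one_of_sq {x : ℝ} (h : x ^ 2 ≤ 1) : |x| ≤ 1 :=
  abs_le.2 ⟨by nlinarith, by nlinarith⟩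

lemma abs_fy_le (μ p θ : ℝ) : |fy μ p θ| ≤ 3 / 2 := by
  rw [fy, abs_mul, abs_of_nonneg (Real.sqrt_nonneg _)]
  calc |wave θ| * √(radicand μ p θ) ≤ 1 * (3 / 2) := by
        refine mul_le_mul (Real.abs_sin_le_one _) ?_ (Real.sqrt_nonneg _) zero_le_one
        rw [Real.sqrt_le_iff]
        refine ⟨by norm_num, ?_⟩
        simp only [radicand]
        nlinarith [mul_nonneg (sq_nonneg μ) (sq_nonneg (cwave θ)),
          mul_nonneg (sq_nonneg p) (sq_nonneg (wave θ))]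
    _ = 3 / 2 := one_mul _

lemma abs_fz_le {μ : ℝ} (hμ0 : 0 ≤ μ) (hμ : μ ≤ 1) (θ : ℝ) : |fz μ θ| ≤ 1 := by
  rw [fz, abs_mul, abs_neg, abs_mul, abs_of_nonneg hμ0]
  exact mul_le_one₀ hμ (by positivity) (mul_le_one₀ (Real.abs_sin_le_one _) (abs_nonneg _)
    (Real.abs_cos_le_one _))

lemma abs_mul_le_bound {x y b c : ℝ} (h1 : |x| ≤ b) (h2 : |y| ≤ c) : |x * y| ≤ b * c := by
  rw [abs_mul]
  exact mul_le_mul h1 h2 (abs_nonneg y) ((abs_nonneg x).trans h1)

lemma fz'_ge {μ : ℝ} (hμ0 : 0 ≤ μ) (hμ : μ ≤ 1) (θ : ℝ) :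
    -(4 * Real.pi) * |cwave θ| ≤ fz' μ θ := by
  have hc2 : cwave θ ^ 2 ≤ |cwave θ| := by
    rw [← sq_abs, pow_two]
    exact mul_le_of_le_one_left (abs_nonneg _) (Real.abs_cos_le_one _)
  have h1 : μ * cwave θ ^ 2 ≤ |cwave θ| :=
    le_trans (mul_le_of_le_one_left (sq_nonneg _) hμ) hc2
  have h2 := mul_le_mul_of_nonneg_left h1 (by positivity : (0 : ℝ) ≤ 4 * Real.pi)
  have h3 : 0 ≤ 2 * Real.pi * μ := by positivity
  rw [fz']
  linarith

lemma small_lift {t z C v η w : ℝ} (ht : 0 ≤ t) (hz : 4 * |C| ≤ |z|)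
    (hv : -(4 * Real.pi) * |C| ≤ v) (hs : |t * z + w| ≤ η) : -(4 * (η + |w|)) ≤ t * v := by
  have e1 : |t * z| ≤ η + |w| := by
    have := abs_sub (t * z + w) w
    rw [add_sub_cancel_right] at this
    linarith
  rw [abs_mul, abs_of_nonneg ht] at e1
  have e2 := mul_le_mul_of_nonneg_left hz ht
  have e3 := mul_le_mul_of_nonneg_left hv ht
  have e4 : Real.pi * (t * |C|) ≤ 4 * (t * |C|) :=
    mul_le_mul_of_nonneg_right Real.pi_le_four (mul_nonneg ht (abs_nonneg C))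
  linarith

lemma large_side {t z w μ M η : ℝ} (ht : 0 ≤ t) (hμ : μ ≤ 1) (hz : 2 ≤ |z|)
    (hbig : 3 * M < μ * t) (hw : |w| ≤ 2 * M) (hη : η ≤ 4 * M) : η ≤ |t * z + w| := by
  have e1 := abs_sub (t * z + w) w
  rw [add_sub_cancel_right, abs_mul, abs_of_nonneg ht] at e1
  have e2 := mul_le_mul_of_nonneg_left hz ht
  have e3 : μ * t ≤ t := mul_le_of_le_one_left ht hμ
  linarith

lemma large_lift {t v μ M : ℝ} (ht : 0 ≤ t) (hv : Real.pi * μ ≤ v) (hbig : 3 * M < μ * t)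
    (hM : 0 ≤ M) : 9 * M ≤ t * v := by
  have e2 := mul_le_mul_of_nonneg_left hv ht
  have e3 := mul_le_mul_of_nonneg_left hbig.le Real.pi_pos.le
  have e4 := mul_le_mul_of_nonneg_right Real.pi_gt_three.le (by linarith : 0 ≤ 3 * M)
  linarith

/-- **KEY.** For every phase one of the two normal parts of `L • velocity + s` is at least
`H / 64`, provided that where `μ L p` is small so are `p` and the side part of `s`, and the
vertical part of `s` is at least `H`. -/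
theorem key {μ p L H M : ℝ} {s : ℝ × ℝ × ℝ} (hμ0 : 0 < μ) (hμ : μ ≤ 1) (hp0 : 0 ≤ p)
    (hp : p ^ 2 < 2) (hL : 0 ≤ L) (hH : 0 < H) (hHM : H ≤ M)
    (h1 : |s.1| ≤ M) (h2 : |s.2.1| ≤ M) (h3 : |s.2.2| ≤ M)
    (hsmall : μ * L * p ≤ 3 * M → 64 * M * p ≤ H ∧ 64 * |s.2.1| ≤ H ∧ H ≤ s.2.2) (θ : ℝ) :
    H / 64 ≤ |side μ L p θ s| ∨ H / 64 ≤ |lift0 μ L p θ s| := by
  have hM : 0 < M := lt_of_lt_of_le hH hHM
  have hμ2 : μ ^ 2 < 2 := by nlinarith
  have hp' : p ≤ 3 / 2 := by nlinarith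
  have hsp := sphere hμ2 hp θ
  have hX : |fx p θ| ≤ 1 := abs_le_one_of_sq
    (by nlinarith [sq_nonneg (p * fy μ p θ), sq_nonneg (p * fz μ θ)])
  have hY : |p * fy μ p θ| ≤ 1 := abs_le_one_of_sq
    (by nlinarith [sq_nonneg (fx p θ), sq_nonneg (p * fz μ θ)])
  have hZ : |p * fz μ θ| ≤ 1 := abs_le_one_of_sq
    (by nlinarith [sq_nonneg (fx p θ), sq_nonneg (p * fy μ p θ)])
  have hy := abs_fy_le μ p θ
  have hz := abs_fz_le hμ0.le hμ θ
  obtain ⟨w, hw⟩ : ∃ w, w = fx p θ * s.2.1 - p * fy μ p θ * s.1 := ⟨_, rfl⟩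
  obtain ⟨d, hd⟩ : ∃ d, d = p * fz μ θ *
      (fx p θ * s.1 + p * fy μ p θ * s.2.1 + p * fz μ θ * s.2.2) := ⟨_, rfl⟩
  have hw1 : |w| ≤ 2 * M := by
    rw [hw]
    linarith [abs_sub (fx p θ * s.2.1) (p * fy μ p θ * s.1), abs_mul_le_bound hX h2,
      abs_mul_le_bound hY h1]
  have hw2 : |w| ≤ |s.2.1| + 3 / 2 * p * M := by
    rw [hw]
    have e : |p * fy μ p θ| ≤ p * (3 / 2) := abs_mul_le_bound (abs_of_nonneg hp0).le hy
    linarith [abs_sub (fx p θ * s.2.1) (p * fy μ p θ * s.1),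
      abs_mul_le_bound hX (le_refl |s.2.1|), abs_mul_le_bound e h1]
  have hd0 : |fx p θ * s.1 + p * fy μ p θ * s.2.1 + p * fz μ θ * s.2.2| ≤ 3 * M := by
    linarith [abs_add_le (fx p θ * s.1 + p * fy μ p θ * s.2.1) (p * fz μ θ * s.2.2),
      abs_add_le (fx p θ * s.1) (p * fy μ p θ * s.2.1), abs_mul_le_bound hX h1,
      abs_mul_le_bound hY h2, abs_mul_le_bound hZ h3]
  have hd1 : |d| ≤ 3 * M := by rw [hd]; linarith [abs_mul_le_bound hZ hd0]
  have hd2 : |d| ≤ 3 * p * M := by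
    rw [hd]
    have e : |p * fz μ θ| ≤ p * 1 := abs_mul_le_bound (abs_of_nonneg hp0).le hz
    linarith [abs_mul_le_bound e hd0]
  have hC := horiz_ge (μ := μ) (by nlinarith) hp θ
  have hLp : 0 ≤ L * p := mul_nonneg hL hp0
  simp only [side, lift0, ← hw, ← hd]
  by_cases hcase : μ * L * p ≤ 3 * M
  · obtain ⟨k1, k2, k3⟩ := hsmall hcase
    by_cases hside : H / 64 ≤ |L * p * horiz μ p θ + w|
    · exact Or.inl hside
    · refine Or.inr (le_trans ?_ (le_abs_self _))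
      have := small_lift hLp hC (fz'_ge hμ0.le hμ θ) (not_le.1 hside).le
      linarith [abs_le.1 hd2]
  · have hbig : 3 * M < μ * (L * p) := by rw [← mul_assoc]; exact not_le.1 hcase
    refine (turning hμ0 hμ hp θ).imp (fun h => ?_) (fun h => (le_trans ?_ (le_abs_self _)))
    · exact large_side hLp hμ h hbig hw1 (by linarith)
    · have := large_lift hLp h hbig hM.le
      linarith [abs_le.1 hd1, abs_le.1 h3]

/-- **KEY, uniform on a compact set.** Where `p` vanishes the slow part has no side part and a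
positive vertical part; then for large `L` one of the normal parts stays away from zero. -/
theorem exists_key {Y : Type*} [TopologicalSpace Y] {K : Set Y} (hK : IsCompact K) {μ : ℝ}
    (hμ0 : 0 < μ) (hμ : μ ≤ 1) {p : Y → ℝ} {s : Y → ℝ × ℝ × ℝ} (hpc : Continuous p)
    (hsc : Continuous s) (hp0 : ∀ y, 0 ≤ p y) (hp : ∀ y, p y ^ 2 < 2)
    (h0 : ∀ y ∈ K, p y = 0 → (s y).2.1 = 0 ∧ 0 < (s y).2.2) :
    ∃ L0 δ, 0 < δ ∧ ∀ L, L0 ≤ L → ∀ y ∈ K, ∀ θ,
      δ ≤ |side μ L (p y) θ (s y)| ∨ δ ≤ |lift0 μ L (p y) θ (s y)| := by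
  obtain ⟨H, hH, hHs⟩ : ∃ H > 0, ∀ y ∈ K, p y = 0 → H < (s y).2.2 := by
    have hK0 : IsCompact (K ∩ {y | p y = 0}) :=
      hK.inter_right (isClosed_eq hpc continuous_const)
    obtain ⟨H, hH, hle⟩ := hK0.exists_forall_le' (f := fun y => (s y).2.2)
      hsc.snd.snd.continuousOn (a := 0) fun y hy => (h0 y hy.1 hy.2).2
    exact ⟨H / 2, by linarith, fun y hy hy0 => by linarith [hle y ⟨hy, hy0⟩]⟩
  obtain ⟨C, hC⟩ := hK.exists_bound_of_continuousOn hsc.continuousOn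
  obtain ⟨M, hM⟩ : ∃ M, M = max C H := ⟨_, rfl⟩
  have hbad : IsCompact (K ∩ {y | H ≤ 64 * |(s y).2.1| ∨ (s y).2.2 ≤ H}) :=
    hK.inter_right ((isClosed_le continuous_const (continuous_const.mul hsc.snd.fst.abs)).union
      (isClosed_le hsc.snd.snd continuous_const))
  obtain ⟨ε, hε, hle⟩ := hbad.exists_forall_le' (f := p) hpc.continuousOn (a := 0) fun y hy => by
    rcases (hp0 y).lt_or_eq with h | h
    · exact h
    · rcases hy.2 with h' | h'
      · rw [(h0 y hy.1 h.symm).1, abs_zero] at h'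
        linarith
      · linarith [hHs y hy.1 h.symm]
  have hM0 : 0 < M := lt_of_lt_of_le hH (hM ▸ le_max_right _ _)
  obtain ⟨η, hη⟩ : ∃ η, η = min (ε / 2) (H / (64 * M)) := ⟨_, rfl⟩
  have hη0 : 0 < η := hη ▸ lt_min (by linarith) (by positivity)
  refine ⟨(3 * M + 1) / (μ * η), H / 64, by positivity, fun L hL y hy θ => ?_⟩
  rw [div_le_iff₀ (by positivity)] at hL
  have hs := (hC y hy).trans (hM ▸ le_max_left C H)
  simp only [Prod.norm_def, Real.norm_eq_abs, max_le_iff] at hs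
  have hL0 : 0 ≤ L := nonneg_of_mul_nonneg_left (le_trans (by linarith) hL) (mul_pos hμ0 hη0)
  refine key hμ0 hμ (hp0 y) (hp y) hL0 hH (hM ▸ le_max_right _ _) hs.1 hs.2.1 hs.2.2
    (fun hsm => ?_) θ
  have hlt : p y < η := by
    by_contra hc
    nlinarith [mul_le_mul_of_nonneg_left (not_lt.1 hc) (mul_nonneg hμ0.le hL0)]
  have hp1 : 64 * M * p y ≤ H := by
    have := hlt.le.trans (hη ▸ min_le_right _ _)
    rw [le_div_iff₀ (by positivity)] at this
    linarith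
  by_contra hc
  have hy' : y ∈ K ∩ {y | H ≤ 64 * |(s y).2.1| ∨ (s y).2.2 ≤ H} := by
    refine ⟨hy, ?_⟩
    by_contra hn
    simp only [Set.mem_ofPred_eq, not_or, not_le] at hn
    exact hc ⟨hp1, hn.1.le, hn.2.le⟩
  linarith [hle y hy', hlt.trans_le (hη ▸ min_le_left _ _)]

/-! ### Scaled to a vector `q` and an amplitude `a` -/

/-- The parameter `p` of the amplitude `a` over a vector of length `n`. -/
def par (n a : ℝ) : ℝ := a * √(swing n a)

lemma par_sq {n : ℝ} (hn : 0 < n) (a : ℝ) : par n a ^ 2 = a ^ 2 * swing n a := by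
  rw [par, mul_pow, Real.sq_sqrt (swing_pos hn a).le]

lemma par_sq_lt {n : ℝ} (hn : 0 < n) (a : ℝ) : par n a ^ 2 < 2 := by
  rw [par_sq hn, swing, mul_div, div_lt_iff₀ (by have := rad_pos hn a; positivity)]
  nlinarith [rad_sq n a, mul_pos (rad_pos hn a) hn]

/-- The coefficient along `j`, divided by the amplitude. -/
def hB (μ n a θ : ℝ) : ℝ := rad n a * √(swing n a) * fy μ (par n a) θ / n

/-- The coefficient along `k`, divided by the amplitude. -/
def hC (μ n a θ : ℝ) : ℝ := rad n a * √(swing n a) * fz μ θ / n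

lemma coord_x {n : ℝ} (hn : 0 < n) (a θ : ℝ) :
    (1 + a * cA n a θ) * n = rad n a * fx (par n a) θ := by
  have hr := rad_pos hn a
  rw [fx, par_sq hn, cA, swing]
  field_simp
  linear_combination -(rad_sq n a)

lemma coord_y {n : ℝ} (hn : 0 < n) (μ a θ : ℝ) :
    a * hB μ n a θ * n = rad n a * (par n a * fy μ (par n a) θ) := by
  rw [hB, par]; field_simp

lemma coord_z {n : ℝ} (hn : 0 < n) (μ a θ : ℝ) :
    a * hC μ n a θ * n = rad n a * (par n a * fz μ θ) := by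
  rw [hC, par]; field_simp

lemma hB_one (μ n a θ : ℝ) : hB μ n a (θ + 1) = hB μ n a θ := by
  simp only [hB, fy, radicand, wave_one, cwave_one]

lemma hC_one (μ n a θ : ℝ) : hC μ n a (θ + 1) = hC μ n a θ := by
  simp only [hC, fz, wave_one, cwave_one]

lemma mean_fy (μ p : ℝ) :
    ∫ θ in (0 : ℝ)..1, fy μ p θ = 0 := by
  have hper : Function.Periodic (fy μ p) 1 := fun θ => by
    simp only [fy, radicand, wave_one, cwave_one]
  have h1 : (∫ θ in (0 : ℝ)..1, fy μ p (θ + 1 / 2)) = ∫ θ in (0 : ℝ)..1, fy μ p θ := by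
    rw [intervalIntegral.integral_comp_add_right, zero_add, add_comm (1 : ℝ)]
    simpa using hper.intervalIntegral_add_eq (1 / 2) 0
  have h2 : (∫ θ in (0 : ℝ)..1, fy μ p (θ + 1 / 2)) = -∫ θ in (0 : ℝ)..1, fy μ p θ := by
    rw [← intervalIntegral.integral_neg]
    exact integral_congr fun θ _ => by
      simp only [fy, radicand, wave_half, cwave_half, neg_sq, neg_mul]
  linarith

lemma mean_fz (μ : ℝ) : ∫ θ in (0 : ℝ)..1, fz μ θ = 0 := by
  have hd : ∀ θ, HasDerivAt (fun t => -μ * (wave t ^ 2 / (4 * Real.pi))) (fz μ θ) θ := fun θ => by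
    refine ((((hasDerivAt_wave θ).pow 2).div_const (4 * Real.pi)).const_mul (-μ)).congr_deriv ?_
    rw [fz]; push_cast; field_simp; ring
  have hc : Continuous (fz μ) := continuous_iff_continuousAt.2 fun θ =>
    (hasDerivAt_fz μ θ).continuousAt
  rw [integral_eq_sub_of_hasDerivAt (fun θ _ => hd θ) (hc.intervalIntegrable 0 1),
    show wave 1 = wave 0 by simpa using wave_one 0, sub_self]

section Smooth

variable {X : Type*} [NormedAddCommGroup X] [NormedSpace ℝ X] {n a θ : X → ℝ} {x : X} {μ : ℝ}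

lemma contDiffAt_cwave (hθ : ContDiffAt ℝ ∞ θ x) : ContDiffAt ℝ ∞ (fun y => cwave (θ y)) x :=
  (contDiffAt_const.mul hθ).cos

lemma contDiffAt_swing (hn : ContDiffAt ℝ ∞ n x) (ha : ContDiffAt ℝ ∞ a x) (hpos : 0 < n x) :
    ContDiffAt ℝ ∞ (fun y => swing (n y) (a y)) x :=
  have hr := contDiffAt_rad hn ha hpos
  contDiffAt_const.div (hr.mul (hr.add hn)) (by have := rad_pos hpos (a x); positivity)

lemma contDiffAt_par (hn : ContDiffAt ℝ ∞ n x) (ha : ContDiffAt ℝ ∞ a x) (hpos : 0 < n x) :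
    ContDiffAt ℝ ∞ (fun y => par (n y) (a y)) x :=
  ha.mul ((contDiffAt_swing hn ha hpos).sqrt (swing_pos hpos (a x)).ne')

lemma contDiffAt_hB (hμ : μ ^ 2 < 2) (hn : ContDiffAt ℝ ∞ n x) (ha : ContDiffAt ℝ ∞ a x)
    (hθ : ContDiffAt ℝ ∞ θ x) (hpos : 0 < n x) :
    ContDiffAt ℝ ∞ (fun y => hB μ (n y) (a y) (θ y)) x :=
  (((contDiffAt_rad hn ha hpos).mul
      ((contDiffAt_swing hn ha hpos).sqrt (swing_pos hpos (a x)).ne')).mul
    ((contDiffAt_wave hθ).mul (((contDiffAt_const.sub (contDiffAt_const.mul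
      ((contDiffAt_cwave hθ).pow 2))).sub (((contDiffAt_par hn ha hpos).pow 2).mul
        ((contDiffAt_wave hθ).pow 2))).sqrt
      (radicand_pos hμ (par_sq_lt hpos (a x)) (θ x)).ne'))).div hn hpos.ne'

lemma contDiffAt_hC (hn : ContDiffAt ℝ ∞ n x) (ha : ContDiffAt ℝ ∞ a x)
    (hθ : ContDiffAt ℝ ∞ θ x) (hpos : 0 < n x) :
    ContDiffAt ℝ ∞ (fun y => hC μ (n y) (a y) (θ y)) x :=
  (((contDiffAt_rad hn ha hpos).mul
      ((contDiffAt_swing hn ha hpos).sqrt (swing_pos hpos (a x)).ne')).mul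
    (contDiffAt_const.mul ((contDiffAt_wave hθ).mul (contDiffAt_cwave hθ)))).div hn hpos.ne'

end Smooth

section Vector

variable {V : Type*} [NormedAddCommGroup V] [InnerProductSpace ℝ V] {μ : ℝ}

/-- The increment of the loop, divided by the amplitude. -/
def gen (μ : ℝ) (q j k : V) (a θ : ℝ) : V :=
  cA ‖q‖ a θ • q + hB μ ‖q‖ a θ • j + hC μ ‖q‖ a θ • k

lemma gen_one (q j k : V) (a θ : ℝ) : gen μ q j k a (θ + 1) = gen μ q j k a θ := by
  simp only [gen, cA_one, hB_one, hC_one]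

/-- The increment is orthogonal to whatever the frame is orthogonal to. -/
lemma inner_gen {v q j k : V} (hq : ⟪v, q⟫ = 0) (hj : ⟪v, j⟫ = 0) (hk : ⟪v, k⟫ = 0) (a θ : ℝ) :
    ⟪v, gen μ q j k a θ⟫ = 0 := by
  simp only [gen, inner_add_right, real_inner_smul_right, hq, hj, hk, mul_zero, add_zero]

/-- The squared length along the loop. -/
theorem norm_sq_add (hμ : μ ^ 2 < 2) {q j k : V} (hq : q ≠ 0) (hj : ‖j‖ = ‖q‖) (hk : ‖k‖ = ‖q‖)
    (hqj : ⟪q, j⟫ = 0) (hqk : ⟪q, k⟫ = 0) (hjk : ⟪j, k⟫ = 0) (a θ : ℝ) :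
    ‖q + a • gen μ q j k a θ‖ ^ 2 = ‖q‖ ^ 2 + a ^ 2 := by
  have hn := norm_pos_iff.2 hq
  have e : q + a • gen μ q j k a θ = (1 + a * cA ‖q‖ a θ) • q + (a * hB μ ‖q‖ a θ) • j +
      (a * hC μ ‖q‖ a θ) • k := by
    simp only [gen, smul_add, smul_smul, add_smul, one_smul, add_assoc]
  rw [e, norm_add_sq_real, norm_add_sq_real]
  simp only [inner_add_left, real_inner_smul_left, real_inner_smul_right, hqj, hqk, hjk, mul_zero,
    add_zero, norm_smul, mul_pow, Real.norm_eq_abs, sq_abs, hj, hk]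
  have ex := congrArg (· ^ 2) (coord_x hn a θ)
  have ey := congrArg (· ^ 2) (coord_y hn μ a θ)
  have ez := congrArg (· ^ 2) (coord_z hn μ a θ)
  linear_combination ex + ey + ez + rad ‖q‖ a ^ 2 * sphere hμ (par_sq_lt hn a) θ + rad_sq ‖q‖ a

/-- The increment has mean zero. -/
theorem mean_gen [CompleteSpace V] (hμ : μ ^ 2 < 2) {q : V} (hq : q ≠ 0) (j k : V) (a : ℝ) :
    ∫ θ in (0 : ℝ)..1, gen μ q j k a θ = 0 := by
  have hn := norm_pos_iff.2 hq
  have cAc : Continuous (cA ‖q‖ a) := continuous_iff_continuousAt.2 fun _ =>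
    (contDiffAt_cA contDiffAt_const contDiffAt_const contDiffAt_id hn).continuousAt
  have cBc : Continuous (hB μ ‖q‖ a) := continuous_iff_continuousAt.2 fun _ =>
    (contDiffAt_hB hμ contDiffAt_const contDiffAt_const contDiffAt_id hn).continuousAt
  have cCc : Continuous (hC μ ‖q‖ a) := continuous_iff_continuousAt.2 fun _ =>
    (contDiffAt_hC contDiffAt_const contDiffAt_const contDiffAt_id hn).continuousAt
  have mB : ∫ θ in (0 : ℝ)..1, hB μ ‖q‖ a θ = 0 := by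
    simp only [hB, intervalIntegral.integral_div, intervalIntegral.integral_const_mul,
      mean_fy, mul_zero, zero_div]
  have mC : ∫ θ in (0 : ℝ)..1, hC μ ‖q‖ a θ = 0 := by
    simp only [hC, intervalIntegral.integral_div, intervalIntegral.integral_const_mul,
      mean_fz, mul_zero, zero_div]
  simp only [gen]
  have kA : Continuous fun θ => cA ‖q‖ a θ • q := cAc.smul continuous_const
  have kB : Continuous fun θ => hB μ ‖q‖ a θ • j := cBc.smul continuous_const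
  have kC : Continuous fun θ => hC μ ‖q‖ a θ • k := cCc.smul continuous_const
  rw [intervalIntegral.integral_add (f := fun θ => cA ‖q‖ a θ • q + hB μ ‖q‖ a θ • j)
      ((kA.add kB).intervalIntegrable 0 1) (kC.intervalIntegrable 0 1),
    intervalIntegral.integral_add (kA.intervalIntegrable 0 1) (kB.intervalIntegrable 0 1),
    intervalIntegral.integral_smul_const, intervalIntegral.integral_smul_const,
    intervalIntegral.integral_smul_const, mean_cA, mB, mC]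
  simp

/-- The increment is smooth in all data where `q` does not vanish. -/
theorem contDiffAt_gen (hμ : μ ^ 2 < 2) {X : Type*} [NormedAddCommGroup X] [NormedSpace ℝ X]
    {q j k : X → V} {a θ : X → ℝ} {x : X} (hq : ContDiffAt ℝ ∞ q x) (hj : ContDiffAt ℝ ∞ j x)
    (hk : ContDiffAt ℝ ∞ k x) (ha : ContDiffAt ℝ ∞ a x) (hθ : ContDiffAt ℝ ∞ θ x) (h0 : q x ≠ 0) :
    ContDiffAt ℝ ∞ (fun y => gen μ (q y) (j y) (k y) (a y) (θ y)) x := by
  have hn : ContDiffAt ℝ ∞ (fun y => ‖q y‖) x := hq.norm ℝ h0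
  have hp : 0 < ‖q x‖ := norm_pos_iff.2 h0
  exact (((contDiffAt_cA hn ha hθ hp).smul hq).add
    ((contDiffAt_hB hμ hn ha hθ hp).smul hj)).add ((contDiffAt_hC hn ha hθ hp).smul hk)

/-- The velocity of the unit point, divided by `p`, in the frame. -/
def vel (μ : ℝ) (q j k : V) (a θ : ℝ) : V :=
  fx' (par ‖q‖ a) θ • q + fy' μ (par ‖q‖ a) θ • j + fz' μ θ • k

/-- The unit normal direction `(-Y, X, 0)`, up to a factor at most one. -/
def nu1 (μ : ℝ) (q j : V) (a θ : ℝ) : V :=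
  ‖q‖⁻¹ • (fx (par ‖q‖ a) θ • j - (par ‖q‖ a * fy μ (par ‖q‖ a) θ) • q)

/-- The normal direction `(0, 0, 1) - Z • (X, Y, Z)`. -/
def nu0 (μ : ℝ) (q j k : V) (a θ : ℝ) : V :=
  ‖q‖⁻¹ • (k - (par ‖q‖ a * fz μ θ) • (fx (par ‖q‖ a) θ • q +
    (par ‖q‖ a * fy μ (par ‖q‖ a) θ) • j + (par ‖q‖ a * fz μ θ) • k))

/-- The loop point in unit coordinates. -/
lemma add_gen_eq {q : V} (hq : q ≠ 0) (j k : V) (a θ : ℝ) :
    q + a • gen μ q j k a θ = (rad ‖q‖ a / ‖q‖) • (fx (par ‖q‖ a) θ • q +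
      (par ‖q‖ a * fy μ (par ‖q‖ a) θ) • j + (par ‖q‖ a * fz μ θ) • k) := by
  have hn := norm_pos_iff.2 hq
  have ex : 1 + a * cA ‖q‖ a θ = rad ‖q‖ a / ‖q‖ * fx (par ‖q‖ a) θ := by
    rw [div_mul_eq_mul_div, eq_div_iff hn.ne', coord_x hn]
  have ey : a * hB μ ‖q‖ a θ = rad ‖q‖ a / ‖q‖ * (par ‖q‖ a * fy μ (par ‖q‖ a) θ) := by
    rw [div_mul_eq_mul_div, eq_div_iff hn.ne', coord_y hn]
  have ez : a * hC μ ‖q‖ a θ = rad ‖q‖ a / ‖q‖ * (par ‖q‖ a * fz μ θ) := by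
    rw [div_mul_eq_mul_div, eq_div_iff hn.ne', coord_z hn]
  rw [gen, smul_add, smul_add, smul_smul, smul_smul, smul_smul, smul_add, smul_add, smul_smul,
    smul_smul, smul_smul, ← ex, ← ey, ← ez, add_smul, one_smul]
  abel

/-- The velocity of the loop. -/
lemma hasDerivAt_add_gen (hμ : μ ^ 2 < 2) {q : V} (hq : q ≠ 0) (j k : V) (a θ : ℝ) :
    HasDerivAt (fun t => q + a • gen μ q j k a t)
      ((rad ‖q‖ a / ‖q‖ * par ‖q‖ a) • vel μ q j k a θ) θ := by
  obtain ⟨p, hp⟩ : ∃ p, p = par ‖q‖ a := ⟨_, rfl⟩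
  have h := ((((hasDerivAt_fx p θ).smul_const q).add
    (((hasDerivAt_fy hμ (hp ▸ par_sq_lt (norm_pos_iff.2 hq) a) θ).const_mul p).smul_const j)).add
      (((hasDerivAt_fz μ θ).const_mul p).smul_const k)).const_smul (rad ‖q‖ a / ‖q‖)
  refine (h.congr_of_eventuallyEq (Filter.Eventually.of_forall fun t => ?_)).congr_deriv ?_
  · rw [add_gen_eq hq, hp]; rfl
  · rw [vel, ← hp]
    simp only [smul_add, smul_smul, mul_assoc]

/-- The two directions test exactly the quantities of `key`. -/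
theorem inner_nu (hμ : μ ^ 2 < 2) {q j k : V} (hq : q ≠ 0) (hj : ‖j‖ = ‖q‖) (hk : ‖k‖ = ‖q‖) (hqj : ⟪q, j⟫ = 0)
    (hqk : ⟪q, k⟫ = 0) (hjk : ⟪j, k⟫ = 0) (a θ L : ℝ) (w : V) :
    ⟪nu1 μ q j a θ, (L * (rad ‖q‖ a / ‖q‖ * par ‖q‖ a)) • vel μ q j k a θ + w⟫ =
      side μ (L * rad ‖q‖ a) (par ‖q‖ a) θ
        (⟪q, w⟫ / ‖q‖, ⟪j, w⟫ / ‖q‖, ⟪k, w⟫ / ‖q‖) ∧
    ⟪nu0 μ q j k a θ, (L * (rad ‖q‖ a / ‖q‖ * par ‖q‖ a)) • vel μ q j k a θ + w⟫ =
      lift0 μ (L * rad ‖q‖ a) (par ‖q‖ a) θ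
        (⟪q, w⟫ / ‖q‖, ⟪j, w⟫ / ‖q‖, ⟪k, w⟫ / ‖q‖) := by
  have hn := (norm_pos_iff.2 hq).ne'
  have ht := tangent hμ (par_sq_lt (norm_pos_iff.2 hq) a) θ
  constructor
  · simp only [nu1, vel, side, horiz, inner_add_right, inner_sub_left, real_inner_smul_left,
      real_inner_smul_right, real_inner_self_eq_norm_sq, real_inner_comm q j, hj, hqj, hqk, hjk,
      mul_zero, add_zero, sub_zero]
    field_simp
    ring
  · simp only [nu0, vel, lift0, inner_add_right, inner_add_left, inner_sub_left,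
      real_inner_smul_left, real_inner_smul_right, real_inner_self_eq_norm_sq, real_inner_comm q j,
      real_inner_comm q k, real_inner_comm j k, hj, hk, hqj, hqk, hjk, mul_zero, add_zero,
      zero_add]
    field_simp
    linear_combination -(L * rad ‖q‖ a * par ‖q‖ a ^ 2 * ‖q‖ ^ 2 * fz μ θ) * ht

/-- The test directions are normal: orthogonal to the loop point and to whatever the frame is
orthogonal to. -/
theorem nu_orth (hμ : μ ^ 2 < 2) {q j k v : V} (hq : q ≠ 0) (hj : ‖j‖ = ‖q‖) (hk : ‖k‖ = ‖q‖)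
    (hqj : ⟪q, j⟫ = 0) (hqk : ⟪q, k⟫ = 0) (hjk : ⟪j, k⟫ = 0) (hvq : ⟪v, q⟫ = 0)
    (hvj : ⟪v, j⟫ = 0) (hvk : ⟪v, k⟫ = 0) (a θ : ℝ) :
    ⟪nu1 μ q j a θ, v⟫ = 0 ∧ ⟪nu0 μ q j k a θ, v⟫ = 0 ∧
      ⟪nu1 μ q j a θ, q + a • gen μ q j k a θ⟫ = 0 ∧
      ⟪nu0 μ q j k a θ, q + a • gen μ q j k a θ⟫ = 0 := by
  have hs := sphere hμ (par_sq_lt (norm_pos_iff.2 hq) a) θ
  have hn := (norm_pos_iff.2 hq).ne'
  rw [add_gen_eq hq]
  refine ⟨?_, ?_, ?_, ?_⟩
  · simp only [nu1, inner_sub_left, real_inner_smul_left, real_inner_comm v q, real_inner_comm v j,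
      hvq, hvj, mul_zero, sub_zero]
  · simp only [nu0, inner_sub_left, inner_add_left, real_inner_smul_left, real_inner_comm v q,
      real_inner_comm v j, real_inner_comm v k, hvq, hvj, hvk, mul_zero, add_zero, sub_zero]
  · simp only [nu1, inner_add_right, inner_sub_left, real_inner_smul_left, real_inner_smul_right,
      real_inner_self_eq_norm_sq, real_inner_comm q j, hj, hqj, hqk, hjk, mul_zero, add_zero,
      sub_zero]
    ring
  · simp only [nu0, inner_add_right, inner_add_left, inner_sub_left, real_inner_smul_left,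
      real_inner_smul_right, real_inner_self_eq_norm_sq, real_inner_comm q j, real_inner_comm q k,
      real_inner_comm j k, hj, hk, hqj, hqk, hjk, mul_zero, add_zero, zero_add]
    linear_combination -(‖q‖ ^ 2 * ‖q‖⁻¹ * (rad ‖q‖ a / ‖q‖) * (par ‖q‖ a * fz μ θ)) * hs

/-- The test directions have length at most one. -/
theorem norm_nu_le (hμ : μ ^ 2 < 2) {q j k : V} (hq : q ≠ 0) (hj : ‖j‖ = ‖q‖) (hk : ‖k‖ = ‖q‖)
    (hqj : ⟪q, j⟫ = 0) (hqk : ⟪q, k⟫ = 0) (hjk : ⟪j, k⟫ = 0) (a θ : ℝ) :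
    ‖nu1 μ q j a θ‖ ≤ 1 ∧ ‖nu0 μ q j k a θ‖ ≤ 1 := by
  have hn := norm_pos_iff.2 hq
  have hs := sphere hμ (par_sq_lt hn a) θ
  have h : ∀ x : V, ⟪x, x⟫ ≤ 1 → ‖x‖ ≤ 1 := fun x hx => by
    rw [real_inner_self_eq_norm_sq] at hx
    exact (sq_le_one_iff₀ (norm_nonneg x)).1 hx
  refine ⟨h _ ?_, h _ ?_⟩
  · simp only [nu1, inner_sub_right, inner_sub_left, real_inner_smul_left,
      real_inner_smul_right]
    simp only [real_inner_self_eq_norm_sq, real_inner_comm q j, hj, hqj, mul_zero,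
      sub_zero, zero_sub]
    field_simp
    linarith [sq_nonneg (par ‖q‖ a * fz μ θ)]
  · simp only [nu0, inner_add_right, inner_sub_right, inner_add_left, inner_sub_left,
      real_inner_smul_left, real_inner_smul_right]
    simp only [real_inner_self_eq_norm_sq, real_inner_comm q j,
      real_inner_comm q k, real_inner_comm j k, hj, hk, hqj, hqk, hjk, mul_zero, add_zero,
      zero_add]
    field_simp
    have e := congrArg (fun x => ‖q‖ ^ 2 * (par ‖q‖ a * fz μ θ) ^ 2 * x) hs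
    linarith [e, mul_nonneg (sq_nonneg ‖q‖) (sq_nonneg (par ‖q‖ a * fz μ θ))]

end Vector

end

end Vale.Agent.P205.HybridLoop
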