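import Mathlib
import Vale.Agent.P205.Full.HybridLoop
import Vale.Agent.P205.Full.HybridFrame
import Vale.Agent.P205.Full.WKB.HybridSeries

/-!
# P205: the data of a hybrid step from the loop

For a smooth periodic map with a frame on the support of the cutoff, the hybrid loop times the
cutoff gives the data `WKB.Hybrid`; the kernel direction is the first coordinate.
-/

namespace Vale.Agent.P205.HybridData

open scoped ContDiff RealInnerProductSpace Topology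
open Correction Profile
open Vale.Agent.P205.Algebra

noncomputable section

/-- The input of a hybrid step. -/
structure Input where
  /-- the map -/
  f : R2 → V4
  /-- the amplitude -/
  a : R2 → ℝ
  /-- the coefficient of `dy²` in the rank one field -/
  B : R2 → ℝ
  /-- the cutoff -/
  η : R2 → ℝ
  /-- the support set -/
  K : Set R2
  f_smooth : Smooth2 f
  a_smooth : Smooth2 a
  B_smooth : Smooth2 B
  η_smooth : Smooth2 η
  K_closed : IsClosed K
  η_le : ∀ p, η p ≤ 1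
  η_one : ∀ p ∈ K, η p = 1
  a_zero : ∀ p ∉ K, a p = 0
  B_nonneg : ∀ p, 0 ≤ B p
  B_pos : ∀ p, η p = 1 → 0 < B p
  dy_ne : ∀ p ∈ tsupport η, dy f p ≠ 0
  indep : ∀ p ∈ tsupport η, ∀ t : ℝ, dx f p ≠ t • dy f p
  accel : ∀ p ∈ tsupport η, ∀ s t : ℝ, dx (dx f) p ≠ s • dx f p + t • dy f p

namespace Input

variable (I : Input)

/-- The part of `f_x` orthogonal to `f_y`. -/
def q (p : R2) : V4 := HybridFrame.qv (dx I.f p) (dy I.f p)
/-- The side vector. -/
def j (p : R2) : V4 := HybridFrame.jv (dx I.f p) (dy I.f p) (dx (dx I.f) p)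
/-- The vector along the normal acceleration. -/
def k (p : R2) : V4 := HybridFrame.kv (dx I.f p) (dy I.f p) (dx (dx I.f) p)
/-- The loop divided by the amplitude, cut off. -/
def u (z : R2 × ℝ) : V4 :=
  I.η z.1 • HybridLoop.gen (1 / 2) (I.q z.1) (I.j z.1) (I.k z.1) (I.a z.1) z.2
/-- The normal vector with `⟪f_xx, N⟫ = 1`, cut off. -/
def N (p : R2) : V4 :=
  (I.η p / (‖I.q p‖ * ‖HybridFrame.acc (dx I.f p) (dy I.f p) (dx (dx I.f) p)‖)) • I.k p

lemma mu_sq : (1 / 2 : ℝ) ^ 2 < 2 := by norm_num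

lemma q_ne {p : R2} (hp : p ∈ tsupport I.η) : I.q p ≠ 0 :=
  HybridFrame.qv_ne_zero (I.indep p hp)

lemma acc_ne {p : R2} (hp : p ∈ tsupport I.η) :
    HybridFrame.acc (dx I.f p) (dy I.f p) (dx (dx I.f) p) ≠ 0 :=
  HybridFrame.acc_ne_zero (I.accel p hp)

lemma mem_supp {p : R2} (hp : I.η p = 1) : p ∈ tsupport I.η :=
  subset_tsupport _ (by simp [hp])

/-- Orthogonality and lengths of the frame. -/
lemma frame {p : R2} (hp : p ∈ tsupport I.η) :
    ‖I.j p‖ = ‖I.q p‖ ∧ ‖I.k p‖ = ‖I.q p‖ ∧ ⟪I.q p, I.j p⟫ = 0 ∧ ⟪I.q p, I.k p⟫ = 0 ∧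
      ⟪I.j p, I.k p⟫ = 0 ∧ ⟪dy I.f p, I.q p⟫ = 0 ∧ ⟪dy I.f p, I.j p⟫ = 0 ∧
      ⟪dy I.f p, I.k p⟫ = 0 :=
  HybridFrame.frame (I.dy_ne p hp) (I.q_ne hp) (I.acc_ne hp)

lemma dx_eq (p : R2) :
    dx I.f p = I.q p + (⟪dx I.f p, dy I.f p⟫ / ⟪dy I.f p, dy I.f p⟫) • dy I.f p := by
  rw [q, HybridFrame.qv, sub_add_cancel]

lemma smooth_fx : ContDiff ℝ ∞ (dx I.f) ∧ ContDiff ℝ ∞ (dy I.f) ∧ ContDiff ℝ ∞ (dx (dx I.f)) :=
  ⟨(WKB.smooth2_dx I.f_smooth).1, (WKB.smooth2_dy I.f_smooth).1,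
    (WKB.smooth2_dx (WKB.smooth2_dx I.f_smooth)).1⟩

lemma contDiffAt_frame {p : R2} (hp : p ∈ tsupport I.η) :
    ContDiffAt ℝ ∞ I.q p ∧ ContDiffAt ℝ ∞ I.j p ∧ ContDiffAt ℝ ∞ I.k p := by
  obtain ⟨hX, hY, hZ⟩ := I.smooth_fx
  exact ⟨HybridFrame.contDiffAt_qv hX.contDiffAt hY.contDiffAt (I.dy_ne p hp),
    HybridFrame.contDiffAt_jv hX.contDiffAt hY.contDiffAt hZ.contDiffAt (I.dy_ne p hp)
      (I.q_ne hp) (I.acc_ne hp),
    HybridFrame.contDiffAt_kv hX.contDiffAt hY.contDiffAt hZ.contDiffAt (I.dy_ne p hp)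
      (I.q_ne hp) (I.acc_ne hp)⟩

lemma eventually_zero {p : R2} (hp : p ∉ tsupport I.η) : ∀ᶠ x in 𝓝 p, I.η x = 0 :=
  Filter.eventuallyEq_iff_exists_mem.2
    ⟨(tsupport I.η)ᶜ, (isClosed_tsupport _).isOpen_compl.mem_nhds hp,
      fun _ hx => image_eq_zero_of_notMem_tsupport hx⟩

lemma contDiff_u : ContDiff ℝ ∞ I.u := by
  refine contDiff_iff_contDiffAt.2 fun z => ?_
  by_cases hz : z.1 ∈ tsupport I.η
  · obtain ⟨hq, hj, hk⟩ := I.contDiffAt_frame hz
    exact (I.η_smooth.1.contDiffAt.comp z contDiffAt_fst).smul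
      (HybridLoop.contDiffAt_gen mu_sq (hq.comp z contDiffAt_fst) (hj.comp z contDiffAt_fst)
        (hk.comp z contDiffAt_fst) (I.a_smooth.1.contDiffAt.comp z contDiffAt_fst) contDiffAt_snd
        (I.q_ne hz))
  · refine (contDiffAt_const (c := (0 : V4))).congr_of_eventuallyEq ?_
    filter_upwards [continuous_fst.continuousAt.eventually (I.eventually_zero hz)] with w hw
    rw [u, hw, zero_smul]

lemma isProfile_u : IsProfile I.u := by
  have hX := WKB.smooth2_dx I.f_smooth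
  have hY := WKB.smooth2_dy I.f_smooth
  have hZ := WKB.smooth2_dx (WKB.smooth2_dx I.f_smooth)
  refine ⟨I.contDiff_u, fun z => ⟨?_, ?_, ?_⟩⟩
  · simp only [u, q, j, k, Prod.fst_add, Prod.snd_add, add_zero, I.η_smooth.2.1,
      I.a_smooth.2.1, hX.2.1, hY.2.1, hZ.2.1]
  · simp only [u, q, j, k, Prod.fst_add, Prod.snd_add, add_zero, I.η_smooth.2.2,
      I.a_smooth.2.2, hX.2.2, hY.2.2, hZ.2.2]
  · simp only [u, Prod.fst_add, Prod.snd_add, show z.1 + (0, 0) = z.1 from add_zero _,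
      HybridLoop.gen_one]

lemma mean_u (p : R2) : mean I.u p = 0 := by
  simp only [mean, u]
  rcases eq_or_ne (I.η p) 0 with h | h
  · simp [h]
  · rw [intervalIntegral.integral_smul,
      HybridLoop.mean_gen mu_sq (I.q_ne (subset_tsupport _ h)), smul_zero]

lemma circle {p : R2} (hp : I.η p = 1) (θ : ℝ) :
    ⟪dx I.f p + I.a p • I.u (p, θ), dx I.f p + I.a p • I.u (p, θ)⟫ =
      ⟪dx I.f p, dx I.f p⟫ + I.a p ^ 2 := by
  obtain ⟨hj, hk, hqj, hqk, hjk, hYq, hYj, hYk⟩ := I.frame (I.mem_supp hp)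
  have hn := HybridLoop.norm_sq_add (μ := 1 / 2) mu_sq (I.q_ne (I.mem_supp hp)) hj hk hqj hqk hjk
    (I.a p) θ
  obtain ⟨G, hG⟩ : ∃ G, G = HybridLoop.gen (1 / 2) (I.q p) (I.j p) (I.k p) (I.a p) θ := ⟨_, rfl⟩
  have hYG : ⟪dy I.f p, G⟫ = 0 := hG ▸ HybridLoop.inner_gen hYq hYj hYk _ _
  obtain ⟨c, hc⟩ : ∃ c, c = ⟪dx I.f p, dy I.f p⟫ / ⟪dy I.f p, dy I.f p⟫ := ⟨_, rfl⟩
  have hX : dx I.f p = I.q p + c • dy I.f p := hc ▸ I.dx_eq p
  rw [← hG, ← real_inner_self_eq_norm_sq, ← real_inner_self_eq_norm_sq] at hn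
  simp only [u, hp, one_smul, ← hG, hX]
  simp only [inner_add_left, inner_add_right, real_inner_smul_left, real_inner_smul_right,
    real_inner_comm (dy I.f p) (I.q p), real_inner_comm (dy I.f p) G, hYq, hYG, mul_zero,
    add_zero] at hn ⊢
  linarith

lemma T_u {p : R2} (hp : I.η p = 1) (θ : ℝ) : ⟪dy I.f p, I.u (p, θ)⟫ = 0 := by
  obtain ⟨-, -, -, -, -, hYq, hYj, hYk⟩ := I.frame (I.mem_supp hp)
  rw [u, real_inner_smul_right, HybridLoop.inner_gen hYq hYj hYk, mul_zero]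

lemma nondeg {p : R2} (hp : I.η p = 1) : ∃ θ, ∀ r : ℝ, I.u (p, θ) ≠ r • dx I.f p := by
  obtain ⟨hj, hk, hqj, hqk, hjk, hYq, hYj, hYk⟩ := I.frame (I.mem_supp hp)
  have hn := norm_pos_iff.2 (I.q_ne (I.mem_supp hp))
  refine ⟨1 / 4, fun r h => ?_⟩
  obtain ⟨c, hc⟩ : ∃ c, c = ⟪dx I.f p, dy I.f p⟫ / ⟪dy I.f p, dy I.f p⟫ := ⟨_, rfl⟩
  have hX : dx I.f p = I.q p + c • dy I.f p := hc ▸ I.dx_eq p
  have e1 : ⟪I.j p, I.q p⟫ = 0 := by rw [real_inner_comm, hqj]
  have e2 : ⟪I.j p, dy I.f p⟫ = 0 := by rw [real_inner_comm, hYj]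
  rw [hX] at h
  have h2 := congrArg (fun v => ⟪I.j p, v⟫) h
  simp only [u, hp, one_smul, HybridLoop.gen, inner_add_right, real_inner_smul_right, e1, e2, hjk,
    real_inner_self_eq_norm_sq, hj, mul_zero, add_zero, zero_add] at h2
  refine mul_ne_zero ?_ (pow_ne_zero 2 hn.ne') h2
  have e : 2 * Real.pi * (1 / 4) = Real.pi / 2 := by ring
  have hpos := HybridLoop.radicand_pos mu_sq (HybridLoop.par_sq_lt hn (I.a p)) (1 / 4)
  have hr := Loop.rad_pos hn (I.a p)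
  have hs := Real.sqrt_pos.2 (Loop.swing_pos hn (I.a p))
  simp only [HybridLoop.hB, HybridLoop.fy, Loop.wave, e, Real.sin_pi_div_two, one_mul]
  have := Real.sqrt_pos.2 hpos
  positivity

lemma smooth2_N : Smooth2 I.N := by
  have hX := WKB.smooth2_dx I.f_smooth
  have hY := WKB.smooth2_dy I.f_smooth
  have hZ := WKB.smooth2_dx (WKB.smooth2_dx I.f_smooth)
  refine ⟨contDiff_iff_contDiffAt.2 fun p => ?_, fun p => ?_, fun p => ?_⟩
  · by_cases hp : p ∈ tsupport I.η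
    · obtain ⟨hq, -, hk⟩ := I.contDiffAt_frame hp
      obtain ⟨cX, cY, cZ⟩ := I.smooth_fx
      exact ((I.η_smooth.1.contDiffAt).div ((hq.norm ℝ (I.q_ne hp)).mul
        ((HybridFrame.contDiffAt_acc cX.contDiffAt cY.contDiffAt cZ.contDiffAt (I.dy_ne p hp)
          (I.q_ne hp)).norm ℝ (I.acc_ne hp)))
        (mul_ne_zero (norm_ne_zero_iff.2 (I.q_ne hp)) (norm_ne_zero_iff.2 (I.acc_ne hp)))).smul hk
    · refine (contDiffAt_const (c := (0 : V4))).congr_of_eventuallyEq ?_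
      filter_upwards [I.eventually_zero hp] with w hw
      rw [N, hw, zero_div, zero_smul]
  · simp only [N, q, k, I.η_smooth.2.1, hX.2.1, hY.2.1, hZ.2.1]
  · simp only [N, q, k, I.η_smooth.2.2, hX.2.2, hY.2.2, hZ.2.2]

lemma N_fx {p : R2} (hp : I.η p = 1) : ⟪dx I.f p, I.N p⟫ = 0 := by
  obtain ⟨-, -, -, hqk, -, -, -, hYk⟩ := I.frame (I.mem_supp hp)
  rw [N, real_inner_smul_right, I.dx_eq p, inner_add_left, real_inner_smul_left, hqk, hYk]
  simp

lemma N_fxx {p : R2} (hp : I.η p = 1) : ⟪dx (dx I.f) p, I.N p⟫ = 1 := by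
  have hs := I.mem_supp hp
  have h1 := (HybridFrame.slow_zero (I.dy_ne p hs) (I.q_ne hs) (I.acc_ne hs)).2
  rw [N, hp, real_inner_smul_right, real_inner_comm, k, h1, one_div]
  exact inv_mul_cancel₀
    (mul_ne_zero (norm_ne_zero_iff.2 (I.q_ne hs)) (norm_ne_zero_iff.2 (I.acc_ne hs)))

/-- The data of the hybrid recursion. -/
def hybrid : WKB.Hybrid where
  f := I.f
  a := I.a
  B := I.B
  η := I.η
  u := I.u
  N := I.N
  K := I.K
  f_smooth := I.f_smooth
  a_smooth := I.a_smooth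
  B_smooth := I.B_smooth
  η_smooth := I.η_smooth
  N_smooth := I.smooth2_N
  u_prof := I.isProfile_u
  K_closed := I.K_closed
  η_le := I.η_le
  η_one := I.η_one
  a_zero := I.a_zero
  B_nonneg := I.B_nonneg
  B_pos := I.B_pos
  u_mean := I.mean_u
  T_u := fun p hp => I.T_u (I.η_one p hp)
  circle := fun p hp => I.circle (I.η_one p hp)
  fx_ne := fun p hp h => I.indep p (I.mem_supp hp) 0 (h.trans (zero_smul ℝ _).symm)
  nondeg := fun p hp => I.nondeg hp
  N_fx := fun p hp => I.N_fx (I.η_one p hp)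
  N_fxx := fun p hp => I.N_fxx (I.η_one p hp)

end Input

/-! ### The slow part where the amplitude vanishes -/

section Slow

open WKB

variable (H : WKB.Hybrid)

/-- A nonnegative amplitude is stationary where it vanishes. -/
lemma fderiv_amp {p : R2} (h0 : ∀ x, 0 ≤ H.a x) (hp : H.a p = 0) : fderiv ℝ H.a p = 0 :=
  IsLocalMin.fderiv_eq_zero (Filter.Eventually.of_forall fun x => hp ▸ h0 x)

lemma fderiv_amp_smul {G : R3 → V4} (hG : ContDiff ℝ ∞ G) {p : R2} (h0 : ∀ x, 0 ≤ H.a x)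
    (hp : H.a p = 0) (θ : ℝ) (v : R3) :
    fderiv ℝ (fun q : R3 => H.a q.1 • G q) (p, θ) v = 0 := by
  have ha : HasFDerivAt (fun q : R3 => H.a q.1) (0 : R3 →L[ℝ] ℝ) (p, θ) := by
    have h := ((H.a_smooth.1.differentiable (by simp)) p).hasFDerivAt
    rw [fderiv_amp H h0 hp] at h
    have h1 : HasFDerivAt (fun q : R3 => q.1) (ContinuousLinearMap.fst ℝ R2 ℝ) (p, θ) :=
      hasFDerivAt_fst
    have h2 : HasFDerivAt (fun q : R3 => H.a q.1)
        ((0 : R2 →L[ℝ] ℝ).comp (ContinuousLinearMap.fst ℝ R2 ℝ)) (p, θ) :=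
      HasFDerivAt.comp (g := H.a) (f := fun q : R3 => q.1) ((p, θ) : R3) h h1
    simpa using h2
  have h := ha.smul ((hG.differentiable (by simp)) (p, θ)).hasFDerivAt
  rw [show (fun q : R3 => H.a q.1 • G q) = (fun q : R3 => H.a q.1) • G from rfl, h.fderiv, hp]
  simp

lemma prim_amp_smul (q : R3) :
    prim (fun q : R3 => H.a q.1 • H.u q) q = H.a q.1 • prim H.u q := by
  simp only [prim, prim0, mean, intervalIntegral.integral_smul, smul_sub]

/-- Where the amplitude vanishes, the slow part of the second derivative is `f_xx`. -/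
theorem slow_eq {p : R2} (h0 : ∀ x, 0 ≤ H.a x) (hp : H.a p = 0) (θ : ℝ) :
    px H.X0 (p, θ) + dPhase (Xco H.term 1) (p, θ) = dx (dx H.f) p := by
  have hG : ContDiff ℝ ∞ (prim H.u) := (isProfile_prim H.u_prof H.u_mean).1
  have eW : (H.term 1).w = fun q => H.a q.1 • H.u q := H.W_one
  have eU : H.U 1 = H.nextU H.term 1 := H.U_succ 0
  have hy : Smooth2 fun x => H.ymean H.term 1 x • H.N x :=
    smooth2_smul (Hybrid.smooth2_ymean (H.known 1)) H.N_smooth
  have ePrim : ∀ t, px (prim (H.term 1).w) (p, t) = 0 := fun t => by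
    rw [eW, funext (prim_amp_smul H)]
    exact fderiv_amp_smul H hG h0 hp t _
  have ey : H.ymean H.term 1 p = 0 := by
    simp [Hybrid.ymean, mean, ip, Hybrid.src, Qsum, ePrim]
  have eσ : ∀ t, H.sigma H.term 1 (p, t) = 0 := fun t => by
    by_cases hK : p ∈ H.K
    swap
    · exact Hybrid.sigma_zero (H.known 1) (H.U_succ 0) hK t
    have e1 : px (H.term 1).u (p, t) = H.ymean H.term 1 p • dx H.N p +
        dx (H.ymean H.term 1) p • H.N p := by
      show px (H.U 1) (p, t) = _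
      rw [eU, show H.nextU H.term 1 = fun q => prim (H.term 1).w q +
          lift (fun x => H.ymean H.term 1 x • H.N x) q from rfl, px,
        pd_add ((H.known 1).prim_prof).1 (isProfile_lift hy).1, ← px, ePrim, zero_add,
        pd_lift (hy.1.differentiable (by simp))]
      show fderiv ℝ (fun x => H.ymean H.term 1 x • H.N x) p (1, 0) = _
      rw [fderiv_fun_smul ((Hybrid.smooth2_ymean (H.known 1)).1.differentiable (by simp) p)
        (H.N_smooth.1.differentiable (by simp) p)]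
      rfl
    have eX : H.X0 (p, t) = dx H.f p := by simp [Hybrid.X0, hp]
    simp [Hybrid.sigma, Hybrid.src, Qsum, ip, e1, eX, ey, real_inner_smul_right, H.N_fx p hK]
  have e2 : dPhase (H.W 2) (p, θ) = 0 := by
    have hz : (fun t => H.W 2 (p, t)) = fun _ => 0 := funext fun t => by
      rw [H.W_succ le_rfl]; exact H.sol_zero eσ t
    have h := ((((H.W_prof 2).1.differentiable (by simp)) (p, θ)).hasFDerivAt).comp_hasDerivAt θ
      ((hasDerivAt_const θ p).prodMk (hasDerivAt_id θ))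
    have h' : HasDerivAt (fun t => H.W 2 (p, t)) 0 θ := by rw [hz]; exact hasDerivAt_const θ 0
    exact h.unique h'
  have e3 : dPhase (px (H.U 1)) (p, θ) = 0 := by
    rw [px, dPhase_pd (H.U_prof 1).1, H.dPhase_U 1, H.W_one]
    exact fderiv_amp_smul H H.u_prof.1 h0 hp θ _
  have e4 : dPhase (Xco H.term 1) (p, θ) = 0 := by
    rw [show Xco H.term 1 = fun q => H.W 2 q + px (H.U 1) q from rfl,
      dPhase_add (H.W_prof 2).1 (show ContDiff ℝ ∞ (px (H.U 1)) from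
        (isProfile_pd (H.U_prof 1) _).1)]
    show dPhase (H.W 2) (p, θ) + dPhase (px (H.U 1)) (p, θ) = 0
    rw [e2, e3, add_zero]
  rw [e4, add_zero, show H.X0 = fun q => lift (dx H.f) q + H.a q.1 • H.u q from rfl, px,
    pd_add (Q := fun q : R3 => H.a q.1 • H.u q) (isProfile_lift (smooth2_dx H.f_smooth)).1
      (isProfile_bilin (isProfile_lift H.a_smooth) H.u_prof (ContinuousLinearMap.lsmul ℝ ℝ)).1,
    pd_lift ((smooth2_dx H.f_smooth).1.differentiable (by simp)),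
    show pd (1, 0) (fun q : R3 => H.a q.1 • H.u q) (p, θ) = 0 from
      fderiv_amp_smul H H.u_prof.1 h0 hp θ _, add_zero]
  rfl

/-- The slow part has no side part and positive vertical part where the amplitude vanishes. -/
theorem Input.slow_frame (I : Input) (h0 : ∀ x, 0 ≤ I.a x) {p : R2} (hη : I.η p = 1)
    (hp : I.a p = 0) (θ : ℝ) :
    ⟪I.j p, px I.hybrid.X0 (p, θ) + dPhase (Xco I.hybrid.term 1) (p, θ)⟫ = 0 ∧
      ⟪I.k p, px I.hybrid.X0 (p, θ) + dPhase (Xco I.hybrid.term 1) (p, θ)⟫ =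
        ‖I.q p‖ * ‖HybridFrame.acc (dx I.f p) (dy I.f p) (dx (dx I.f) p)‖ ∧
      0 < ‖I.q p‖ * ‖HybridFrame.acc (dx I.f p) (dy I.f p) (dx (dx I.f) p)‖ := by
  have hs := I.mem_supp hη
  rw [slow_eq I.hybrid h0 hp θ]
  obtain ⟨h1, h2⟩ := HybridFrame.slow_zero (I.dy_ne p hs) (I.q_ne hs) (I.acc_ne hs)
  exact ⟨h1, h2, mul_pos (norm_pos_iff.2 (I.q_ne hs)) (norm_pos_iff.2 (I.acc_ne hs))⟩

end Slow

end

end Vale.Agent.P205.HybridData
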