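import Vale.Agent.P205.Full.WKB.HybridSeries
import Vale.Agent.P205.Full.Algebra.Scalar

/-!
# P205: the diagonal hybrid approximants

`H.diag n` is the truncated series of order `ordN n` at frequency `n`, the order growing so slowly
with `n` that its derivatives of every order `i` are `O (n ^ i)`.  The scalar equation holds up to
every power of `1 / n`, and the first two derivatives are known up to `o (1)` (the second one along
the phase up to `n • dPhase X0 + slow + o (1)`).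
-/

namespace Vale.Agent.P205.WKB.Hybrid

open scoped ContDiff RealInnerProductSpace Topology
open Correction Profile
open Vale.Agent.P205.Algebra

noncomputable section

variable (H : Hybrid)

/-- The part of `dx (dx F)` of order zero. -/
def slow (q : R3) : V4 := px H.X0 q + dPhase (Xco H.term 1) q

/-- The target of the scalar equation. -/
def target (p : R2) : Fin 3 → ℝ :=
  ![⟪dx H.f p, dx H.f p⟫ + H.a p * H.a p, ⟪dx H.f p, dy H.f p⟫, ⟪dy H.f p, dy H.f p⟫ + H.B p]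

lemma smooth2_target : Smooth2 H.target := by
  have hs : ∀ k, Smooth2 fun p => H.target p k := fun k => by
    fin_cases k
    · exact H.smooth2_rad
    · exact smooth2_inner (smooth2_dx H.f_smooth) (smooth2_dy H.f_smooth)
    · exact (smooth2_inner (smooth2_dy H.f_smooth) (smooth2_dy H.f_smooth)).add H.B_smooth
  exact ⟨contDiff_pi.2 fun k => (hs k).1, fun p => funext fun k => (hs k).2.1 p,
    fun p => funext fun k => (hs k).2.2 p⟩

lemma rdet_approx (M : ℕ) (lam : ℝ) (p : R2) :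
    rdet (H.target p - metF (H.approx M lam) p) =
      -(H.exx M lam p * (H.B p - H.eyy M lam p) + H.exy M lam p * H.exy M lam p) := by
  simp [rdet, target, metF, g11, g12, g22, exx, exy, eyy]
  ring

/-- Sums of profiles against powers of `lam⁻¹` are bounded. -/
lemma exists_sum_bound (s : Finset ℕ) {P : ℕ → R3 → V4} (hP : ∀ k ∈ s, IsProfile (P k)) :
    ∃ C, 0 ≤ C ∧ ∀ lam : ℝ, 1 ≤ lam → ∀ p : R2,
      ‖∑ k ∈ s, (lam⁻¹) ^ (k + 1) • P k (p, lam * p.1)‖ ≤ C * lam⁻¹ := by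
  obtain ⟨C, hC0, hC⟩ := sum_bound (m := fun _ : Unit => (1 : ℝ)) (fun _ => le_rfl)
    s (d := fun k => k + 1) (K := 1) (fun k _ => Nat.le_add_left _ _)
    (G := fun k _ => P k) (fun k hk => Fam.fixed (fun _ => le_rfl) (hP k hk)) 0
  exact ⟨C, hC0, fun lam hlam p => by simpa using hC () lam hlam p⟩

lemma isProfile_dPhase {P : R3 → V4} (hP : IsProfile P) : IsProfile (dPhase P) :=
  isProfile_comp (isProfile_fderiv hP) (ContinuousLinearMap.apply ℝ V4 ((0, 1) : R3)).contDiff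

lemma isProfile_slow : IsProfile H.slow :=
  isProfile_add (isProfile_pd H.isProfile_X0 _) (isProfile_dPhase (isProfile_add (H.W_prof 2)
    (isProfile_pd (H.U_prof 1) _)))

lemma dPhase_Tt_zero : dPhase (Tco H.term 0) = fun _ => 0 := by
  rw [Tt_zero]
  exact dPhase_fst ((smooth2_dy H.f_smooth).1.differentiable (by simp))

lemma d_dy_approx (M : ℕ) (lam : ℝ) (p e : R2) :
    fderiv ℝ (dy (H.approx M lam)) p e = ∑ k ∈ Finset.range (M + 2), (lam⁻¹) ^ k •
      (pd e (Tco H.term k) (p, lam * p.1) + (lam * e.1) • dPhase (Tco H.term k) (p, lam * p.1)) := by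
  have hd : ∀ k, DifferentiableAt ℝ (fun p : R2 => Tco H.term k (p, lam * p.1)) p := fun k =>
    (((H.Tt_prof k).1.comp (contDiff_id.prodMk (contDiff_const.mul contDiff_fst))).differentiable
      (by simp)).differentiableAt
  rw [funext (H.dy_approx M lam), fderiv_fun_sum fun k _ => (hd k).fun_const_smul _,
    _root_.sum_apply]
  refine Finset.sum_congr rfl fun k _ => ?_
  rw [fderiv_fun_const_smul (hd k), _root_.smul_apply, fderiv_phase (H.Tt_prof k).1]

/-- Everything the diagonal needs of one order, with one constant. -/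
theorem exists_order_bound (M : ℕ) : ∃ C : ℝ, 1 ≤ C ∧ ∀ lam : ℝ, 1 ≤ lam → ∀ p,
    ((∀ i ≤ M, ‖iteratedFDeriv ℝ i (fun p => H.approx M lam p - H.f p) p‖ ≤ C * lam ^ i * lam⁻¹) ∧
    (∀ i ≤ M, ‖iteratedFDeriv ℝ i (fun p =>
      H.exx M lam p * (H.B p - H.eyy M lam p) + H.exy M lam p * H.exy M lam p) p‖
        ≤ C * lam ^ i * (lam⁻¹) ^ (M + 1))) ∧
    ((|H.exx M lam p| ≤ C * lam⁻¹ ∧ |H.exy M lam p| ≤ C * lam⁻¹ ∧ |H.eyy M lam p| ≤ C * lam⁻¹) ∧
    ‖dx (H.approx M lam) p - H.X0 (p, lam * p.1)‖ ≤ C * lam⁻¹ ∧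
    ‖dy (H.approx M lam) p - dy H.f p‖ ≤ C * lam⁻¹ ∧
    ‖F22 (H.approx M lam) p - F22 H.f p‖ ≤ C * lam⁻¹ ∧
    (1 ≤ M → ‖F11 (H.approx M lam) p - (lam • dPhase H.X0 (p, lam * p.1) + H.slow (p, lam * p.1))‖
        ≤ C * lam⁻¹ ∧
      ‖dx (dy (H.approx M lam)) p - (dx (dy H.f) p + dPhase (Tco H.term 1) (p, lam * p.1))‖
        ≤ C * lam⁻¹)) := by
  choose A hA0 hA using fun i => H.approx_bound M i
  choose D hD0 hD using fun i => H.det_bound M i
  obtain ⟨E, hE0, hE⟩ := H.err_bound M 0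
  have px' := fun {P : R3 → V4} (h : IsProfile P) => isProfile_pd h ((1, 0) : R2)
  have py' := fun {P : R3 → V4} (h : IsProfile P) => isProfile_pd h ((0, 1) : R2)
  obtain ⟨c1, hc1, b1⟩ := exists_sum_bound (Finset.range (M + 1))
    (P := fun k => H.Xt M (k + 1)) fun k _ => H.Xt_prof M (k + 1)
  obtain ⟨c2, hc2, b2⟩ := exists_sum_bound (Finset.range (M + 1))
    (P := fun k => Tco H.term (k + 1)) fun k _ => H.Tt_prof (k + 1)
  obtain ⟨c3, hc3, b3⟩ := exists_sum_bound (Finset.range (M + 1))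
    (P := fun k => py (Tco H.term (k + 1))) fun k _ => py' (H.Tt_prof (k + 1))
  obtain ⟨c4, hc4, b4⟩ := exists_sum_bound (Finset.range (M + 1))
    (P := fun k => px (H.Xt M (k + 1))) fun k _ => px' (H.Xt_prof M (k + 1))
  obtain ⟨c5, hc5, b5⟩ := exists_sum_bound (Finset.range M)
    (P := fun k => dPhase (H.Xt M (k + 2))) fun k _ => isProfile_dPhase (H.Xt_prof M (k + 2))
  obtain ⟨c6, hc6, b6⟩ := exists_sum_bound (Finset.range (M + 1))
    (P := fun k => px (Tco H.term (k + 1))) fun k _ => px' (H.Tt_prof (k + 1))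
  obtain ⟨c7, hc7, b7⟩ := exists_sum_bound (Finset.range M)
    (P := fun k => dPhase (Tco H.term (k + 2))) fun k _ => isProfile_dPhase (H.Tt_prof (k + 2))
  obtain ⟨C, hC⟩ : ∃ C, C = 1 + (∑ i ∈ Finset.range (M + 1), (A i + D i)) + E
      + (c1 + c2 + c3 + c4 + c5 + c6 + c7) := ⟨_, rfl⟩
  have hsum : 0 ≤ ∑ i ∈ Finset.range (M + 1), (A i + D i) :=
    Finset.sum_nonneg fun i _ => add_nonneg (hA0 i) (hD0 i)
  refine ⟨C, by linarith, fun lam hlam p => ?_⟩
  have hl : lam ≠ 0 := by linarith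
  have hr : 0 ≤ lam⁻¹ := by positivity
  have hle : ∀ i ≤ M, A i ≤ C ∧ D i ≤ C := fun i hi => by
    have := Finset.single_le_sum (f := fun i => A i + D i) (fun i _ => add_nonneg (hA0 i) (hD0 i))
      (Finset.mem_range.2 (show i < M + 1 by omega))
    constructor <;> linarith [hA0 i, hD0 i]
  have le_C : ∀ {x c : ℝ}, x ≤ c * lam⁻¹ → c ≤ C → x ≤ C * lam⁻¹ := fun hx hc =>
    hx.trans (mul_le_mul_of_nonneg_right hc hr)
  refine ⟨⟨fun i hi => (hA i lam hlam p).trans ?_, fun i hi => (hD i lam hlam p).trans ?_⟩, ?_⟩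
  · gcongr; exact (hle i hi).1
  · gcongr; exact (hle i hi).2
  refine ⟨?_, ?_, ?_, ?_, fun hM => ⟨?_, ?_⟩⟩
  · have h := hE lam hlam p
    rw [norm_iteratedFDeriv_zero, pow_zero, mul_one] at h
    simp only [Prod.norm_def, Real.norm_eq_abs, max_le_iff] at h
    exact ⟨le_C h.1 (by linarith), le_C h.2.1 (by linarith), le_C h.2.2 (by linarith)⟩
  · rw [H.dx_approx M hl, Finset.sum_range_succ', pow_zero, one_smul, Xt_zero,
      add_sub_cancel_right]
    exact le_C (b1 lam hlam p) (by linarith)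
  · rw [H.dy_approx M, Finset.sum_range_succ', pow_zero, one_smul, Tt_zero, lift,
      add_sub_cancel_right]
    exact le_C (b2 lam hlam p) (by linarith)
  · show ‖fderiv ℝ (dy (H.approx M lam)) p (0, 1) - _‖ ≤ _
    rw [H.d_dy_approx M lam]
    simp only [mul_zero, zero_smul, add_zero]
    rw [Finset.sum_range_succ', pow_zero, one_smul, Tt_zero,
      pd_lift ((smooth2_dy H.f_smooth).1.differentiable (by simp))]
    refine le_trans (le_of_eq ?_) (le_C (b3 lam hlam p) (by linarith))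
    congr 1
    exact add_sub_cancel_right _ _
  · have e : dx (dx (H.approx M lam)) p
        - (lam • dPhase H.X0 (p, lam * p.1) + H.slow (p, lam * p.1)) =
        (∑ k ∈ Finset.range (M + 1), (lam⁻¹) ^ (k + 1) • px (H.Xt M (k + 1)) (p, lam * p.1)) +
          ∑ k ∈ Finset.range M, (lam⁻¹) ^ (k + 1) • dPhase (H.Xt M (k + 2)) (p, lam * p.1) := by
      rw [H.dx_dx_approx M hl]
      simp only [smul_add, Finset.sum_add_distrib, smul_smul]
      rw [Finset.sum_range_succ' (fun k => (lam⁻¹) ^ k • px (H.Xt M k) (p, lam * p.1)),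
        Finset.sum_range_succ' (fun k => ((lam⁻¹) ^ k * lam) • dPhase (H.Xt M k) (p, lam * p.1)),
        Finset.sum_range_succ' (fun k =>
          ((lam⁻¹) ^ (k + 1) * lam) • dPhase (H.Xt M (k + 1)) (p, lam * p.1))]
      simp only [pow_succ, pow_zero, one_mul, one_smul, mul_assoc, inv_mul_cancel₀ hl, mul_one,
        Xt_zero, show H.Xt M (0 + 1) = Xco H.term 1 by rw [Xt, if_pos (by omega)], slow]
      abel
    show ‖dx (dx (H.approx M lam)) p - _‖ ≤ _
    rw [e]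
    refine (norm_add_le _ _).trans ((add_le_add (b4 lam hlam p) (b5 lam hlam p)).trans ?_)
    rw [← add_mul]
    exact mul_le_mul_of_nonneg_right (by linarith) hr
  · have e : dx (dy (H.approx M lam)) p
        - (dx (dy H.f) p + dPhase (Tco H.term 1) (p, lam * p.1)) =
        (∑ k ∈ Finset.range (M + 1), (lam⁻¹) ^ (k + 1) • px (Tco H.term (k + 1)) (p, lam * p.1)) +
          ∑ k ∈ Finset.range M, (lam⁻¹) ^ (k + 1) • dPhase (Tco H.term (k + 2)) (p, lam * p.1) := by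
      show fderiv ℝ (dy (H.approx M lam)) p (1, 0) - _ = _
      rw [H.d_dy_approx M lam]
      simp only [smul_add, Finset.sum_add_distrib, smul_smul, mul_one]
      rw [Finset.sum_range_succ' (fun k => (lam⁻¹) ^ k • pd (1, 0) (Tco H.term k) (p, lam * p.1)),
        Finset.sum_range_succ' (fun k => ((lam⁻¹) ^ k * lam) • dPhase (Tco H.term k) (p, lam * p.1)),
        Finset.sum_range_succ' (fun k =>
          ((lam⁻¹) ^ (k + 1) * lam) • dPhase (Tco H.term (k + 1)) (p, lam * p.1))]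
      simp only [pow_succ, pow_zero, one_mul, one_smul, mul_assoc, inv_mul_cancel₀ hl, mul_one,
        H.dPhase_Tt_zero, smul_zero, add_zero]
      rw [Tt_zero, pd_lift ((smooth2_dy H.f_smooth).1.differentiable (by simp))]
      simp only [px]
      show _ = _
      rw [show fderiv ℝ (dy H.f) p (1, 0) = dx (dy H.f) p from rfl]
      abel
    rw [e]
    refine (norm_add_le _ _).trans ((add_le_add (b6 lam hlam p) (b7 lam hlam p)).trans ?_)
    rw [← add_mul]
    exact mul_le_mul_of_nonneg_right (by linarith) hr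

/-- The constant of one order. -/
def ordC (M : ℕ) : ℝ := (H.exists_order_bound M).choose

lemma one_le_ordC (M : ℕ) : 1 ≤ H.ordC M := (H.exists_order_bound M).choose_spec.1

open Classical in
/-- The order used at frequency `n`. -/
def ordN (n : ℕ) : ℕ := Nat.findGreatest (fun M => ((M : ℝ) + 1) * H.ordC M ^ 2 ≤ (n : ℝ)) n

/-- The diagonal approximant. -/
def diag (n : ℕ) : R2 → V4 := H.approx (H.ordN n) n

lemma smooth2_diag (n : ℕ) : Smooth2 (H.diag n) := H.smooth2_approx _ n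

lemma diag_off (n : ℕ) {p : R2} (hp : p ∉ H.K) : H.diag n p = H.f p := H.approx_off _ _ hp

/-- The order `M` grows without bound, and the square of its constant is at most `n / (M + 1)`. -/
lemma ordN_large (k : ℕ) : ∃ n₀, 1 ≤ n₀ ∧ ∀ n, n₀ ≤ n → k ≤ H.ordN n ∧
    ((H.ordN n : ℝ) + 1) * H.ordC (H.ordN n) ^ 2 ≤ (n : ℝ) := by
  classical
  obtain ⟨n₁, hn₁⟩ := exists_nat_ge (((k : ℝ) + 1) * H.ordC k ^ 2)
  refine ⟨max (max n₁ k) 1, le_max_right _ _, fun n hn => ?_⟩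
  have hk : k ≤ n := by omega
  have hP : ((k : ℝ) + 1) * H.ordC k ^ 2 ≤ (n : ℝ) :=
    hn₁.trans (by exact_mod_cast (by omega : n₁ ≤ n))
  exact ⟨Nat.le_findGreatest hk hP,
    Nat.findGreatest_spec (P := fun M : ℕ => ((M : ℝ) + 1) * H.ordC M ^ 2 ≤ (n : ℝ)) hk hP⟩

/-- Derivatives of every order are `O (n ^ i)` and the scalar equation holds up to every power. -/
theorem diag_bounds : ∃ K : ℕ → ℝ, ∃ E : ℕ → ℕ → ℝ, ∀ n : ℕ, 1 ≤ n →
    (∀ i, pn i (H.diag n) ≤ K i * (n : ℝ) ^ i) ∧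
    ∀ i N, pn i (fun p => rdet (H.target p - metF (H.diag n) p)) * (n : ℝ) ^ N ≤ E i N := by
  have hdet : ∀ n, (fun p => rdet (H.target p - metF (H.diag n) p)) = fun p =>
      -(H.exx (H.ordN n) n p * (H.B p - H.eyy (H.ordN n) n p)
        + H.exy (H.ordN n) n p * H.exy (H.ordN n) n p) := fun n => funext (H.rdet_approx _ _)
  choose nK hnK1 hnK using H.ordN_large
  have big : ∀ i n, nK i ≤ n → pn i (H.diag n) ≤ (pn i H.f + (i + 1)) * (n : ℝ) ^ i ∧
      ∀ N, i + N ≤ H.ordN n →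
        pn i (fun p => rdet (H.target p - metF (H.diag n) p)) * (n : ℝ) ^ N ≤ i + 1 := by
    intro i n hn
    obtain ⟨hiM, hC⟩ := hnK i n hn
    have hn1 : (1 : ℝ) ≤ n := by exact_mod_cast (hnK1 i).trans hn
    have hb := fun p => ((H.exists_order_bound (H.ordN n)).choose_spec.2 n hn1 p).1
    set M := H.ordN n
    have hC1 := H.one_le_ordC M
    have hCn : H.ordC M * (n : ℝ)⁻¹ ≤ 1 := by
      rw [← div_eq_mul_inv, div_le_one (by linarith)]
      nlinarith [(Nat.cast_nonneg M : (0 : ℝ) ≤ M)]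
    constructor
    · have e : H.diag n = fun p => H.f p + (H.approx M n p - H.f p) :=
        funext fun p => (add_sub_cancel _ _).symm
      rw [e, add_mul]
      refine (pn_add_le H.f_smooth ((H.smooth2_approx M n).sub H.f_smooth) i).trans
        (add_le_add (le_mul_of_one_le_right (pn_nonneg _ _) (one_le_pow₀ hn1)) ?_)
      refine (pn_le_of_supD (C := fun _ => (n : ℝ) ^ i) fun m hm => supD_le fun p => ?_).trans_eq
        (by rw [Finset.sum_const, Finset.card_range, nsmul_eq_mul]; push_cast; ring)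
      refine ((hb p).1 m (by omega)).trans ?_
      calc H.ordC M * (n : ℝ) ^ m * (n : ℝ)⁻¹ = (H.ordC M * (n : ℝ)⁻¹) * (n : ℝ) ^ m := by ring
        _ ≤ 1 * (n : ℝ) ^ i :=
          mul_le_mul hCn (pow_le_pow_right₀ hn1 hm) (by positivity) zero_le_one
        _ = _ := one_mul _
    · intro N hN
      rw [hdet, pn_neg, ← le_div_iff₀ (by positivity)]
      refine (pn_le_of_supD (C := fun _ => ((n : ℝ) ^ N)⁻¹) fun m hm => supD_le fun p => ?_).trans_eq
        (by rw [Finset.sum_const, Finset.card_range, nsmul_eq_mul]; push_cast; ring)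
      refine ((hb p).2 m (by omega)).trans ?_
      rw [inv_pow, pow_succ, mul_inv]
      calc H.ordC M * (n : ℝ) ^ m * (((n : ℝ) ^ M)⁻¹ * (n : ℝ)⁻¹)
          = (H.ordC M * (n : ℝ)⁻¹) * ((n : ℝ) ^ m * ((n : ℝ) ^ M)⁻¹) := by ring
        _ ≤ 1 * ((n : ℝ) ^ N)⁻¹ := by
          refine mul_le_mul hCn ?_ (by positivity) zero_le_one
          rw [← div_eq_mul_inv, div_le_iff₀ (by positivity), inv_mul_eq_div,
            le_div_iff₀ (by positivity), ← pow_add]
          exact pow_le_pow_right₀ hn1 (by omega)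
        _ = _ := one_mul _
  obtain ⟨K, hK⟩ : ∃ K : ℕ → ℝ, ∀ i, K i =
      (pn i H.f + (i + 1)) + ∑ l ∈ Finset.range (nK i), pn i (H.diag l) := ⟨_, fun _ => rfl⟩
  obtain ⟨E, hE⟩ : ∃ E : ℕ → ℕ → ℝ, ∀ i N, E i N = (i + 1) + ∑ l ∈ Finset.range (nK (i + N) + nK i),
      pn i (fun p => rdet (H.target p - metF (H.diag l) p)) * (l : ℝ) ^ N := ⟨_, fun _ _ => rfl⟩
  refine ⟨K, E, fun n hn => ⟨fun i => ?_, fun i N => ?_⟩⟩
  · have h0 : 0 ≤ ∑ l ∈ Finset.range (nK i), pn i (H.diag l) :=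
      Finset.sum_nonneg fun l _ => pn_nonneg _ _
    have hn1 : (1 : ℝ) ≤ (n : ℝ) ^ i := one_le_pow₀ (by exact_mod_cast hn)
    rcases le_or_gt (nK i) n with h | h
    · refine (big i n h).1.trans (mul_le_mul_of_nonneg_right ?_ (by positivity))
      rw [hK]; linarith
    · have hK0 : 0 ≤ K i := by
        rw [hK]
        linarith [pn_nonneg i H.f, (Nat.cast_nonneg i : (0 : ℝ) ≤ i)]
      refine le_trans ?_ (le_mul_of_one_le_right hK0 hn1)
      rw [hK]
      have := Finset.single_le_sum (f := fun l => pn i (H.diag l)) (fun l _ => pn_nonneg _ _)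
        (Finset.mem_range.2 h)
      linarith [pn_nonneg i H.f]
  · have h0 : 0 ≤ ∑ l ∈ Finset.range (nK (i + N) + nK i),
        pn i (fun p => rdet (H.target p - metF (H.diag l) p)) * (l : ℝ) ^ N :=
      Finset.sum_nonneg fun l _ => mul_nonneg (pn_nonneg _ _) (by positivity)
    rw [hE]
    rcases le_or_gt (nK (i + N) + nK i) n with h | h
    · linarith [(big i n (by omega)).2 N (hnK (i + N) n (by omega)).1]
    · linarith [Finset.single_le_sum (f := fun l =>
        pn i (fun p => rdet (H.target p - metF (H.diag l) p)) * (l : ℝ) ^ N)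
        (fun l _ => mul_nonneg (pn_nonneg _ _) (by positivity)) (Finset.mem_range.2 h)]

/-- The derivatives of low order of the diagonal approximants, up to an error `δ` with `n * δ ^ 2`
small. -/
theorem diag_low : ∃ C, ∀ ε > (0 : ℝ), ∃ n₀, 1 ≤ n₀ ∧ ∀ n : ℕ, n₀ ≤ n →
    ∃ δ, 0 ≤ δ ∧ δ ≤ ε ∧ (n : ℝ) * δ ^ 2 ≤ ε ∧ ∀ p,
    ‖dx (H.diag n) p - H.X0 (p, (n : ℝ) * p.1)‖ ≤ δ ∧ ‖dy (H.diag n) p - dy H.f p‖ ≤ δ ∧
    ‖F11 (H.diag n) p - ((n : ℝ) • dPhase H.X0 (p, (n : ℝ) * p.1) + H.slow (p, (n : ℝ) * p.1))‖ ≤ δ ∧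
    ‖F12 (H.diag n) p‖ ≤ C ∧ ‖F22 (H.diag n) p‖ ≤ C := by
  obtain ⟨b, hb0, hb⟩ := (Fam.fixed (m := fun _ : Unit => (1 : ℝ)) (fun _ => le_rfl)
    (isProfile_dPhase (H.Tt_prof 1))).bdd.sup fun _ => le_rfl
  obtain ⟨s, hs⟩ : ∃ s, s = supD 0 (dx (dy H.f)) + supD 0 (F22 H.f) := ⟨_, rfl⟩
  refine ⟨1 + b + s, fun ε hε => ?_⟩
  obtain ⟨ε', hε', h1ε, h2ε⟩ : ∃ ε' > (0 : ℝ), ε' ≤ min ε 1 ∧ ε' ≤ ε * ε :=
    ⟨min (min ε 1) (ε * ε), lt_min (lt_min hε one_pos) (mul_pos hε hε), min_le_left _ _,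
      min_le_right _ _⟩
  obtain ⟨k, hk⟩ := exists_nat_ge ε'⁻¹
  obtain ⟨n₀, hn₀, hord⟩ := H.ordN_large (k + 1)
  refine ⟨n₀, hn₀, fun n hn => ?_⟩
  obtain ⟨hM, hC⟩ := hord n hn
  have hn1 : (1 : ℝ) ≤ n := by exact_mod_cast hn₀.trans hn
  have hC1 := H.one_le_ordC (H.ordN n)
  obtain ⟨δ, hδ⟩ : ∃ δ, δ = H.ordC (H.ordN n) * (n : ℝ)⁻¹ := ⟨_, rfl⟩
  have hδ0 : 0 ≤ δ := by rw [hδ]; positivity
  have hnδ : (n : ℝ) * δ ^ 2 ≤ ε' := by
    have hM' : ε'⁻¹ ≤ (H.ordN n : ℝ) + 1 := by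
      have : ((k + 1 : ℕ) : ℝ) ≤ (H.ordN n : ℝ) := by exact_mod_cast hM
      push_cast at this
      linarith
    have h := (mul_le_mul_of_nonneg_right hM' (sq_nonneg _)).trans hC
    rw [inv_mul_le_iff₀ hε'] at h
    rw [hδ, show (n : ℝ) * (H.ordC (H.ordN n) * (n : ℝ)⁻¹) ^ 2 = H.ordC (H.ordN n) ^ 2 / n by
      field_simp, div_le_iff₀ (by linarith)]
    exact h
  have hδ2 : δ ^ 2 ≤ ε' := (le_mul_of_one_le_left (sq_nonneg δ) hn1).trans hnδ
  have hδε : δ ≤ ε := (pow_le_pow_iff_left₀ hδ0 hε.le two_ne_zero).1 (by nlinarith)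
  have hδ1 : δ ≤ 1 := (pow_le_pow_iff_left₀ hδ0 zero_le_one two_ne_zero).1
    (by rw [one_pow]; exact hδ2.trans (h1ε.trans (min_le_right _ _)))
  refine ⟨δ, hδ0, hδε, hnδ.trans (h1ε.trans (min_le_left _ _)), fun p => ?_⟩
  obtain ⟨-, -, e4, e5, e6, e7⟩ := (H.exists_order_bound (H.ordN n)).choose_spec.2 n hn1 p
  obtain ⟨e8, e9⟩ := e7 (by omega)
  have h1 : ∀ {x : ℝ}, x ≤ H.ordC (H.ordN n) * (n : ℝ)⁻¹ → x ≤ δ := fun hx => hδ ▸ hx
  refine ⟨h1 e4, h1 e5, h1 e8, ?_, ?_⟩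
  · show ‖dy (dx (H.diag n)) p‖ ≤ _
    rw [← d_comm (H.smooth2_diag n)]
    have h := norm_le_norm_add_norm_sub' (dx (dy (H.diag n)) p)
      (dx (dy H.f) p + dPhase (Tco H.term 1) (p, (n : ℝ) * p.1))
    have h2 := norm_add_le (dx (dy H.f) p) (dPhase (Tco H.term 1) (p, (n : ℝ) * p.1))
    have h3 : ‖dx (dy H.f) p‖ ≤ supD 0 (dx (dy H.f)) := by
      simpa using le_supD (smooth2_dx (smooth2_dy H.f_smooth)) 0 p
    have h9 : ‖dx (dy (H.diag n)) p
        - (dx (dy H.f) p + dPhase (Tco H.term 1) (p, (n : ℝ) * p.1))‖ ≤ 1 := (h1 e9).trans hδ1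
    rw [hs]
    linarith [hb () (p, (n : ℝ) * p.1), supD_nonneg 0 (F22 H.f)]
  · have h := norm_le_norm_add_norm_sub' (F22 (H.diag n) p) (F22 H.f p)
    have h3 : ‖F22 H.f p‖ ≤ supD 0 (F22 H.f) := by
      show ‖dy (dy H.f) p‖ ≤ supD 0 (dy (dy H.f))
      simpa using le_supD (smooth2_dy (smooth2_dy H.f_smooth)) 0 p
    have h4 : ‖F22 (H.diag n) p - F22 H.f p‖ ≤ 1 := (h1 e6).trans hδ1
    rw [hs]
    linarith [supD_nonneg 0 (dx (dy H.f))]

end

end Vale.Agent.P205.WKB.Hybrid
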