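import Mathlib
import Vale.Agent.P205.Full.HybridData

/-!
# P205: KEY for the hybrid data

For large frequency one of the two test normals sees `L • dPhase X0 + slow` with a fixed margin,
for every phase and every point where the cutoff is one.
-/

namespace Vale.Agent.P205.HybridData

open scoped ContDiff RealInnerProductSpace Topology
open Correction Profile WKB Set
open Vale.Agent.P205.Algebra

noncomputable section

namespace Input

variable (I : Input)

/-- The first test normal. -/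
def test1 (z : R3) : V4 := HybridLoop.nu1 (1 / 2) (I.q z.1) (I.j z.1) (I.a z.1) z.2

/-- The second test normal. -/
def test0 (z : R3) : V4 := HybridLoop.nu0 (1 / 2) (I.q z.1) (I.j z.1) (I.k z.1) (I.a z.1) z.2

/-- The slow part of the second derivative in `x`. -/
def slow (z : R3) : V4 := px I.hybrid.X0 z + dPhase (Xco I.hybrid.term 1) z

/-- The test normals have length at most one and are normal to `f_y` and to `X0`. -/
theorem test_spec {p : R2} (hη : I.η p = 1) (θ : ℝ) :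
    ‖I.test1 (p, θ)‖ ≤ 1 ∧ ‖I.test0 (p, θ)‖ ≤ 1 ∧ ⟪I.test1 (p, θ), dy I.f p⟫ = 0 ∧
      ⟪I.test0 (p, θ), dy I.f p⟫ = 0 ∧ ⟪I.test1 (p, θ), I.hybrid.X0 (p, θ)⟫ = 0 ∧
      ⟪I.test0 (p, θ), I.hybrid.X0 (p, θ)⟫ = 0 := by
  have hs := I.mem_supp hη
  obtain ⟨hj, hk, hqj, hqk, hjk, hYq, hYj, hYk⟩ := I.frame hs
  obtain ⟨n1, n0⟩ := HybridLoop.norm_nu_le (μ := 1 / 2) mu_sq (I.q_ne hs) hj hk hqj hqk hjk
    (I.a p) θ
  obtain ⟨o1, o0, x1, x0⟩ := HybridLoop.nu_orth (μ := 1 / 2) mu_sq (I.q_ne hs) hj hk hqj hqk hjk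
    hYq hYj hYk (I.a p) θ
  have eX : I.hybrid.X0 (p, θ) = (⟪dx I.f p, dy I.f p⟫ / ⟪dy I.f p, dy I.f p⟫) • dy I.f p +
      (I.q p + I.a p • HybridLoop.gen (1 / 2) (I.q p) (I.j p) (I.k p) (I.a p) θ) := by
    show dx I.f p + I.a p • I.u (p, θ) = _
    conv_lhs => rw [I.dx_eq p]
    simp only [u, hη, one_smul]
    abel
  refine ⟨n1, n0, o1, o0, ?_, ?_⟩
  · rw [eX, inner_add_right, real_inner_smul_right]
    simp only [test1]
    rw [o1, x1]; ring
  · rw [eX, inner_add_right, real_inner_smul_right]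
    simp only [test0]
    rw [o0, x0]; ring

lemma dPhase_X0 {p : R2} (hη : I.η p = 1) (θ : ℝ) :
    dPhase I.hybrid.X0 (p, θ) = (Loop.rad ‖I.q p‖ (I.a p) / ‖I.q p‖ *
      HybridLoop.par ‖I.q p‖ (I.a p)) •
        HybridLoop.vel (1 / 2) (I.q p) (I.j p) (I.k p) (I.a p) θ := by
  have h1 : HasDerivAt (fun t => I.hybrid.X0 (p, t)) (dPhase I.hybrid.X0 (p, θ)) θ :=
    ((I.hybrid.isProfile_X0.1.differentiable (by simp)) (p, θ)).hasFDerivAt.comp_hasDerivAt θ
      ((hasDerivAt_const θ p).prodMk (hasDerivAt_id θ))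
  refine h1.unique ?_
  refine (((HybridLoop.hasDerivAt_add_gen (μ := 1 / 2) mu_sq (I.q_ne (I.mem_supp hη)) (I.j p)
    (I.k p) (I.a p) θ).const_add ((⟪dx I.f p, dy I.f p⟫ / ⟪dy I.f p, dy I.f p⟫) • dy I.f p)))
    |>.congr_of_eventuallyEq (Filter.Eventually.of_forall fun t => ?_)
  show dx I.f p + I.a p • I.u (p, t) = _
  conv_lhs => rw [I.dx_eq p]
  simp only [u, hη, one_smul]
  abel

lemma continuous_slow : Continuous I.slow := by
  refine Continuous.add ?_ ?_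
  · exact (isProfile_pd I.hybrid.isProfile_X0 _).1.continuous
  · exact ((isProfile_add (I.hybrid.W_prof 2) (isProfile_pd (I.hybrid.U_prof 1) (1, 0))).1
      |>.continuous_fderiv (by simp)).clm_apply continuous_const

/-- The compact set of a cell where the cutoff is one, with a phase. -/
def cell : Set R3 := ((Icc (0 : ℝ) 1 ×ˢ Icc (0 : ℝ) 1) ×ˢ Icc (0 : ℝ) 1) ∩ {z | I.η z.1 = 1}

lemma isCompact_cell : IsCompact I.cell :=
  ((isCompact_Icc.prod isCompact_Icc).prod isCompact_Icc).inter_right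
    (isClosed_eq (I.η_smooth.1.continuous.comp continuous_fst) continuous_const)

/-- **KEY on one cell.** -/
theorem exists_turn_cell (h0 : ∀ x, 0 ≤ I.a x) :
    ∃ L0 δ : ℝ, 0 < δ ∧ ∀ L, L0 ≤ L → ∀ z ∈ I.cell,
      δ ≤ |⟪I.test1 z, L • dPhase I.hybrid.X0 z + I.slow z⟫| ∨
        δ ≤ |⟪I.test0 z, L • dPhase I.hybrid.X0 z + I.slow z⟫| := by
  haveI : CompactSpace I.cell := isCompact_iff_compactSpace.1 I.isCompact_cell
  obtain ⟨Y, hY⟩ : ∃ Y : I.cell → R2, Y = fun y => y.1.1 := ⟨_, rfl⟩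
  have hm : ∀ y : I.cell, (y.1.1 : R2) ∈ tsupport I.η := fun y => I.mem_supp y.2.2
  have hz : Continuous fun y : I.cell => (y.1.1 : R2) := continuous_fst.comp continuous_subtype_val
  have cq : Continuous fun y : I.cell => I.q y.1.1 := continuous_iff_continuousAt.2 fun y =>
    ContinuousAt.comp (g := I.q) (I.contDiffAt_frame (hm y)).1.continuousAt hz.continuousAt
  have cj : Continuous fun y : I.cell => I.j y.1.1 := continuous_iff_continuousAt.2 fun y =>
    ContinuousAt.comp (g := I.j) (I.contDiffAt_frame (hm y)).2.1.continuousAt hz.continuousAt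
  have ck : Continuous fun y : I.cell => I.k y.1.1 := continuous_iff_continuousAt.2 fun y =>
    ContinuousAt.comp (g := I.k) (I.contDiffAt_frame (hm y)).2.2.continuousAt hz.continuousAt
  have hn : ∀ y : I.cell, 0 < ‖I.q y.1.1‖ := fun y => norm_pos_iff.2 (I.q_ne (hm y))
  have ca : Continuous fun y : I.cell => I.a y.1.1 := I.a_smooth.1.continuous.comp hz
  have cw : Continuous fun y : I.cell => I.slow y.1 :=
    I.continuous_slow.comp continuous_subtype_val
  obtain ⟨P, hP⟩ : ∃ P : I.cell → ℝ,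
      P = fun y => HybridLoop.par ‖I.q y.1.1‖ (I.a y.1.1) := ⟨_, rfl⟩
  have hPc : Continuous P := by
    rw [hP]
    refine continuous_iff_continuousAt.2 fun y => ?_
    have h : ContDiffAt ℝ ∞ (fun w : ℝ × ℝ => HybridLoop.par w.1 w.2)
        (‖I.q y.1.1‖, I.a y.1.1) :=
      HybridLoop.contDiffAt_par contDiffAt_fst contDiffAt_snd (hn y)
    exact ContinuousAt.comp (f := fun y : I.cell => (‖I.q y.1.1‖, I.a y.1.1))
      (g := fun w : ℝ × ℝ => HybridLoop.par w.1 w.2) h.continuousAt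
      (cq.norm.prodMk ca).continuousAt
  obtain ⟨s, hs⟩ : ∃ s : I.cell → ℝ × ℝ × ℝ, s = fun y =>
      (⟪I.q y.1.1, I.slow y.1⟫ / ‖I.q y.1.1‖, ⟪I.j y.1.1, I.slow y.1⟫ / ‖I.q y.1.1‖,
        ⟪I.k y.1.1, I.slow y.1⟫ / ‖I.q y.1.1‖) := ⟨_, rfl⟩
  have hsc : Continuous s := by
    rw [hs]
    exact ((cq.inner cw).div cq.norm fun y => (hn y).ne').prodMk
      (((cj.inner cw).div cq.norm fun y => (hn y).ne').prodMk
        ((ck.inner cw).div cq.norm fun y => (hn y).ne'))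
  have hP0 : ∀ y, 0 ≤ P y := fun y => by
    rw [hP]; exact mul_nonneg (h0 _) (Real.sqrt_nonneg _)
  obtain ⟨L0, δ, hδ, hk⟩ := HybridLoop.exists_key (μ := 1 / 2) (K := (univ : Set I.cell))
    isCompact_univ (by norm_num) (by norm_num) hPc hsc hP0
    (fun y => hP ▸ HybridLoop.par_sq_lt (hn y) _) fun y _ hy => by
      have ha : I.a y.1.1 = 0 := by
        rw [hP] at hy
        exact (mul_eq_zero.1 hy).resolve_right
          (Real.sqrt_pos.2 (Loop.swing_pos (hn y) _)).ne'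
      obtain ⟨k1, k2, k3⟩ := Input.slow_frame I h0 y.2.2 ha y.1.2
      rw [hs]
      refine ⟨?_, ?_⟩
      · show ⟪I.j y.1.1, I.slow y.1⟫ / _ = 0
        rw [show I.slow y.1 = I.slow (y.1.1, y.1.2) from rfl, slow, k1, zero_div]
      · show 0 < ⟪I.k y.1.1, I.slow y.1⟫ / _
        rw [show I.slow y.1 = I.slow (y.1.1, y.1.2) from rfl, slow, k2]
        exact div_pos k3 (hn y)
  obtain ⟨c, hc, hcn⟩ := isCompact_univ.exists_forall_le' (s := (univ : Set I.cell))
    cq.norm.continuousOn (a := 0) fun y _ => hn y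
  refine ⟨max L0 0 / c, δ, hδ, fun L hL z hz' => ?_⟩
  obtain ⟨y, rfl⟩ : ∃ y : I.cell, y.1 = z := ⟨⟨z, hz'⟩, rfl⟩
  obtain ⟨p, θ⟩ := (⟨y.1.1, y.1.2⟩ : R2 × ℝ)
  obtain ⟨hj, hk', hqj, hqk, hjk, -, -, -⟩ := I.frame (hm y)
  obtain ⟨e1, e0⟩ := HybridLoop.inner_nu (μ := 1 / 2) mu_sq (I.q_ne (hm y)) hj hk' hqj hqk hjk
    (I.a y.1.1) y.1.2 L (I.slow y.1)
  have hd := I.dPhase_X0 (p := y.1.1) y.2.2 y.1.2
  rw [show dPhase I.hybrid.X0 y.1 = dPhase I.hybrid.X0 (y.1.1, y.1.2) from rfl, hd, smul_smul,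
    show I.test1 y.1 = HybridLoop.nu1 (1 / 2) (I.q y.1.1) (I.j y.1.1) (I.a y.1.1) y.1.2 from rfl,
    show I.test0 y.1 = HybridLoop.nu0 (1 / 2) (I.q y.1.1) (I.j y.1.1) (I.k y.1.1) (I.a y.1.1)
      y.1.2 from rfl, e1, e0]
  have hL' : L0 ≤ L * Loop.rad ‖I.q y.1.1‖ (I.a y.1.1) := by
    rw [div_le_iff₀ hc] at hL
    have hr : c ≤ Loop.rad ‖I.q y.1.1‖ (I.a y.1.1) :=
      (hcn y (mem_univ y)).trans (Real.le_sqrt_of_sq_le (le_add_of_nonneg_right (sq_nonneg _)))
    have hL0 : 0 ≤ L := nonneg_of_mul_nonneg_left (le_trans (le_max_right _ _) hL) hc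
    exact (le_max_left L0 0).trans (hL.trans (mul_le_mul_of_nonneg_left hr hL0))
  have := hk _ hL' y (mem_univ y) y.1.2
  rw [hP, hs] at this
  exact this

/-- **KEY.** For large `L`, at every point where the cutoff is one and every phase, one of the
test normals sees `L • dPhase X0 + slow` with margin `δ`. -/
theorem exists_turn (h0 : ∀ x, 0 ≤ I.a x) :
    ∃ L0 δ : ℝ, 0 < δ ∧ ∀ L, L0 ≤ L → ∀ p, I.η p = 1 → ∀ θ,
      δ ≤ |⟪I.test1 (p, θ), L • dPhase I.hybrid.X0 (p, θ) + I.slow (p, θ)⟫| ∨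
        δ ≤ |⟪I.test0 (p, θ), L • dPhase I.hybrid.X0 (p, θ) + I.slow (p, θ)⟫| := by
  obtain ⟨L0, δ, hδ, hk⟩ := I.exists_turn_cell h0
  refine ⟨L0, δ, hδ, fun L hL p hη θ => ?_⟩
  obtain ⟨F, hF⟩ : ∃ F : R3 → ℝ × ℝ × ℝ, F = fun z => (I.η z.1,
      ⟪I.test1 z, L • dPhase I.hybrid.X0 z + I.slow z⟫,
      ⟪I.test0 z, L • dPhase I.hybrid.X0 z + I.slow z⟫) := ⟨_, rfl⟩
  have hX := smooth2_dx I.f_smooth
  have hY := smooth2_dy I.f_smooth
  have hZ := smooth2_dx (smooth2_dx I.f_smooth)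
  have hper : ∀ (P : R3 → V4), IsProfile P → ∀ z : R3,
      dPhase P (z + ((1, 0), 0)) = dPhase P z ∧ dPhase P (z + ((0, 1), 0)) = dPhase P z ∧
        dPhase P (z + ((0, 0), 1)) = dPhase P z := fun P hP z => by
    have h := (isProfile_fderiv hP).2 z
    simp only [dPhase]
    exact ⟨by rw [h.1], by rw [h.2.1], by rw [h.2.2]⟩
  have hslow : ∀ z : R3, I.slow (z + ((1, 0), 0)) = I.slow z ∧
      I.slow (z + ((0, 1), 0)) = I.slow z ∧ I.slow (z + ((0, 0), 1)) = I.slow z := fun z => by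
    have h1 := (isProfile_pd I.hybrid.isProfile_X0 (1, 0)).2 z
    have h2 := hper _ (isProfile_add (I.hybrid.W_prof 2)
      (isProfile_pd (I.hybrid.U_prof 1) (1, 0))) z
    simp only [slow, px]
    exact ⟨congrArg₂ (· + ·) h1.1 h2.1, congrArg₂ (· + ·) h1.2.1 h2.2.1,
      congrArg₂ (· + ·) h1.2.2 h2.2.2⟩
  have hFp : ∀ z, F (z + ((1, 0), 0)) = F z ∧ F (z + ((0, 1), 0)) = F z ∧
      F (z + ((0, 0), 1)) = F z := fun z => by
    obtain ⟨s1, s2, s3⟩ := hslow z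
    obtain ⟨d1, d2, d3⟩ := hper _ I.hybrid.isProfile_X0 z
    simp only [hF, s1, s2, s3, d1, d2, d3]
    refine ⟨?_, ?_, ?_⟩
    · simp only [test1, test0, q, j, k, Prod.fst_add, Prod.snd_add, add_zero, I.η_smooth.2.1,
        I.a_smooth.2.1, hX.2.1, hY.2.1, hZ.2.1]
    · simp only [test1, test0, q, j, k, Prod.fst_add, Prod.snd_add, add_zero, I.η_smooth.2.2,
        I.a_smooth.2.2, hX.2.2, hY.2.2, hZ.2.2]
    · simp only [test1, test0, Prod.fst_add, Prod.snd_add,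
        show z.1 + (0, 0) = z.1 from add_zero _, HybridLoop.nu1, HybridLoop.nu0, HybridLoop.fx,
        HybridLoop.fy, HybridLoop.fz, HybridLoop.radicand, Loop.wave_one, HybridLoop.cwave_one]
  obtain ⟨x, y⟩ := p
  have p1 : Function.Periodic (fun s => F ((s, y), θ)) 1 := fun s => by
    simpa using (hFp ((s, y), θ)).1
  have p2 : Function.Periodic (fun s => F ((Int.fract x, s), θ)) 1 := fun s => by
    simpa using (hFp ((Int.fract x, s), θ)).2.1
  have p3 : Function.Periodic (fun s => F ((Int.fract x, Int.fract y), s)) 1 := fun s => by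
    simpa using (hFp ((Int.fract x, Int.fract y), s)).2.2
  have e1 := p1.sub_zsmul_eq (x := x) ⌊x⌋
  have e2 := p2.sub_zsmul_eq (x := y) ⌊y⌋
  have e3 := p3.sub_zsmul_eq (x := θ) ⌊θ⌋
  simp only [zsmul_one, Int.self_sub_floor] at e1 e2 e3
  have e := e3.trans (e2.trans e1)
  rw [hF] at e
  simp only [Prod.mk.injEq] at e
  have hin : ((Int.fract x, Int.fract y), Int.fract θ) ∈ I.cell :=
    ⟨⟨⟨⟨Int.fract_nonneg x, (Int.fract_lt_one x).le⟩,
      Int.fract_nonneg y, (Int.fract_lt_one y).le⟩,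
      Int.fract_nonneg θ, (Int.fract_lt_one θ).le⟩, e.1.trans hη⟩
  have := hk L hL _ hin
  rwa [e.2.1, e.2.2] at this

end Input

end

end Vale.Agent.P205.HybridData
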