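import Vale.Agent.P205.Full.HybridData
import Vale.Agent.P205.Full.Algebra.Scalar

/-!
# P205: the hybrid step on the periodic plane

`PeriodicStatement` is the hybrid step for periodic data in coordinates in which the piece is
`a² dx²` and the rank one form is `B dy²`.
-/

namespace Vale.Agent.P205.HybridPlane

open scoped ContDiff Topology
open Correction
open Vale.Agent.P205.Algebra

noncomputable section

/-- What is left of `metF f + (a² , 0, B)` after taking off the metric of `G`. -/
def rest (I : HybridData.Input) (G : R2 → V4) (p : R2) : Fin 3 → ℝ :=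
  metF I.f p + ![I.a p ^ 2, 0, I.B p] - metF G p

/-- The hybrid step for periodic data.  The map changes only where `radial < 2`, a region inside
`{η = 1}`; there the rest has rank one, stays near `B dy²`, and its kernel line `(1, t)` has
normal acceleration. -/
def PeriodicStatement : Prop :=
  ∀ (I : HybridData.Input) (radial : R2 → ℝ) (ε : ℝ),
    Smooth2 radial → (∀ p ∈ I.K, radial p ≤ 0) →
    (∀ p, radial p ≤ 2 → p ∈ interior {q | I.η q = 1}) → (∀ x, 0 ≤ I.a x) → 0 < ε →
    ∃ G : R2 → V4, Smooth2 G ∧ (∀ p, 2 ≤ radial p → G p = I.f p) ∧ ∀ p, I.η p = 1 →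
      0 < detg G p ∧ rdet (rest I G p) = 0 ∧ 0 < rest I G p 2 ∧
      (∀ i, |rest I G p i - ![(0 : ℝ), 0, I.B p] i| ≤ ε) ∧
      ∀ t : ℝ, rest I G p 2 * t + rest I G p 1 = 0 →
        F11 G p + (2 * t) • F12 G p + t ^ 2 • F22 G p ∉ Set.range (fderiv ℝ G p)

end

end Vale.Agent.P205.HybridPlane
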