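import Vale.Agent.P205.Full.HybridKey
import Vale.Agent.P205.Full.HybridDiag
import Vale.Agent.P205.Full.HybridPlane
import Vale.Agent.P205.Full.Bridge.Plane

/-!
# P205: maps close to the diagonal hybrid approximants

Such a map has a metric close to the target, a normal part of `F_xx` bounded below and hence a
positive coefficient of the scalar inverse.
-/

namespace Vale.Agent.P205.HybridPlane

open scoped ContDiff RealInnerProductSpace Topology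
open Correction Profile
open Vale.Agent.P205.Algebra

noncomputable section

/-- A positive continuous periodic function has a positive lower bound. -/
lemma exists_pos_lower {g : R2 → ℝ} (hc : Continuous g) (hp : Periodic2 (1, 0) (0, 1) g)
    (hpos : ∀ p, 0 < g p) : ∃ δ, 0 < δ ∧ ∀ p, δ ≤ g p := by
  obtain ⟨δ, hδ, h⟩ := ((isCompact_Icc (a := (0 : ℝ)) (b := 1)).prod
    (isCompact_Icc (a := (0 : ℝ)) (b := 1))).exists_forall_le' hc.continuousOn (a := 0)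
      fun p _ => hpos p
  refine ⟨δ, hδ, fun ⟨x, y⟩ => ?_⟩
  have h1 : Function.Periodic (fun s => g (s, y)) 1 := fun s => by simpa using hp.1 (s, y)
  have h2 : Function.Periodic (fun s => g (Int.fract x, s)) 1 := fun s => by
    simpa using hp.2 (Int.fract x, s)
  have e1 := h1.sub_zsmul_eq (x := x) ⌊x⌋
  have e2 := h2.sub_zsmul_eq (x := y) ⌊y⌋
  simp only [zsmul_one, Int.self_sub_floor] at e1 e2
  rw [← e1, ← e2]
  exact h _ ⟨⟨Int.fract_nonneg _, (Int.fract_lt_one _).le⟩, Int.fract_nonneg _,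
    (Int.fract_lt_one _).le⟩

variable (I : HybridData.Input)

/-- `G` has the derivatives of the approximant at frequency `n`, up to `δ`. -/
structure Near (C : ℝ) (n : ℕ) (δ : ℝ) (G : R2 → V4) : Prop where
  near_x : ∀ p, ‖dx G p - I.hybrid.X0 (p, (n : ℝ) * p.1)‖ ≤ δ
  near_y : ∀ p, ‖dy G p - dy I.f p‖ ≤ δ
  near_xx : ∀ p, ‖F11 G p - ((n : ℝ) • dPhase I.hybrid.X0 (p, (n : ℝ) * p.1)
    + I.hybrid.slow (p, (n : ℝ) * p.1))‖ ≤ δ
  bdd_xy : ∀ p, ‖F12 G p‖ ≤ C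
  bdd_yy : ∀ p, ‖F22 G p‖ ≤ C

lemma inner_close {A B X Y : V4} {M δ : ℝ} (hA : ‖A - X‖ ≤ δ) (hB : ‖B - Y‖ ≤ δ) (hX : ‖X‖ ≤ M)
    (hY : ‖Y‖ ≤ M) (hδ : δ ≤ 1) :
    |⟪A, B⟫ - ⟪X, Y⟫| ≤ (2 * M + 1) * δ ∧ |⟪A, B⟫| ≤ (M + 1) ^ 2 ∧ |⟪X, Y⟫| ≤ (M + 1) ^ 2 := by
  have hA' : ‖A‖ ≤ M + 1 := by linarith [norm_le_norm_add_norm_sub' A X]
  have hB' : ‖B‖ ≤ M + 1 := by linarith [norm_le_norm_add_norm_sub' B Y]
  have hδ0 : 0 ≤ δ := (norm_nonneg _).trans hA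
  have hM : 0 ≤ M := (norm_nonneg _).trans hX
  refine ⟨?_, ?_, ?_⟩
  · rw [show ⟪A, B⟫ - ⟪X, Y⟫ = ⟪A - X, B⟫ + ⟪X, B - Y⟫ by
      rw [inner_sub_left, inner_sub_right]; ring]
    refine (abs_add_le _ _).trans ((add_le_add (abs_real_inner_le_norm _ _)
      (abs_real_inner_le_norm _ _)).trans ?_)
    nlinarith [mul_le_mul hA hB' (norm_nonneg _) hδ0, mul_le_mul hX hB (norm_nonneg _) hM]
  · exact (abs_real_inner_le_norm _ _).trans (by
      rw [sq]; exact mul_le_mul hA' hB' (norm_nonneg _) (by linarith))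
  · exact (abs_real_inner_le_norm _ _).trans (by
      rw [sq]; exact mul_le_mul (by linarith) (by linarith) (norm_nonneg _) (by linarith))

lemma X0_metric (p : R2) (θ : ℝ) :
    ⟪I.hybrid.X0 (p, θ), I.hybrid.X0 (p, θ)⟫ = g11 I.f p + I.a p ^ 2 ∧
      ⟪I.hybrid.X0 (p, θ), dy I.f p⟫ = g12 I.f p := by
  show ⟪dx I.f p + I.a p • I.u (p, θ), dx I.f p + I.a p • I.u (p, θ)⟫ = _ ∧
    ⟪dx I.f p + I.a p • I.u (p, θ), dy I.f p⟫ = _
  by_cases hp : p ∈ I.K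
  · refine ⟨I.circle (I.η_one p hp) θ, ?_⟩
    rw [inner_add_left, real_inner_smul_left, real_inner_comm (dy I.f p) (I.u (p, θ)),
      I.T_u (I.η_one p hp), mul_zero, add_zero, g12]
  · simp [I.a_zero p hp, g11, g12]

/-- The velocity is orthogonal to `X0` and to `f_y`. -/
lemma velocity_orth (p : R2) (θ : ℝ) :
    ⟪dPhase I.hybrid.X0 (p, θ), I.hybrid.X0 (p, θ)⟫ = 0 ∧
      ⟪dPhase I.hybrid.X0 (p, θ), dy I.f p⟫ = 0 := by
  have h : HasDerivAt (fun t => I.hybrid.X0 (p, t)) (dPhase I.hybrid.X0 (p, θ)) θ :=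
    ((I.hybrid.isProfile_X0.1.differentiable (by simp)) (p, θ)).hasFDerivAt.comp_hasDerivAt θ
      ((hasDerivAt_const θ p).prodMk (hasDerivAt_id θ))
  constructor
  · have h2 := h.inner ℝ h
    rw [funext fun t => (X0_metric I p t).1] at h2
    have h3 := h2.unique (hasDerivAt_const θ _)
    linarith [real_inner_comm (dPhase I.hybrid.X0 (p, θ)) (I.hybrid.X0 (p, θ))]
  · have h2 := h.inner ℝ (hasDerivAt_const θ (dy I.f p))
    rw [funext fun t => (X0_metric I p t).2] at h2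
    have h3 := h2.unique (hasDerivAt_const θ _)
    simp only [inner_zero_right, zero_add] at h3
    exact h3

lemma exists_profile_bound {U : R2 × ℝ → V4} (hU : IsProfile U) : ∃ C, ∀ z, ‖U z‖ ≤ C := by
  obtain ⟨C, hC⟩ := hU.bound 0
  exact ⟨C, fun z => by simpa using hC z⟩

/-- Bounds of the profiles. -/
lemma exists_bound : ∃ M : ℝ, 1 ≤ M ∧ ∀ p θ, ‖I.hybrid.X0 (p, θ)‖ ≤ M ∧ ‖dy I.f p‖ ≤ M ∧
    ‖dPhase I.hybrid.X0 (p, θ)‖ ≤ M ∧ ‖I.hybrid.slow (p, θ)‖ ≤ M := by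
  obtain ⟨a, ha⟩ := exists_profile_bound I.hybrid.isProfile_X0
  obtain ⟨b, hb⟩ := exists_profile_bound (WKB.Hybrid.isProfile_dPhase I.hybrid.isProfile_X0)
  obtain ⟨c, hc⟩ := exists_profile_bound I.hybrid.isProfile_slow
  refine ⟨1 + |a| + |b| + |c| + pn 0 (dy I.f), ?_, fun p θ => ?_⟩
  · linarith [abs_nonneg a, abs_nonneg b, abs_nonneg c, pn_nonneg 0 (dy I.f)]
  · have := abs_nonneg a; have := abs_nonneg b; have := abs_nonneg c
    have := pn_nonneg 0 (dy I.f)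
    refine ⟨?_, ?_, ?_, ?_⟩
    · linarith [ha (p, θ), le_abs_self a]
    · linarith [norm_le_pn (Algebra.smooth2_dy I.f_smooth) 0 p]
    · linarith [hb (p, θ), le_abs_self b]
    · linarith [hc (p, θ), le_abs_self c]

/-- The map is an immersion where the cutoff is one. -/
lemma detg_pos {p : R2} (hp : I.η p = 1) : 0 < detg I.f p := by
  refine Bridge.detg_pos_of_injective ((injective_iff_map_eq_zero _).2 fun v hv => ?_)
  rw [Bridge.fderiv_apply_eq] at hv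
  have hy := I.dy_ne p (I.mem_supp hp)
  by_cases h1 : v.1 = 0
  · rw [h1, zero_smul, zero_add, smul_eq_zero] at hv
    exact Prod.ext h1 (hv.resolve_right hy)
  · refine absurd ?_ (I.indep p (I.mem_supp hp) (-(v.1⁻¹ * v.2)))
    rw [add_eq_zero_iff_eq_neg] at hv
    rw [neg_smul, mul_smul, ← smul_neg, ← hv, inv_smul_smul₀ h1]

/-- The metric of a near map is close to the target. -/
theorem near_metric {C : ℝ} : ∃ C₁ d₀ : ℝ, 0 ≤ C₁ ∧ 0 < d₀ ∧ ∀ (n : ℕ) (δ : ℝ) (G : R2 → V4),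
    δ ≤ 1 → Near I C n δ G → ∀ p, (∀ i, |rest I G p i - ![(0 : ℝ), 0, I.B p] i| ≤ C₁ * δ) ∧
      d₀ - C₁ * δ ≤ detg G p + (1 - I.η p) := by
  obtain ⟨M, hM, hb⟩ := exists_bound I
  have hdX := Algebra.smooth2_dx I.f_smooth
  have hdY := Algebra.smooth2_dy I.f_smooth
  obtain ⟨d₀, hd₀, hd⟩ := exists_pos_lower
    (g := fun p => detg I.f p + I.a p ^ 2 * g22 I.f p + (1 - I.η p))
    (by
      simp only [detg, g11, g12, g22]
      have := hdX.1.continuous; have := hdY.1.continuous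
      have := I.a_smooth.1.continuous; have := I.η_smooth.1.continuous
      fun_prop)
    ⟨fun p => by simp only [detg, g11, g12, g22, hdX.2.1, hdY.2.1, I.a_smooth.2.1, I.η_smooth.2.1],
      fun p => by simp only [detg, g11, g12, g22, hdX.2.2, hdY.2.2, I.a_smooth.2.2, I.η_smooth.2.2]⟩
    (fun p => by
      have h : 0 ≤ I.a p ^ 2 * g22 I.f p := mul_nonneg (sq_nonneg _) real_inner_self_nonneg
      rcases (I.η_le p).lt_or_eq with h1 | h1
      · linarith [Bridge.detg_nonneg I.f p]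
      · linarith [detg_pos I h1])
  refine ⟨4 * (M + 1) ^ 2 * (2 * M + 1), d₀, by positivity, hd₀, fun n δ G hδ hG p => ?_⟩
  obtain ⟨bX, bY, -, -⟩ := hb p ((n : ℝ) * p.1)
  obtain ⟨mX, mY⟩ := X0_metric I p ((n : ℝ) * p.1)
  obtain ⟨e11, u11, v11⟩ := inner_close (hG.near_x p) (hG.near_x p) bX bX hδ
  obtain ⟨e12, u12, v12⟩ := inner_close (hG.near_x p) (hG.near_y p) bX bY hδ
  obtain ⟨e22, u22, v22⟩ := inner_close (hG.near_y p) (hG.near_y p) bY bY hδ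
  rw [mX] at e11 v11
  rw [mY] at e12 v12
  have hδ0 : 0 ≤ δ := (norm_nonneg _).trans (hG.near_x p)
  have hk : (1 : ℝ) ≤ (M + 1) ^ 2 := by nlinarith
  have hb1 : (2 * M + 1) * δ ≤ 4 * (M + 1) ^ 2 * (2 * M + 1) * δ := by
    rw [mul_assoc (4 * (M + 1) ^ 2)]
    exact le_mul_of_one_le_left (by positivity) (by linarith)
  refine ⟨fun i => ?_, ?_⟩
  · have r0 : rest I G p 0 = g11 I.f p + I.a p ^ 2 - ⟪dx G p, dx G p⟫ := rfl
    have r1 : rest I G p 1 = g12 I.f p + 0 - ⟪dx G p, dy G p⟫ := rfl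
    have r2 : rest I G p 2 = ⟪dy I.f p, dy I.f p⟫ + I.B p - ⟪dy G p, dy G p⟫ := rfl
    fin_cases i
    · simp only [Fin.zero_eta, r0, Matrix.cons_val_zero, sub_zero]
      rw [abs_sub_comm]
      exact e11.trans hb1
    · simp only [Fin.mk_one, r1, Matrix.cons_val_one, Matrix.cons_val_zero, sub_zero, add_zero]
      rw [abs_sub_comm]
      exact e12.trans hb1
    · simp only [Fin.reduceFinMk, r2, Matrix.cons_val]
      rw [add_sub_right_comm, add_sub_cancel_right, abs_sub_comm]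
      exact e22.trans hb1
  · have h := hd p
    simp only [detg, g11, g12, g22] at h e11 e12 v11 v12 ⊢
    obtain ⟨u, hu⟩ : ∃ u, u = ⟪dx I.f p, dx I.f p⟫ + I.a p ^ 2 := ⟨_, rfl⟩
    rw [← hu] at e11 v11
    have h1 := abs_mul (⟪dx G p, dx G p⟫ - u) ⟪dy G p, dy G p⟫
    have h2 := abs_mul u (⟪dy G p, dy G p⟫ - ⟪dy I.f p, dy I.f p⟫)
    have h3 := abs_mul (⟪dx G p, dy G p⟫ - ⟪dx I.f p, dy I.f p⟫)
      (⟪dx G p, dy G p⟫ + ⟪dx I.f p, dy I.f p⟫)
    have k1 := mul_le_mul e11 u22 (abs_nonneg _) (by positivity)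
    have k2 := mul_le_mul v11 e22 (abs_nonneg _) (by positivity)
    have k3 := mul_le_mul e12 ((abs_add_le _ _).trans (add_le_add u12 v12)) (abs_nonneg _)
      (by positivity)
    rw [← h1] at k1
    rw [← h2] at k2
    rw [← h3] at k3
    rw [abs_le] at k1 k2 k3
    rw [hu] at k1 k2
    nlinarith [k1.1, k2.1, k3.2]

/-- The inner product of `F_xx` with its regularised normal part is nonnegative. -/
lemma inner_nX_nonneg {η : R2 → ℝ} {F : R2 → V4} {p : R2} (hη : η p ≤ 1)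
    (hd : 0 < detg F p + (1 - η p)) : 0 ≤ ⟪F11 F p, nX η F p⟫ := by
  obtain ⟨a, ha⟩ : ∃ a, a = ⟪F11 F p, dx F p⟫ := ⟨_, rfl⟩
  obtain ⟨b, hb⟩ : ∃ b, b = ⟪F11 F p, dy F p⟫ := ⟨_, rfl⟩
  obtain ⟨Q, hQ⟩ : ∃ Q, Q = a ^ 2 * g22 F p - 2 * a * b * g12 F p + b ^ 2 * g11 F p := ⟨_, rfl⟩
  obtain ⟨s, hs⟩ : ∃ s, s = detg F p + (1 - η p) := ⟨_, rfl⟩
  have hQ0 : 0 ≤ Q := by
    have h : ⟪b • dx F p - a • dy F p, b • dx F p - a • dy F p⟫ = Q := by
      rw [hQ]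
      simp only [g11, g12, g22, inner_sub_left, inner_sub_right, real_inner_smul_left,
        real_inner_smul_right, real_inner_comm (dx F p) (dy F p)]
      ring
    exact h ▸ real_inner_self_nonneg
  have hZ : 0 ≤ s ^ 2 * ⟪F11 F p, F11 F p⟫ - 2 * s * Q + detg F p * Q := by
    refine le_of_le_of_eq (real_inner_self_nonneg (x := s • F11 F p
      - a • (g22 F p • dx F p - g12 F p • dy F p) - b • (g11 F p • dy F p - g12 F p • dx F p))) ?_
    rw [hQ]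
    simp only [inner_sub_left, inner_sub_right, real_inner_smul_left, real_inner_smul_right,
      real_inner_comm (dx F p) (dy F p), real_inner_comm (F11 F p) (dx F p),
      real_inner_comm (F11 F p) (dy F p), ← ha, ← hb]
    simp only [detg, g11, g12, g22]
    ring
  have e : ⟪F11 F p, nX η F p⟫ * s = s * ⟪F11 F p, F11 F p⟫ - Q := by
    have hs0 : detg F p + (1 - η p) ≠ 0 := hd.ne'
    simp only [nX, v1, v2, rinv, inner_sub_right, real_inner_smul_right, ← ha, ← hb, hQ, hs]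
    field_simp
    ring
  refine nonneg_of_mul_nonneg_left (b := s) ?_ (hs ▸ hd)
  rw [e]
  have h2 : detg F p * Q ≤ s * Q :=
    mul_le_mul_of_nonneg_right (by rw [hs]; linarith) hQ0
  have hs0 : 0 < s := hs ▸ hd
  exact nonneg_of_mul_nonneg_right (show 0 ≤ s * (s * ⟪F11 F p, F11 F p⟫ - Q) by nlinarith) hs0

/-- Where the cutoff is one `nX` is the normal part. -/
lemma nX_spec {η : R2 → ℝ} {F : R2 → V4} {p : R2} (hη : η p = 1) (hd : 0 < detg F p) :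
    ⟪dx F p, nX η F p⟫ = 0 ∧ ⟪dy F p, nX η F p⟫ = 0 ∧
      ⟪F11 F p, nX η F p⟫ = ‖nX η F p‖ ^ 2 := by
  have h : ⟪dx F p, nX η F p⟫ = 0 ∧ ⟪dy F p, nX η F p⟫ = 0 := by
    have hd' := hd.ne'
    simp only [nX, v1, v2, rinv, hη, sub_self, add_zero, inner_sub_right, real_inner_smul_right,
      real_inner_comm (dx F p) (dy F p), real_inner_comm (F11 F p) (dx F p),
      real_inner_comm (F11 F p) (dy F p)]
    constructor <;> field_simp <;> simp only [detg, g11, g12, g22] <;> ring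
  refine ⟨h.1, h.2, ?_⟩
  have e : ⟪F11 F p - ⟪F11 F p, dx F p⟫ • v1 η F p - ⟪F11 F p, dy F p⟫ • v2 η F p, nX η F p⟫
      = ‖nX η F p‖ ^ 2 := real_inner_self_eq_norm_sq _
  simpa only [v1, v2, inner_sub_left, real_inner_smul_left, h.1, h.2, mul_zero, sub_zero] using e

/-- A lower bound on the normal part of `F_xx` of near maps. -/
theorem near_normal (ha : ∀ x, 0 ≤ I.a x) {C : ℝ} : ∃ (n₀ : ℕ) (δ₁ ε₀ d₁ : ℝ), 0 < δ₁ ∧ 0 < ε₀ ∧
    0 < d₁ ∧ ∀ n : ℕ, n₀ ≤ n → ∀ (δ : ℝ) (G : R2 → V4), δ ≤ ε₀ → (n : ℝ) * δ ^ 2 ≤ ε₀ →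
      Near I C n δ G → ∀ p, I.η p = 1 → d₁ ≤ detg G p ∧ δ₁ ≤ ‖nX I.η G p‖ := by
  obtain ⟨M, hM, hb⟩ := exists_bound I
  obtain ⟨C₁, d₀, hC₁, hd₀, hmet⟩ := near_metric I (C := C)
  obtain ⟨L0, κ, hκ, hkey⟩ := I.exists_turn ha
  obtain ⟨n₀, hn₀⟩ := exists_nat_ge L0
  obtain ⟨K, hK⟩ : ∃ K, K = 2 * (M + 1) ^ 2 * (2 * (M + 1) ^ 2 * (d₀ / 2)⁻¹) + 1 := ⟨_, rfl⟩
  have hK1 : 1 ≤ K := by rw [hK]; exact le_add_of_nonneg_left (by positivity)
  refine ⟨n₀, κ / 2, min (min 1 (d₀ / (2 * (C₁ + 1)))) (κ / (4 * K)), d₀ / 2, by linarith,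
    by positivity, by linarith, fun n hn δ G hδ hnδ hG p hp => ?_⟩
  simp only [le_min_iff] at hδ hnδ
  obtain ⟨⟨hδ1, hδd⟩, hδκ⟩ := hδ
  obtain ⟨-, hnκ⟩ := hnδ
  have hδ0 : 0 ≤ δ := (norm_nonneg _).trans (hG.near_x p)
  have hdet : d₀ / 2 ≤ detg G p := by
    have h := (hmet n δ G hδ1 hG p).2
    rw [hp, sub_self, add_zero] at h
    rw [le_div_iff₀ (by positivity)] at hδd
    linarith
  refine ⟨hdet, ?_⟩
  obtain ⟨θ, hθ⟩ : ∃ θ, θ = (n : ℝ) * p.1 := ⟨_, rfl⟩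
  obtain ⟨bX, bY, bV, bS⟩ := hb p θ
  obtain ⟨oX, oY⟩ := velocity_orth I p θ
  have gX := hG.near_x p
  have gY := hG.near_y p
  have gZ := hG.near_xx p
  rw [← hθ] at gX gZ
  obtain ⟨t1, t0, t1y, t0y, t1x, t0x⟩ := I.test_spec hp θ
  obtain ⟨w, hw1, hwy, hwx, hwk⟩ : ∃ w : V4, ‖w‖ ≤ 1 ∧ ⟪w, dy I.f p⟫ = 0 ∧
      ⟪w, I.hybrid.X0 (p, θ)⟫ = 0 ∧
      κ ≤ |⟪w, (n : ℝ) • dPhase I.hybrid.X0 (p, θ) + I.hybrid.slow (p, θ)⟫| := by
    rcases hkey n (hn₀.trans (Nat.cast_le.2 hn)) p hp θ with h | h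
    · exact ⟨_, t1, t1y, t1x, h⟩
    · exact ⟨_, t0, t0y, t0x, h⟩
  have hwA : |⟪w, dx G p⟫| ≤ δ := by
    have h := abs_real_inner_le_norm w (dx G p - I.hybrid.X0 (p, θ))
    rw [inner_sub_right, hwx, sub_zero] at h
    exact h.trans ((mul_le_mul hw1 gX (norm_nonneg _) zero_le_one).trans_eq (one_mul _))
  have hwB : |⟪w, dy G p⟫| ≤ δ := by
    have h := abs_real_inner_le_norm w (dy G p - dy I.f p)
    rw [inner_sub_right, hwy, sub_zero] at h
    exact h.trans ((mul_le_mul hw1 gY (norm_nonneg _) zero_le_one).trans_eq (one_mul _))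
  have hwZ : κ - δ ≤ |⟪w, F11 G p⟫| := by
    have h := abs_real_inner_le_norm w (F11 G p - ((n : ℝ) • dPhase I.hybrid.X0 (p, θ)
      + I.hybrid.slow (p, θ)))
    rw [inner_sub_right] at h
    have h' := h.trans ((mul_le_mul hw1 gZ (norm_nonneg _) zero_le_one).trans_eq (one_mul δ))
    have := abs_sub_abs_le_abs_sub
      ⟪w, (n : ℝ) • dPhase I.hybrid.X0 (p, θ) + I.hybrid.slow (p, θ)⟫ ⟪w, F11 G p⟫
    rw [abs_sub_comm] at this
    linarith
  have htan : ∀ {A X : V4}, ‖A - X‖ ≤ δ → ‖X‖ ≤ M → ⟪dPhase I.hybrid.X0 (p, θ), X⟫ = 0 →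
      |⟪F11 G p, A⟫| ≤ (M + 1) ^ 2 * (1 + (n : ℝ) * δ) := by
    intro A X hA hX h0
    have hA' : ‖A‖ ≤ M + 1 := by linarith [norm_le_norm_add_norm_sub' A X]
    rw [show ⟪F11 G p, A⟫ = (n : ℝ) * ⟪dPhase I.hybrid.X0 (p, θ), A - X⟫
        + ⟪I.hybrid.slow (p, θ) + (F11 G p - ((n : ℝ) • dPhase I.hybrid.X0 (p, θ)
          + I.hybrid.slow (p, θ))), A⟫ by
      simp only [inner_add_left, inner_sub_left, inner_sub_right, real_inner_smul_left, h0]; ring]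
    refine (abs_add_le _ _).trans ?_
    rw [abs_mul, Nat.abs_cast]
    have k1 := mul_le_mul bV hA (norm_nonneg _) (by linarith)
    have k2 := abs_real_inner_le_norm (dPhase I.hybrid.X0 (p, θ)) (A - X)
    have k3 := (abs_real_inner_le_norm (I.hybrid.slow (p, θ) + (F11 G p - ((n : ℝ) •
      dPhase I.hybrid.X0 (p, θ) + I.hybrid.slow (p, θ)))) A).trans (mul_le_mul
        ((norm_add_le _ _).trans (add_le_add bS (gZ.trans hδ1))) hA' (norm_nonneg _) (by linarith))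
    have k4 := mul_le_mul_of_nonneg_left (k2.trans k1) (Nat.cast_nonneg (α := ℝ) n)
    have k5 : (n : ℝ) * (M * δ) ≤ (M + 1) ^ 2 * ((n : ℝ) * δ) := by
      rw [mul_left_comm]
      exact mul_le_mul_of_nonneg_right (by nlinarith only [hM]) (by positivity)
    have k6 : (M + 1) * (M + 1) = (M + 1) ^ 2 := (sq _).symm
    rw [mul_add, mul_one]
    linarith
  have hs : ∀ {X Y : ℝ}, |X| ≤ (M + 1) ^ 2 → |Y| ≤ (M + 1) ^ 2 → ∀ {u v : ℝ}, |u| ≤ δ → |v| ≤ δ →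
      |(detg G p)⁻¹ * (X * u - Y * v)| ≤ 2 * (M + 1) ^ 2 * (d₀ / 2)⁻¹ * δ := by
    intro X Y hX hY u v hu hv
    rw [abs_mul, abs_of_pos (inv_pos.2 (lt_of_lt_of_le (by linarith) hdet))]
    refine (mul_le_mul (inv_anti₀ (by linarith) hdet) ((abs_sub _ _).trans (add_le_add
      ((abs_mul _ _).le.trans (mul_le_mul hX hu (abs_nonneg _) (by positivity)))
      ((abs_mul _ _).le.trans (mul_le_mul hY hv (abs_nonneg _) (by positivity)))))
      (abs_nonneg _) (by positivity)).trans_eq ?_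
    ring
  obtain ⟨-, uAA, -⟩ := inner_close gX gX bX bX hδ1
  obtain ⟨-, uAB, -⟩ := inner_close gX gY bX bY hδ1
  obtain ⟨-, uBB, -⟩ := inner_close gY gY bY bY hδ1
  have e : ⟪w, nX I.η G p⟫ = ⟪w, F11 G p⟫
      - (⟪F11 G p, dx G p⟫ * ((detg G p)⁻¹ * (g22 G p * ⟪w, dx G p⟫ - g12 G p * ⟪w, dy G p⟫))
        + ⟪F11 G p, dy G p⟫ *
          ((detg G p)⁻¹ * (g11 G p * ⟪w, dy G p⟫ - g12 G p * ⟪w, dx G p⟫))) := by
    simp only [nX, v1, v2, rinv, hp, sub_self, add_zero, inner_sub_right, real_inner_smul_right]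
    ring
  have hP : (M + 1) ^ 2 * (1 + (n : ℝ) * δ) * (2 * (M + 1) ^ 2 * (d₀ / 2)⁻¹ * δ) * 2 + δ
      ≤ K * (δ + (n : ℝ) * δ ^ 2) := by
    rw [hK]
    linarith [mul_nonneg (Nat.cast_nonneg (α := ℝ) n) (sq_nonneg δ)]
  have hK0 : 0 < 4 * K := by linarith
  rw [le_div_iff₀ hK0] at hδκ hnκ
  have b1 := mul_le_mul (htan gX bX oX) (hs uBB uAB hwA hwB) (abs_nonneg _) (by positivity)
  have b2 := mul_le_mul (htan gY bY oY) (hs uAA uAB hwB hwA) (abs_nonneg _) (by positivity)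
  rw [← abs_mul] at b1 b2
  refine le_trans ?_ ((abs_real_inner_le_norm w _).trans
    (mul_le_of_le_one_left (norm_nonneg _) hw1))
  rw [e]
  refine le_trans ?_ (abs_sub_abs_le_abs_sub _ _)
  simp only [g11, g12, g22] at b1 b2 ⊢
  linarith [abs_add_le
    (⟪F11 G p, dx G p⟫ * ((detg G p)⁻¹ * (⟪dy G p, dy G p⟫ * ⟪w, dx G p⟫
      - ⟪dx G p, dy G p⟫ * ⟪w, dy G p⟫)))
    (⟪F11 G p, dy G p⟫ * ((detg G p)⁻¹ * (⟪dx G p, dx G p⟫ * ⟪w, dy G p⟫
      - ⟪dx G p, dy G p⟫ * ⟪w, dx G p⟫)))]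

end

end Vale.Agent.P205.HybridPlane
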