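import Vale.Agent.P205.Full.HybridNear

/-!
# P205: the hybrid step on the periodic plane, proved

The diagonal approximant solves the rank one equation up to every power of `1 / n`;
`scalar_correction` makes it exact, moving it by `O (1 / n)` with two derivatives.
-/

namespace Vale.Agent.P205.HybridPlane

open scoped ContDiff RealInnerProductSpace Topology
open Correction Profile
open Vale.Agent.P205.Algebra

noncomputable section

variable (I : HybridData.Input)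

lemma rest_eq (G : R2 → V4) (p : R2) : I.hybrid.target p - metF G p = rest I G p := by
  funext i
  fin_cases i <;>
    simp [rest, WKB.Hybrid.target, HybridData.Input.hybrid, metF, g11, g12, g22, sq]

/-- The coefficient is positive off the support of the amplitude. -/
lemma exists_coef_lower : ∃ c, 0 < c ∧ ∀ p,
    c ≤ I.B p * ⟪F11 I.f p, nX I.η I.f p⟫ + (1 - I.η p) := by
  have hX := Algebra.smooth2_dx I.f_smooth
  have hY := Algebra.smooth2_dy I.f_smooth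
  have hZ := Algebra.smooth2_dx hX
  have hd : ∀ p, 0 < detg I.f p + (1 - I.η p) := fun p => by
    rcases (I.η_le p).lt_or_eq with h | h
    · linarith [Bridge.detg_nonneg I.f p]
    · linarith [detg_pos I h]
  refine exists_pos_lower ?_ ⟨fun p => ?_, fun p => ?_⟩ fun p => ?_
  · have := I.B_smooth.1.continuous; have := I.η_smooth.1.continuous
    have := hX.1.continuous; have := hY.1.continuous; have := hZ.1.continuous
    have hi : Continuous fun p => (detg I.f p + (1 - I.η p))⁻¹ := by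
      refine Continuous.inv₀ ?_ fun p => (hd p).ne'
      simp only [detg, g11, g12, g22]
      fun_prop
    simp only [nX, v1, v2, rinv, g11, g12, g22, F11]
    fun_prop
  · simp only [nX, v1, v2, rinv, detg, g11, g12, g22, F11, I.B_smooth.2.1, I.η_smooth.2.1,
      hX.2.1, hY.2.1, hZ.2.1]
  · simp only [nX, v1, v2, rinv, detg, g11, g12, g22, F11, I.B_smooth.2.2, I.η_smooth.2.2,
      hX.2.2, hY.2.2, hZ.2.2]
  · have h := mul_nonneg (I.B_nonneg p) (inner_nX_nonneg (I.η_le p) (hd p))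
    rcases (I.η_le p).lt_or_eq with h1 | h1
    · linarith
    · have hn : nX I.η I.f p ≠ 0 := fun h0 => by
        simp only [nX, v1, v2, smul_sub, smul_smul] at h0
        refine I.accel p (I.mem_supp h1)
          (⟪F11 I.f p, dx I.f p⟫ * (rinv I.η (detg I.f) p * g22 I.f p)
            - ⟪F11 I.f p, dy I.f p⟫ * (rinv I.η (detg I.f) p * g12 I.f p))
          (⟪F11 I.f p, dy I.f p⟫ * (rinv I.η (detg I.f) p * g11 I.f p)
            - ⟪F11 I.f p, dx I.f p⟫ * (rinv I.η (detg I.f) p * g12 I.f p)) ?_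
        refine sub_eq_zero.1 (Eq.trans ?_ h0)
        simp only [sub_smul, F11]
        abel
      rw [(nX_spec h1 (detg_pos I h1)).2.2, h1, sub_self, add_zero]
      exact mul_pos (I.B_pos p h1) (pow_pos (norm_pos_iff.2 hn) 2)

/-- The derivatives up to order two are bounded by the seminorm of order two. -/
lemma jet_le_pn {x : R2 → V4} (hx : Smooth2 x) (p : R2) :
    ‖dx x p‖ ≤ pn 2 x ∧ ‖dy x p‖ ≤ pn 2 x ∧ ‖F11 x p‖ ≤ pn 2 x ∧ ‖F12 x p‖ ≤ pn 2 x ∧
      ‖F22 x p‖ ≤ pn 2 x := by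
  have h1 : ∀ (v : R2), ‖v‖ ≤ 1 → ∀ (u : R2 → V4), Smooth2 u → ∀ j,
      pn j (fun q => fderiv ℝ u q v) ≤ pn (j + 1) u := fun v hv u hu j => by
    refine (pn_clm_le hu.fderiv (ContinuousLinearMap.apply ℝ V4 v) j).trans ?_
    refine (mul_le_of_le_one_left (pn_nonneg _ _) ?_).trans (pn_fderiv_le hu j)
    exact ContinuousLinearMap.opNorm_le_bound _ zero_le_one fun T => by
      rw [one_mul]
      exact (T.le_opNorm v).trans (mul_le_of_le_one_right (norm_nonneg _) hv)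
  have ex : ‖((1, 0) : R2)‖ ≤ 1 := by simp
  have ey : ‖((0, 1) : R2)‖ ≤ 1 := by simp
  have sx := Algebra.smooth2_dx hx
  have sy := Algebra.smooth2_dy hx
  have a : ∀ (v : R2), ‖v‖ ≤ 1 → ∀ (w : R2), ‖w‖ ≤ 1 → ∀ u, Smooth2 u →
      (∀ q, u q = fderiv ℝ x q v) → ‖fderiv ℝ u p w‖ ≤ pn 2 x := fun v hv w hw u hu he => by
    refine (norm_le_pn (u := fun q => fderiv ℝ u q w)
      (hu.fderiv.clm (ContinuousLinearMap.apply ℝ V4 w)) 0 p).trans ((h1 w hw u hu 0).trans ?_)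
    rw [pn_congr he 1]
    exact h1 v hv x hx 1
  refine ⟨?_, ?_, a _ ex _ ex _ sx fun _ => rfl, a _ ex _ ey _ sx fun _ => rfl,
    a _ ey _ ey _ sy fun _ => rfl⟩
  · exact (norm_le_pn sx 0 p).trans ((h1 _ ex x hx 0).trans (pn_mono one_le_two x))
  · exact (norm_le_pn sy 0 p).trans ((h1 _ ey x hx 0).trans (pn_mono one_le_two x))

/-- The coefficient of the inverse from bounds on its parts. -/
lemma coef_core {Y T0 T1 T2 u v e δ₁ b₀ C : ℝ} (hδ : 0 < δ₁) (hb : 0 < b₀)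
    (he : 0 ≤ e) (hY : δ₁ ≤ Y) (h2 : b₀ / 2 ≤ T2) (h0 : |T0| ≤ e) (h1 : |T1| ≤ e)
    (hu : |u| ≤ C * Y) (hv : |v| ≤ C * Y) (hs : 12 * e * C ≤ δ₁ * b₀) :
    δ₁ ^ 2 * b₀ / 4 ≤ T0 * u + T2 * Y ^ 2 - 2 * T1 * v := by
  have a0 := mul_le_mul h0 hu (abs_nonneg _) he
  have a1 := mul_le_mul h1 hv (abs_nonneg _) he
  rw [← abs_mul] at a0 a1
  have a2 := mul_le_mul_of_nonneg_right h2 (sq_nonneg Y)
  have hY0 : 0 ≤ Y := hδ.le.trans hY
  have a3 : 3 * e * C * Y ≤ δ₁ * b₀ / 4 * Y := mul_le_mul_of_nonneg_right (by linarith) hY0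
  have a4 : δ₁ * b₀ / 4 * δ₁ ≤ δ₁ * b₀ / 4 * Y := mul_le_mul_of_nonneg_left hY (by positivity)
  have a5 : δ₁ * b₀ / 2 * Y ≤ b₀ / 2 * Y ^ 2 := by
    rw [sq, ← mul_assoc]
    exact mul_le_mul_of_nonneg_right (by nlinarith only [hY, hb]) hY0
  linarith [(abs_le.1 a0).1, (abs_le.1 a1).2]

/-- A kernel line which is nearly the `y` line has normal acceleration. -/
lemma kernel_core {Y t u v δ₁ C : ℝ} (hδ : 0 < δ₁) (hY : δ₁ ≤ Y) (ht : |t| ≤ 1)
    (hs : |t| * (6 * C) ≤ δ₁) (hu : |u| ≤ C * Y) (hv : |v| ≤ C * Y) :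
    0 < Y ^ 2 + 2 * t * v + t ^ 2 * u := by
  have hY0 : 0 ≤ Y := hδ.le.trans hY
  have a1 := mul_le_mul (le_of_eq (show |2 * t| = 2 * |t| by rw [abs_mul, abs_two])) hv
    (abs_nonneg _) (by positivity)
  have a2 := mul_le_mul (show |t ^ 2| ≤ |t| by
    rw [abs_pow, sq]; exact mul_le_of_le_one_left (abs_nonneg t) ht) hu
    (abs_nonneg _) (abs_nonneg t)
  rw [← abs_mul] at a1 a2
  have a3 := mul_le_mul_of_nonneg_right hs hY0
  have a4 : δ₁ * Y ≤ Y * Y := mul_le_mul_of_nonneg_right hY hY0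
  have a5 : 0 < δ₁ * Y := mul_pos hδ (hδ.trans_le hY)
  rw [sq Y]
  linarith [(abs_le.1 a1).1, (abs_le.1 a2).1]

/-- The coefficient as a quadratic expression in the normal part. -/
lemma coefX_eq {F : R2 → V4} {p : R2} (hη : I.η p = 1) (hd : 0 < detg F p) :
    coefX I.η I.hybrid.target F p = rest I F p 0 * ⟪F22 F p, nX I.η F p⟫
      + rest I F p 2 * ‖nX I.η F p‖ ^ 2 - 2 * rest I F p 1 * ⟪F12 F p, nX I.η F p⟫ := by
  rw [← (nX_spec hη hd).2.2]
  simp only [← rest_eq, coefX, Pi.sub_apply]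
  simp [metF]

/-- Everything the step needs of a near map. -/
theorem near_good (ha : ∀ x, 0 ≤ I.a x) {C ε : ℝ} (hC : 0 < C) (hε : 0 < ε) :
    ∃ (n₁ : ℕ) (Z c : ℝ), 0 < Z ∧ 0 < c ∧ ∀ n : ℕ, n₁ ≤ n → ∀ (δ : ℝ) (F : R2 → V4),
      δ ≤ Z → (n : ℝ) * δ ^ 2 ≤ Z → Near I C n δ F →
      (∀ p, c ≤ detg F p + (1 - I.η p)) ∧ ∀ p, I.η p = 1 →
        c ≤ coefX I.η I.hybrid.target F p ∧ 0 < detg F p ∧ 0 < rest I F p 2 ∧
        (∀ i, |rest I F p i - ![(0 : ℝ), 0, I.B p] i| ≤ ε) ∧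
        ∀ t : ℝ, rest I F p 2 * t + rest I F p 1 = 0 →
          F11 F p + (2 * t) • F12 F p + t ^ 2 • F22 F p ∉ Set.range (fderiv ℝ F p) := by
  obtain ⟨C₁, d₀, hC₁, hd₀, hmet⟩ := near_metric I (C := C)
  obtain ⟨n₁, δ₁, ε₀, d₁, hδ₁, hε₀, hd₁, hnor⟩ := near_normal I ha (C := C)
  obtain ⟨b₀, hb₀, hB⟩ := exists_pos_lower (g := fun p => I.B p + (1 - I.η p))
    (I.B_smooth.1.continuous.add (continuous_const.sub I.η_smooth.1.continuous))
    ⟨fun p => by simp only [I.B_smooth.2.1, I.η_smooth.2.1],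
      fun p => by simp only [I.B_smooth.2.2, I.η_smooth.2.2]⟩
    (fun p => by
      rcases (I.η_le p).lt_or_eq with h | h
      · linarith [I.B_nonneg p]
      · linarith [I.B_pos p h])
  obtain ⟨Z, hZ, z1, z2, z3, z4, z5, z6⟩ : ∃ Z > 0, Z ≤ 1 ∧ Z ≤ ε₀ ∧ (C₁ + 1) * Z ≤ ε ∧
      (C₁ + 1) * Z ≤ b₀ / 2 ∧ (C₁ + 1) * Z ≤ d₀ / 2 ∧
      12 * (C₁ + 1) * C * Z ≤ δ₁ * b₀ := by
    refine ⟨min (min (min 1 ε₀) (min (ε / (C₁ + 1)) (b₀ / 2 / (C₁ + 1))))
      (min (d₀ / 2 / (C₁ + 1)) (δ₁ * b₀ / (12 * (C₁ + 1) * C))), by positivity,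
      ?_, ?_, ?_, ?_, ?_, ?_⟩
    · exact (min_le_left _ _).trans ((min_le_left _ _).trans (min_le_left _ _))
    · exact (min_le_left _ _).trans ((min_le_left _ _).trans (min_le_right _ _))
    · rw [mul_comm, ← le_div_iff₀ (by positivity)]
      exact (min_le_left _ _).trans ((min_le_right _ _).trans (min_le_left _ _))
    · rw [mul_comm, ← le_div_iff₀ (by positivity)]
      exact (min_le_left _ _).trans ((min_le_right _ _).trans (min_le_right _ _))
    · rw [mul_comm, ← le_div_iff₀ (by positivity)]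
      exact (min_le_right _ _).trans (min_le_left _ _)
    · rw [mul_comm, ← le_div_iff₀ (by positivity)]
      exact (min_le_right _ _).trans (min_le_right _ _)
  refine ⟨n₁, Z, min (d₀ / 2) (δ₁ ^ 2 * b₀ / 4), hZ, by positivity,
    fun n hn δ F hδZ hnδ hF => ?_⟩
  have hδ0 : 0 ≤ δ := (norm_nonneg _).trans (hF.near_x 0)
  have he : 0 ≤ C₁ * δ := mul_nonneg hC₁ hδ0
  have heZ : C₁ * δ ≤ (C₁ + 1) * Z := mul_le_mul (by linarith) hδZ hδ0 (by linarith)
  refine ⟨fun p => (min_le_left _ _).trans ?_, fun p hp => ?_⟩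
  · linarith [(hmet n δ F (hδZ.trans z1) hF p).2]
  obtain ⟨h1, h2⟩ := hnor n hn δ F (hδZ.trans z2) (hnδ.trans z2) hF p hp
  obtain ⟨hr, -⟩ := hmet n δ F (hδZ.trans z1) hF p
  have hd : 0 < detg F p := hd₁.trans_le h1
  have h3 : b₀ / 2 ≤ rest I F p 2 := by
    have h := hr 2
    simp only [Matrix.cons_val] at h
    have hBp := hB p
    rw [hp, sub_self, add_zero] at hBp
    linarith [(abs_le.1 h).1]
  have h5 : |rest I F p 0| ≤ C₁ * δ := by simpa using hr 0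
  have h6 : |rest I F p 1| ≤ C₁ * δ := by simpa using hr 1
  have i22 : |⟪F22 F p, nX I.η F p⟫| ≤ C * ‖nX I.η F p‖ :=
    (abs_real_inner_le_norm _ _).trans (mul_le_mul_of_nonneg_right (hF.bdd_yy p) (norm_nonneg _))
  have i12 : |⟪F12 F p, nX I.η F p⟫| ≤ C * ‖nX I.η F p‖ :=
    (abs_real_inner_le_norm _ _).trans (mul_le_mul_of_nonneg_right (hF.bdd_xy p) (norm_nonneg _))
  have hs : 12 * (C₁ * δ) * C ≤ δ₁ * b₀ := by
    have := mul_le_mul_of_nonneg_right heZ (show 0 ≤ 12 * C by positivity)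
    linarith
  refine ⟨?_, hd, by linarith, fun i => (hr i).trans (heZ.trans z3), ?_⟩
  · rw [coefX_eq I hp hd]
    exact (min_le_right _ _).trans (coef_core hδ₁ hb₀ he h2 h3 h5 h6 i22 i12 hs)
  rintro t ht ⟨u, hu⟩
  obtain ⟨oA, oB, oY⟩ := nX_spec hp hd
  have hzero : ⟪F11 F p + (2 * t) • F12 F p + t ^ 2 • F22 F p, nX I.η F p⟫ = 0 := by
    rw [← hu, Bridge.fderiv_apply_eq, inner_add_left, real_inner_smul_left, real_inner_smul_left,
      oA, oB, mul_zero, mul_zero, add_zero]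
  rw [inner_add_left, inner_add_left, real_inner_smul_left, real_inner_smul_left, oY] at hzero
  have ht' : |t| * (b₀ / 2) ≤ C₁ * δ := by
    refine le_trans (mul_le_mul_of_nonneg_left h3 (abs_nonneg t)) (le_of_eq_of_le ?_ h6)
    rw [← abs_neg (rest I _ p 1), ← eq_neg_of_add_eq_zero_left ht, abs_mul,
      abs_of_nonneg (show 0 ≤ rest I F p 2 by linarith), mul_comm]
  have ht1 : |t| ≤ 1 := le_of_mul_le_mul_right
    ((ht'.trans (heZ.trans z4)).trans_eq (one_mul _).symm) (by linarith)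
  have hsmall : |t| * (6 * C) ≤ δ₁ := by
    refine le_of_mul_le_mul_right ?_ hb₀
    have h := mul_le_mul_of_nonneg_right (ht'.trans heZ) (show 0 ≤ 12 * C by positivity)
    linarith
  exact (kernel_core hδ₁ h2 ht1 hsmall i22 i12).ne' hzero

/-- Near maps stay near under a change small with two derivatives. -/
lemma near_add {C r : ℝ} {n : ℕ} {δ : ℝ} {F x : R2 → V4} (hF : Smooth2 F) (hx : Smooth2 x)
    (h : Near I C n δ F) (hr : pn 2 x ≤ r) (hr1 : r ≤ 1) :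
    Near I (C + 1) n (δ + r) (fun z => F z + x z) := by
  have hj := fun p => jet_le_pn hx p
  have sdx := Algebra.smooth2_dx hF
  have sdy := Algebra.smooth2_dy hF
  have hdx : dx (fun z => F z + x z) = fun p => dx F p + dx x p :=
    funext fun p => Algebra.dx_add hF hx p
  have hdy : dy (fun z => F z + x z) = fun p => dy F p + dy x p :=
    funext fun p => Algebra.dy_add hF hx p
  refine ⟨fun p => ?_, fun p => ?_, fun p => ?_, fun p => ?_, fun p => ?_⟩
  · rw [hdx, add_sub_right_comm]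
    exact (norm_add_le _ _).trans (add_le_add (h.near_x p) ((hj p).1.trans hr))
  · rw [hdy, add_sub_right_comm]
    exact (norm_add_le _ _).trans (add_le_add (h.near_y p) ((hj p).2.1.trans hr))
  · rw [show F11 (fun z => F z + x z) p = F11 F p + F11 x p by
      show dx (dx _) p = _
      rw [hdx]; exact Algebra.dx_add sdx (Algebra.smooth2_dx hx) p, add_sub_right_comm]
    exact (norm_add_le _ _).trans (add_le_add (h.near_xx p) ((hj p).2.2.1.trans hr))
  · rw [show F12 (fun z => F z + x z) p = F12 F p + F12 x p by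
      show dy (dx _) p = _
      rw [hdx]; exact Algebra.dy_add sdx (Algebra.smooth2_dx hx) p]
    exact (norm_add_le _ _).trans (add_le_add (h.bdd_xy p) ((hj p).2.2.2.1.trans (hr.trans hr1)))
  · rw [show F22 (fun z => F z + x z) p = F22 F p + F22 x p by
      show dy (dy _) p = _
      rw [hdy]; exact Algebra.dy_add sdy (Algebra.smooth2_dy hx) p]
    exact (norm_add_le _ _).trans (add_le_add (h.bdd_yy p) ((hj p).2.2.2.2.trans (hr.trans hr1)))

/-- The coefficient off the support of the amplitude, for a map equal to `f` there. -/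
lemma coefX_off {F : R2 → V4} {p : R2} (hp : p ∉ I.K) (hev : F =ᶠ[𝓝 p] I.f) :
    coefX I.η I.hybrid.target F p = I.B p * ⟪F11 I.f p, nX I.η I.f p⟫ := by
  have hd1 : dx F =ᶠ[𝓝 p] dx I.f := hev.fderiv.mono fun z hz => congrArg (fun T : R2 →L[ℝ] V4 => T (1, 0)) hz
  have hd2 : dy F =ᶠ[𝓝 p] dy I.f := hev.fderiv.mono fun z hz => congrArg (fun T : R2 →L[ℝ] V4 => T (0, 1)) hz
  have e11 : F11 F p = F11 I.f p := by
    show fderiv ℝ (dx F) p (1, 0) = fderiv ℝ (dx I.f) p (1, 0)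
    rw [hd1.fderiv_eq]
  simp [coefX, nX, v1, v2, rinv, detg, g11, g12, g22, e11, hd1.eq_of_nhds, hd2.eq_of_nhds,
    WKB.Hybrid.target, HybridData.Input.hybrid, I.a_zero p hp]

/-- The hybrid step on the periodic plane. -/
theorem periodicStatement : PeriodicStatement := by
  intro I radial ε hrad hrK hsub ha hε
  obtain ⟨C, hlow⟩ := I.hybrid.diag_low
  obtain ⟨Kb, E, hbnd⟩ := I.hybrid.diag_bounds
  obtain ⟨C', hC', hCC⟩ : ∃ C', (0 : ℝ) < C' ∧ C ≤ C' := ⟨|C| + 1, by positivity,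
    (le_abs_self C).trans (le_add_of_nonneg_right zero_le_one)⟩
  obtain ⟨n₁, Z, c, hZ, hc, hgood⟩ := near_good I ha (C := C' + 1) (by linarith) hε
  obtain ⟨c₀, hc₀, hcoef⟩ := exists_coef_lower I
  obtain ⟨n₂, hn₂, hdiag⟩ := hlow (min 1 Z / 4) (by positivity)
  obtain ⟨a, q, L₀, hcorr⟩ := scalar_correction Kb I.η_smooth I.η_le
    (O := interior {q | I.η q = 1}) isOpen_interior
    (fun p hp => (interior_subset hp : p ∈ {q | I.η q = 1})) hrad one_pos
    (fun p hp => hsub p (by linarith)) I.hybrid.smooth2_target 2 1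
  obtain ⟨E', hE'⟩ : ∃ E' : ℕ → ℝ, ∀ N, E' N = ∑ i ∈ Finset.range (a + 1), |E i N| :=
    ⟨_, fun _ => rfl⟩
  obtain ⟨G', hG'⟩ := hcorr E'
  obtain ⟨n₃, hn₃⟩ := exists_nat_ge (max (max L₀ (4 / min 1 Z))
    (max (E' (q + 1)) (max (1 / c) (1 / c₀))))
  simp only [max_le_iff] at hn₃
  obtain ⟨⟨m1, m2⟩, m3, m4, m5⟩ := hn₃
  obtain ⟨n, hn⟩ : ∃ n, n = max (max n₁ n₂) n₃ := ⟨_, rfl⟩
  have hnn : n₁ ≤ n ∧ n₂ ≤ n ∧ n₃ ≤ n := by omega
  have hn1 : (1 : ℝ) ≤ n := by exact_mod_cast hn₂.trans hnn.2.1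
  have hn3 : (n₃ : ℝ) ≤ n := Nat.cast_le.2 hnn.2.2
  have hn0 : (0 : ℝ) < n := by linarith
  have hr0 : 0 ≤ (n : ℝ)⁻¹ := by positivity
  have hr1 : (n : ℝ)⁻¹ ≤ 1 := inv_le_one_of_one_le₀ hn1
  have hrZ : (n : ℝ)⁻¹ ≤ min 1 Z / 4 := by
    rw [inv_le_comm₀ hn0 (by positivity), inv_div]
    exact m2.trans hn3
  have hinv : ∀ {x : ℝ}, 0 < x → 1 / x ≤ (n₃ : ℝ) → (n : ℝ)⁻¹ ≤ x := fun hx h => by
    rw [one_div] at h
    exact (inv_le_comm₀ hn0 hx).2 (h.trans hn3)
  have hZ1 := min_le_right 1 Z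
  have hZ1' := min_le_left 1 Z
  obtain ⟨δ, hδ0, hδZ, hnδ, hd⟩ := hdiag n hnn.2.1
  obtain ⟨F, hF⟩ : ∃ F, F = I.hybrid.diag n := ⟨_, rfl⟩
  have hFs : Smooth2 F := hF ▸ I.hybrid.smooth2_diag n
  rw [← hF] at hd
  have hnear : Near I C' n δ F := ⟨fun p => (hd p).1, fun p => (hd p).2.1, fun p => (hd p).2.2.1,
    fun p => (hd p).2.2.2.1.trans hCC, fun p => (hd p).2.2.2.2.trans hCC⟩
  have hnear' : Near I (C' + 1) n δ F := ⟨hnear.near_x, hnear.near_y, hnear.near_xx,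
    fun p => (hnear.bdd_xy p).trans (by linarith), fun p => (hnear.bdd_yy p).trans (by linarith)⟩
  obtain ⟨g1, g2⟩ := hgood n hnn.1 δ F (by linarith) (by linarith) hnear'
  have hoff : ∀ p ∉ I.K, F =ᶠ[𝓝 p] I.f := fun p hp =>
    Filter.eventually_of_mem (I.K_closed.isOpen_compl.mem_nhds hp)
      fun z hz => hF ▸ I.hybrid.diag_off n hz
  obtain ⟨hbK, hbE⟩ := hbnd n (hn₂.trans hnn.2.1)
  rw [← hF] at hbK hbE
  have hEb : ∀ N, ∀ i ≤ a, pn i (fun p => rdet (I.hybrid.target p - metF F p))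
      * (n : ℝ) ^ N ≤ E' N := fun N i hi => by
    rw [hE']
    exact (hbE i N).trans ((le_abs_self _).trans (Finset.single_le_sum
      (f := fun i => |E i N|) (fun j _ => abs_nonneg _) (Finset.mem_range.2 (by omega))))
  obtain ⟨x, hx, hx0, hxm, -, hxe⟩ := hG' n (m1.trans hn3) F hFs hbK
    (fun p hp => by
      have hpK : p ∉ I.K := fun h => by
        rw [one_mul, one_div] at hp
        linarith [hrK p h]
      rw [rest_eq, rest, Bridge.metF_congr (hoff p hpK)]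
      simp [rdet, metF, I.a_zero p hpK])
    (fun p => (hinv hc m4).trans (g1 p))
    (fun p => by
      by_cases hp : p ∈ I.K
      · rw [I.η_one p hp, sub_self, add_zero]
        exact (hinv hc m4).trans (g2 p (I.η_one p hp)).1
      · rw [coefX_off I hp (hoff p hp)]
        exact (hinv hc₀ m5).trans (hcoef p))
    (fun i hi => by
      refine le_of_mul_le_mul_right ?_ hn0
      rw [one_mul, mul_assoc, ← pow_succ]
      exact (hEb _ i hi).trans (m3.trans hn3))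
    hEb
  rw [pow_one] at hxm
  have hnG := near_add I hFs hx hnear hxm hr1
  have hnδ' : (n : ℝ) * (δ + (n : ℝ)⁻¹) ^ 2 ≤ Z := by
    have e : (n : ℝ) * (δ + (n : ℝ)⁻¹) ^ 2 = n * δ ^ 2 + 2 * δ * ((n : ℝ) * (n : ℝ)⁻¹)
        + (n : ℝ)⁻¹ * ((n : ℝ) * (n : ℝ)⁻¹) := by ring
    rw [e, mul_inv_cancel₀ hn0.ne']
    linarith
  obtain ⟨-, g2'⟩ := hgood n hnn.1 _ _ (by linarith) hnδ' hnG
  refine ⟨fun z => F z + x z, hFs.add hx, fun p hp => ?_, fun p hp => ?_⟩
  · have hpK : p ∉ I.K := fun h => by linarith [hrK p h]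
    show F p + x p = I.f p
    rw [hx0 p (by linarith), add_zero, (hoff p hpK).eq_of_nhds]
  · obtain ⟨-, h1, h2, h3, h4⟩ := g2' p hp
    exact ⟨h1, by rw [← rest_eq]; exact hxe p, h2, h3, h4⟩

end

end Vale.Agent.P205.HybridPlane
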