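import Vale.Agent.P205.Full.HybridAdapter
import Vale.Agent.P205.Full.HybridPeriodic

/-!
# P205: the hybrid step
-/

namespace Vale.Agent.P205.Full

/-- The hybrid step. -/
theorem hybridStatement : HybridStatement :=
  HybridAdapter.hybridStatement_of_periodic HybridPlane.periodicStatement

end Vale.Agent.P205.Full
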