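import Mathlib
import Vale.Agent.P205.Full.ParamInt

/-!
# P205: the loop family

A parameter `((u, E), c)` consists of a narrow swing `u`, a wide swing `E` and a target mean `c`.
The point `zv` runs back and forth on the unit circle with phase
`2 arctan (u S / √(1 + u² C²)) + E S`, where `S, C` are the sine and cosine of `2 π τ`.
On the open set `Good` of parameters there is exactly one `beta` so that the density
`exp ⟪beta, zv - c⟫` gives the mean `c`; reparametrising by it gives a smooth periodic loop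
with mean `c`. For `E = 0` and `c = (1 / (1 + u²), 0)` the loop is `zv` itself, also at `u = 0`.
-/

namespace Vale.Agent.P205.LoopFamily

open scoped ContDiff Topology
open intervalIntegral MeasureTheory Filter

noncomputable section

/-- The parameters `((u, E), c)`. -/
abbrev Par : Type := (ℝ × ℝ) × (ℝ × ℝ)

/-- The pairing of the plane with itself. -/
def dot (v w : ℝ × ℝ) : ℝ := v.1 * w.1 + v.2 * w.2

/-- The pairing with a fixed vector. -/
def dotL (v : ℝ × ℝ) : ℝ × ℝ →L[ℝ] ℝ :=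
  v.1 • ContinuousLinearMap.fst ℝ ℝ ℝ + v.2 • ContinuousLinearMap.snd ℝ ℝ ℝ

lemma dotL_apply (v w : ℝ × ℝ) : dotL v w = dot v w := rfl

/-- The sine wave. -/
def sn (τ : ℝ) : ℝ := Real.sin (2 * Real.pi * τ)

/-- The cosine wave. -/
def cs (τ : ℝ) : ℝ := Real.cos (2 * Real.pi * τ)

/-- The denominator in the narrow phase. -/
def den (u τ : ℝ) : ℝ := √(1 + u ^ 2 * cs τ ^ 2)

/-- The phase. -/
def ang (y : Par) (τ : ℝ) : ℝ :=
  2 * Real.arctan (y.1.1 * sn τ / den y.1.1 τ) + y.1.2 * sn τ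

/-- The point of the circle. -/
def zv (y : Par) (τ : ℝ) : ℝ × ℝ := (Real.cos (ang y τ), Real.sin (ang y τ))

/-- The unnormalised density. -/
def wt (p : Par × (ℝ × ℝ)) (τ : ℝ) : ℝ := Real.exp (dot p.2 (zv p.1 τ - p.1.2))

/-- The total density. -/
def hI (p : Par × (ℝ × ℝ)) : ℝ := ∫ τ in (0 : ℝ)..1, wt p τ

/-- The defect of the mean. -/
def defect (p : Par × (ℝ × ℝ)) : ℝ × ℝ := ∫ τ in (0 : ℝ)..1, wt p τ • (zv p.1 τ - p.1.2)

/-- The target lies in the interior of the convex hull of the arc. -/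
def Good (y : Par) : Prop := ∀ ξ : ℝ × ℝ, ξ ≠ 0 → ∃ τ, 0 < dot ξ (zv y τ - y.2)

lemma den_pos (u τ : ℝ) : 0 < den u τ := Real.sqrt_pos.2 (by positivity)

lemma den_sq (u τ : ℝ) : den u τ ^ 2 = 1 + u ^ 2 * cs τ ^ 2 := Real.sq_sqrt (by positivity)

lemma sn_sq_add (τ : ℝ) : sn τ ^ 2 + cs τ ^ 2 = 1 := Real.sin_sq_add_cos_sq _

lemma sn_one (τ : ℝ) : sn (τ + 1) = sn τ := by
  rw [sn, sn, show 2 * Real.pi * (τ + 1) = 2 * Real.pi * τ + 2 * Real.pi by ring,
    Real.sin_add_two_pi]

lemma cs_one (τ : ℝ) : cs (τ + 1) = cs τ := by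
  rw [cs, cs, show 2 * Real.pi * (τ + 1) = 2 * Real.pi * τ + 2 * Real.pi by ring,
    Real.cos_add_two_pi]

lemma zv_periodic (y : Par) : Function.Periodic (zv y) 1 := fun τ => by
  simp only [zv, ang, den, sn_one, cs_one]

lemma wt_periodic (p : Par × (ℝ × ℝ)) : Function.Periodic (wt p) 1 := fun τ => by
  simp only [wt, zv_periodic p.1 τ]

lemma contDiff_ang : ContDiff ℝ ∞ fun q : Par × ℝ => ang q.1 q.2 := by
  have hl : ContDiff ℝ ∞ fun q : Par × ℝ => 2 * Real.pi * q.2 := contDiff_const.mul contDiff_snd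
  have hu : ContDiff ℝ ∞ fun q : Par × ℝ => q.1.1.1 := contDiff_fst.fst.fst
  have hs : ContDiff ℝ ∞ fun q : Par × ℝ => sn q.2 := Real.contDiff_sin.comp hl
  have hc : ContDiff ℝ ∞ fun q : Par × ℝ => cs q.2 := Real.contDiff_cos.comp hl
  have hd : ContDiff ℝ ∞ fun q : Par × ℝ => den q.1.1.1 q.2 :=
    (contDiff_const.add ((hu.pow 2).mul (hc.pow 2))).sqrt fun q => by positivity
  exact (contDiff_const.mul (Real.contDiff_arctan.comp
    ((hu.mul hs).div hd fun q => (den_pos _ _).ne'))).add (contDiff_fst.fst.snd.mul hs)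

lemma contDiff_zv : ContDiff ℝ ∞ fun q : Par × ℝ => zv q.1 q.2 :=
  (Real.contDiff_cos.comp contDiff_ang).prodMk (Real.contDiff_sin.comp contDiff_ang)

lemma contDiff_center :
    ContDiff ℝ ∞ fun q : (Par × (ℝ × ℝ)) × ℝ => zv q.1.1 q.2 - q.1.1.2 :=
  (contDiff_zv.comp (contDiff_fst.fst.prodMk contDiff_snd)).sub contDiff_fst.fst.snd

lemma contDiff_wt : ContDiff ℝ ∞ fun q : (Par × (ℝ × ℝ)) × ℝ => wt q.1 q.2 :=
  Real.contDiff_exp.comp ((contDiff_fst.snd.fst.mul contDiff_center.fst).add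
    (contDiff_fst.snd.snd.mul contDiff_center.snd))

lemma contDiff_hI : ContDiff ℝ ∞ hI := ParamInt.contDiff_integral01 contDiff_wt

lemma contDiff_defect : ContDiff ℝ ∞ defect :=
  ParamInt.contDiff_integral01 (contDiff_wt.smul contDiff_center)

lemma wt_pos (p : Par × (ℝ × ℝ)) (τ : ℝ) : 0 < wt p τ := Real.exp_pos _

attribute [local irreducible] ang zv wt

lemma continuous_ang (y : Par) : Continuous (ang y) := by
  have h := contDiff_ang.continuous.comp (Continuous.prodMk_right y)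
  exact h

lemma continuous_zv (y : Par) : Continuous (zv y) := by
  have h := contDiff_zv.continuous.comp (Continuous.prodMk_right y)
  exact h

lemma continuous_wt (p : Par × (ℝ × ℝ)) : Continuous (wt p) := by
  have h := contDiff_wt.continuous.comp (Continuous.prodMk_right p)
  exact h

lemma hI_pos (p : Par × (ℝ × ℝ)) : 0 < hI p :=
  intervalIntegral_pos_of_pos ((continuous_wt p).intervalIntegrable 0 1) (wt_pos p) one_pos

lemma dot_defect (v : ℝ × ℝ) (p : Par × (ℝ × ℝ)) :
    dot v (defect p) = ∫ τ in (0 : ℝ)..1, wt p τ * dot v (zv p.1 τ - p.1.2) := by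
  have hc : Continuous fun τ => wt p τ • (zv p.1 τ - p.1.2) :=
    (continuous_wt p).smul ((continuous_zv p.1).sub continuous_const)
  rw [← dotL_apply, defect, ← (dotL v).intervalIntegral_comp_comm (hc.intervalIntegrable 0 1)]
  exact integral_congr fun τ _ => by simp [dotL_apply]

section Derivatives

variable {V : Type} [NormedAddCommGroup V] [NormedSpace ℝ V] [CompleteSpace V]

/-- Differentiation under the integral along a line. -/
lemma hasDerivAt_integral01 {G : ℝ × ℝ → V} (hG : ContDiff ℝ 1 G) {G' : ℝ → V} {t : ℝ}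
    (h : ∀ τ, HasDerivAt (fun s => G (s, τ)) (G' τ) t) :
    HasDerivAt (fun s => ∫ τ in (0 : ℝ)..1, G (s, τ)) (∫ τ in (0 : ℝ)..1, G' τ) t := by
  have hd : Continuous fun τ : ℝ =>
      (fderiv ℝ G (t, τ)).comp (ContinuousLinearMap.inl ℝ ℝ ℝ) :=
    ((hG.continuous_fderiv one_ne_zero).comp (Continuous.prodMk_right t)).clm_comp continuous_const
  refine (ParamInt.hasFDerivAt_integral01 hG t).hasDerivAt.congr_deriv ?_
  rw [ContinuousLinearMap.intervalIntegral_apply (hd.intervalIntegrable 0 1)]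
  refine integral_congr fun τ _ => ?_
  exact (((hG.differentiable one_ne_zero).differentiableAt.hasFDerivAt).comp_hasDerivAt t
    ((hasDerivAt_id t).prodMk (hasDerivAt_const t τ))).unique (h τ)

end Derivatives

lemma hasDerivAt_wt (y : Par) (β v : ℝ × ℝ) (τ : ℝ) :
    HasDerivAt (fun t : ℝ => wt (y, β + t • v) τ)
      (wt (y, β) τ * dot v (zv y τ - y.2)) 0 := by
  have h : HasDerivAt (fun t : ℝ => dot β (zv y τ - y.2) + t * dot v (zv y τ - y.2))
      (dot v (zv y τ - y.2)) 0 := by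
    simpa using ((hasDerivAt_id (0 : ℝ)).mul_const (dot v (zv y τ - y.2))).const_add
      (dot β (zv y τ - y.2))
  convert h.exp using 1
  · funext t
    simp only [wt, dot, Prod.fst_add, Prod.snd_add, Prod.smul_fst, Prod.smul_snd, smul_eq_mul]
    congr 1
    ring
  · simp [wt]

lemma contDiff_line (y : Par) (β v : ℝ × ℝ) :
    ContDiff ℝ ∞ fun q : ℝ × ℝ => ((y, β + q.1 • v), q.2) :=
  (contDiff_const.prodMk (contDiff_const.add (contDiff_fst.smul contDiff_const))).prodMk contDiff_snd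

lemma hasDerivAt_hI (y : Par) (β v : ℝ × ℝ) :
    HasDerivAt (fun t : ℝ => hI (y, β + t • v)) (dot v (defect (y, β))) 0 := by
  rw [dot_defect]
  exact hasDerivAt_integral01 (G := fun q => wt (y, β + q.1 • v) q.2)
    ((contDiff_wt.comp (contDiff_line y β v)).of_le (by exact_mod_cast le_top))
    (hasDerivAt_wt y β v)

lemma hasDerivAt_defect (y : Par) (β v : ℝ × ℝ) :
    HasDerivAt (fun t : ℝ => defect (y, β + t • v))
      (∫ τ in (0 : ℝ)..1, (wt (y, β) τ * dot v (zv y τ - y.2)) • (zv y τ - y.2)) 0 :=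
  hasDerivAt_integral01 (G := fun q => wt (y, β + q.1 • v) q.2 • (zv y q.2 - y.2))
    (((contDiff_wt.smul contDiff_center).comp (contDiff_line y β v)).of_le
      (by exact_mod_cast le_top))
    fun τ => (hasDerivAt_wt y β v τ).smul_const (zv y τ - y.2)

/-- A periodic continuous nonnegative function that is somewhere positive has positive integral. -/
lemma integral01_pos {g : ℝ → ℝ} (hc : Continuous g) (hp : Function.Periodic g 1)
    (h0 : ∀ τ, 0 ≤ g τ) {τ : ℝ} (hτ : 0 < g τ) : 0 < ∫ s in (0 : ℝ)..1, g s := by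
  refine intervalIntegral.integral_pos one_pos hc.continuousOn (fun s _ => h0 s)
    ⟨Int.fract τ, ⟨Int.fract_nonneg τ, (Int.fract_lt_one τ).le⟩, ?_⟩
  have e := hp.sub_zsmul_eq (x := τ) ⌊τ⌋
  simp only [zsmul_one, Int.self_sub_floor] at e
  rwa [e]

lemma integral_dot_sq_pos {y : Par} (hy : Good y) (β : ℝ × ℝ) {v : ℝ × ℝ} (hv : v ≠ 0) :
    0 < ∫ τ in (0 : ℝ)..1, wt (y, β) τ * dot v (zv y τ - y.2) ^ 2 := by
  obtain ⟨τ, hτ⟩ := hy v hv
  refine integral01_pos ?_ (fun s => ?_) (fun s => mul_nonneg (wt_pos _ s).le (sq_nonneg _))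
    (mul_pos (wt_pos _ τ) (pow_pos hτ 2))
  · exact (continuous_wt _).mul ((((dotL v).continuous.comp
      ((continuous_zv y).sub continuous_const))).pow 2)
  · simp only [wt_periodic (y, β) s, zv_periodic y s]

section Implicit

variable {A B : Type} [NormedAddCommGroup A] [NormedSpace ℝ A] [FiniteDimensional ℝ A]
  [NormedAddCommGroup B] [NormedSpace ℝ B] [FiniteDimensional ℝ B]

/-- The implicit function theorem, for an injective partial derivative. -/
lemma exists_implicit {G : A × B → B} (hG : ContDiff ℝ ∞ G) (p : A × B)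
    (hinj : ∀ v, fderiv ℝ G p (0, v) = 0 → v = 0) :
    ∃ g : A → B, ContDiffAt ℝ ∞ g p.1 ∧ g p.1 = p.2 ∧ ∀ᶠ a in 𝓝 p.1, G (a, g a) = G p := by
  have hd : HasFDerivAt (fun q : A × B => (q.1, G q))
      ((ContinuousLinearMap.fst ℝ A B).prod (fderiv ℝ G p)) p :=
    hasFDerivAt_fst.prodMk (hG.differentiable (by simp)).differentiableAt.hasFDerivAt
  obtain ⟨L, hL⟩ : ∃ L : A × B →ₗ[ℝ] A × B,
      L = ↑((ContinuousLinearMap.fst ℝ A B).prod (fderiv ℝ G p)) := ⟨_, rfl⟩
  have hi : Function.Injective L := by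
    rw [injective_iff_map_eq_zero]
    rintro ⟨a, v⟩ h
    simp only [hL, ContinuousLinearMap.coe_coe, ContinuousLinearMap.prod_apply,
      ContinuousLinearMap.coe_fst', Prod.mk_eq_zero] at h
    obtain ⟨rfl, h2⟩ := h
    rw [hinj v h2]
    rfl
  obtain ⟨e, he⟩ : ∃ e : (A × B) ≃L[ℝ] (A × B), ∀ q, e q = L q :=
    ⟨(LinearEquiv.ofInjectiveEndo L hi).toContinuousLinearEquiv, fun _ => rfl⟩
  have hd' : HasFDerivAt (fun q : A × B => (q.1, G q)) (e : A × B →L[ℝ] A × B) p :=
    hd.congr_fderiv (ContinuousLinearMap.ext fun q => by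
      rw [ContinuousLinearEquiv.coe_coe, he, hL]; rfl)
  have hf : ContDiffAt ℝ ∞ (fun q : A × B => (q.1, G q)) p :=
    (contDiff_fst.prodMk hG).contDiffAt
  have hs := hf.hasStrictFDerivAt' hd' (by simp)
  refine ⟨fun a => (hs.localInverse _ _ _ (a, G p)).2, ?_, ?_, ?_⟩
  · exact ContDiffAt.comp p.1 (g := fun z : A × B => (hs.localInverse _ _ _ z).2)
      (f := fun a : A => (a, G p)) (hf.to_localInverse hd' (by simp)).snd
      (contDiffAt_id.prodMk contDiffAt_const)
  · exact congrArg Prod.snd hs.localInverse_apply_image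
  · have hr := hs.eventually_right_inverse
    have hcont : Tendsto (fun a : A => (a, G p)) (𝓝 p.1) (𝓝 (p.1, G p)) :=
      (Continuous.prodMk_left (G p)).tendsto p.1
    filter_upwards [hcont.eventually hr] with a ha
    have h1 := congrArg Prod.fst ha
    have h2 := congrArg Prod.snd ha
    simp only at h1 h2
    rw [show (a, (hs.localInverse _ _ _ (a, G p)).2) = hs.localInverse _ _ _ (a, G p) from
      Prod.ext h1.symm rfl]
    exact h2

end Implicit

/-! ### The exponential tilt -/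

lemma defect_unique {y : Par} (hy : Good y) {β γ : ℝ × ℝ} (hβ : defect (y, β) = 0)
    (hγ : defect (y, γ) = 0) : β = γ := by
  by_contra hne
  obtain ⟨τ, hτ⟩ := hy (β - γ) (sub_ne_zero.2 hne)
  have hc : ∀ δ, Continuous fun s => wt (y, δ) s * dot (β - γ) (zv y s - y.2) := fun δ =>
    (continuous_wt _).mul ((dotL (β - γ)).continuous.comp
      ((continuous_zv y).sub continuous_const))
  have h0 : (∫ s in (0 : ℝ)..1, (wt (y, β) s * dot (β - γ) (zv y s - y.2) -
      wt (y, γ) s * dot (β - γ) (zv y s - y.2))) = 0 := by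
    rw [intervalIntegral.integral_sub ((hc β).intervalIntegrable 0 1)
      ((hc γ).intervalIntegrable 0 1), ← dot_defect (β - γ) (y, β), ← dot_defect (β - γ) (y, γ),
      hβ, hγ, sub_self]
  have hd : ∀ s, dot (β - γ) (zv y s - y.2) =
      dot β (zv y s - y.2) - dot γ (zv y s - y.2) := fun s => by
    simp only [dot, Prod.fst_sub, Prod.snd_sub]; ring
  refine (integral01_pos ((hc β).sub (hc γ)) (fun s => ?_) (fun s => ?_) (τ := τ) ?_).ne' h0
  · simp only [Pi.sub_apply, wt_periodic _ s, zv_periodic y s]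
  · simp only [Pi.sub_apply, ← sub_mul]
    rcases le_total (dot β (zv y s - y.2)) (dot γ (zv y s - y.2)) with h | h
    · exact mul_nonneg_of_nonpos_of_nonpos (sub_nonpos.2 (by simpa [wt] using h))
        (by rw [hd]; linarith)
    · exact mul_nonneg (sub_nonneg.2 (by simpa [wt] using h)) (by rw [hd]; linarith)
  · simp only [Pi.sub_apply, ← sub_mul]
    exact mul_pos (sub_pos.2 (by simp only [wt, Real.exp_lt_exp]; rw [hd] at hτ; linarith)) hτ

lemma hI_coercive {y : Par} (hy : Good y) :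
    ∃ κ > 0, ∀ β, κ * ‖β‖ ≤ hI (y, β) := by
  obtain ⟨g, hg⟩ : ∃ g : ℝ × ℝ → ℝ,
      g = fun ξ => ∫ τ in (0 : ℝ)..1, max (dot ξ (zv y τ - y.2)) 0 := ⟨_, rfl⟩
  have hcont : ∀ ξ, Continuous fun τ => max (dot ξ (zv y τ - y.2)) 0 := fun ξ =>
    ((dotL ξ).continuous.comp ((continuous_zv y).sub continuous_const)).max continuous_const
  have hgc : Continuous g := by
    rw [hg]
    refine continuous_parametric_intervalIntegral_of_continuous' ?_ 0 1
    have hz : Continuous fun q : (ℝ × ℝ) × ℝ => zv y q.2 := (continuous_zv y).comp continuous_snd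
    unfold Function.uncurry dot
    fun_prop
  obtain ⟨ξ, hξ, hmin⟩ := (isCompact_sphere (0 : ℝ × ℝ) 1).exists_isMinOn
    (NormedSpace.sphere_nonempty.2 zero_le_one) hgc.continuousOn
  have hξ0 : ξ ≠ 0 := fun h => by simp [h] at hξ
  have hpos : 0 < g ξ := by
    obtain ⟨τ, hτ⟩ := hy ξ hξ0
    rw [hg]
    exact integral01_pos (hcont ξ) (fun s => by simp only [zv_periodic y s])
      (fun s => le_max_right _ _) (τ := τ) (lt_max_of_lt_left hτ)
  refine ⟨g ξ, hpos, fun β => ?_⟩
  rcases eq_or_ne β 0 with rfl | hβ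
  · simpa using (hI_pos (y, 0)).le
  have hs : ‖β‖⁻¹ • β ∈ Metric.sphere (0 : ℝ × ℝ) 1 := by
    rw [mem_sphere_zero_iff_norm, norm_smul, norm_inv, norm_norm,
      inv_mul_cancel₀ (norm_ne_zero_iff.2 hβ)]
  refine (mul_le_mul_of_nonneg_right (hmin hs) (norm_nonneg β)).trans ?_
  simp only [hg, ← intervalIntegral.integral_mul_const]
  refine integral_mono_on zero_le_one (((hcont _).mul continuous_const).intervalIntegrable 0 1)
    ((continuous_wt _).intervalIntegrable 0 1) fun τ _ => ?_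
  have e : dot (‖β‖⁻¹ • β) (zv y τ - y.2) * ‖β‖ = dot β (zv y τ - y.2) := by
    simp only [dot, Prod.smul_fst, Prod.smul_snd, smul_eq_mul]
    field_simp
  rw [max_mul_of_nonneg _ _ (norm_nonneg β), zero_mul, e]
  exact max_le (by simp only [wt]; linarith [Real.add_one_le_exp (dot β (zv y τ - y.2))])
    (wt_pos _ τ).le

lemma exists_defect_eq_zero {y : Par} (hy : Good y) : ∃ β, defect (y, β) = 0 := by
  obtain ⟨κ, hκ, hle⟩ := hI_coercive hy
  have hco : ∀ᶠ β in cocompact (ℝ × ℝ), hI (y, 0) ≤ hI (y, β) := by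
    filter_upwards [tendsto_norm_cocompact_atTop.eventually_ge_atTop (hI (y, 0) / κ)] with β hβ
    rw [div_le_iff₀ hκ] at hβ
    linarith [hle β]
  obtain ⟨β, hβ⟩ := (contDiff_hI.continuous.comp (Continuous.prodMk_right y)).exists_forall_le'
    0 hco
  refine ⟨β, ?_⟩
  have hz : ∀ v, dot v (defect (y, β)) = 0 := fun v => by
    refine IsLocalMin.hasDerivAt_eq_zero (Filter.Eventually.of_forall fun t => ?_)
      (hasDerivAt_hI y β v)
    simpa using hβ (β + t • v)
  exact Prod.ext (by simpa [dot] using hz (1, 0)) (by simpa [dot] using hz (0, 1))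

open Classical in
/-- The tilt that gives the mean `c`. -/
def beta (y : Par) : ℝ × ℝ := if h : ∃ β, defect (y, β) = 0 then h.choose else 0

lemma defect_beta {y : Par} (hy : Good y) : defect (y, beta y) = 0 := by
  rw [beta, dif_pos (exists_defect_eq_zero hy)]
  exact (exists_defect_eq_zero hy).choose_spec

lemma beta_eq {y : Par} (hy : Good y) {β : ℝ × ℝ} (hβ : defect (y, β) = 0) : beta y = β :=
  defect_unique hy (defect_beta hy) hβ

theorem isOpen_good : IsOpen {y | Good y} := by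
  refine isOpen_iff_mem_nhds.2 fun y hy => ?_
  have h := (isCompact_sphere (0 : ℝ × ℝ) 1).eventually_forall_of_forall_eventually
    (P := fun (y : Par) ξ => ∃ τ, 0 < dot ξ (zv y τ - y.2)) (x₀ := y) fun ξ hξ => by
      obtain ⟨τ, hτ⟩ := hy ξ fun h => by simp [h] at hξ
      have hc : Continuous fun q : Par × (ℝ × ℝ) => dot q.2 (zv q.1 τ - q.1.2) := by
        have : Continuous fun q : Par × (ℝ × ℝ) => zv q.1 τ :=
          contDiff_zv.continuous.comp (continuous_fst.prodMk continuous_const)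
        unfold dot
        fun_prop
      filter_upwards [(isOpen_lt continuous_const hc).mem_nhds hτ] with q hq
      exact ⟨τ, hq⟩
  filter_upwards [h] with y' hy' ξ hξ
  have hn : 0 < ‖ξ‖ := norm_pos_iff.2 hξ
  obtain ⟨τ, hτ⟩ := hy' (‖ξ‖⁻¹ • ξ) (by
    rw [mem_sphere_zero_iff_norm, norm_smul, norm_inv, norm_norm, inv_mul_cancel₀ hn.ne'])
  refine ⟨τ, ?_⟩
  rw [show dot (‖ξ‖⁻¹ • ξ) (zv y' τ - y'.2) = ‖ξ‖⁻¹ * dot ξ (zv y' τ - y'.2) by
    simp only [dot, Prod.smul_fst, Prod.smul_snd, smul_eq_mul]; ring] at hτ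
  exact pos_of_mul_pos_right hτ (inv_nonneg.2 hn.le)

theorem contDiffAt_beta {y : Par} (hy : Good y) : ContDiffAt ℝ ∞ beta y := by
  obtain ⟨g, hg, -, he⟩ := exists_implicit contDiff_defect (y, beta y) fun v hv => by
    by_contra hne
    have h1 : HasDerivAt (fun t : ℝ => defect (y, beta y + t • v)) 0 0 := by
      have hl : HasDerivAt (fun t : ℝ => ((y, beta y + t • v) : Par × (ℝ × ℝ))) (0, v) 0 := by
        simpa using (hasDerivAt_const (0 : ℝ) y).prodMk
          (((hasDerivAt_id (0 : ℝ)).smul_const v).const_add (beta y))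
      have := (contDiff_defect.differentiable (by simp) (y, beta y + (0 : ℝ) • v)).hasFDerivAt
        |>.comp_hasDerivAt (0 : ℝ) hl
      rw [zero_smul, add_zero, hv] at this
      exact this
    have h2 := congrArg (dotL v) ((hasDerivAt_defect y (beta y) v).unique h1)
    have hc : Continuous fun τ =>
        (wt (y, beta y) τ * dot v (zv y τ - y.2)) • (zv y τ - y.2) :=
      ((continuous_wt _).mul ((dotL v).continuous.comp
        ((continuous_zv y).sub continuous_const))).smul ((continuous_zv y).sub continuous_const)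
    rw [map_zero, ← (dotL v).intervalIntegral_comp_comm (hc.intervalIntegrable 0 1)] at h2
    refine (integral_dot_sq_pos hy (beta y) hne).ne' ((integral_congr fun τ _ => ?_).trans h2)
    simp only [map_smul, dotL_apply, smul_eq_mul]
    ring
  refine hg.congr_of_eventuallyEq ?_
  filter_upwards [he, isOpen_good.mem_nhds hy] with a ha hga
  exact beta_eq hga (by rw [ha]; exact defect_beta hy)

/-! ### The reparametrisation -/

/-- The normalised primitive of the density. -/
def theta (p : Par × (ℝ × ℝ)) (τ : ℝ) : ℝ := (∫ s in (0 : ℝ)..τ, wt p s) / hI p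

lemma hasDerivAt_theta (p : Par × (ℝ × ℝ)) (τ : ℝ) :
    HasDerivAt (theta p) (wt p τ / hI p) τ :=
  (integral_hasDerivAt_right ((continuous_wt p).intervalIntegrable 0 τ)
    ((continuous_wt p).stronglyMeasurableAtFilter _ _)
    (continuous_wt p).continuousAt).div_const _

lemma contDiff_theta : ContDiff ℝ ∞ fun q : (Par × (ℝ × ℝ)) × ℝ => theta q.1 q.2 := by
  have h := ParamInt.contDiff_integral01 (E := (Par × (ℝ × ℝ)) × ℝ)
    (F := fun w => wt w.1.1 (w.1.2 * w.2)) (contDiff_wt.comp (contDiff_fst.fst.prodMk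
      (contDiff_fst.snd.mul contDiff_snd)))
  have e : (fun q : (Par × (ℝ × ℝ)) × ℝ => theta q.1 q.2) =
      fun q => (q.2 * ∫ s in (0 : ℝ)..1, wt q.1 (q.2 * s)) / hI q.1 := funext fun q => by
    rw [theta, ← smul_eq_mul, intervalIntegral.smul_integral_comp_mul_left, mul_zero, mul_one]
  rw [e]
  exact (contDiff_snd.mul h).div (contDiff_hI.comp contDiff_fst) fun q => (hI_pos q.1).ne'

lemma continuous_theta (p : Par × (ℝ × ℝ)) : Continuous (theta p) :=
  continuous_iff_continuousAt.2 fun τ => (hasDerivAt_theta p τ).continuousAt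

lemma theta_strictMono (p : Par × (ℝ × ℝ)) : StrictMono (theta p) :=
  strictMono_of_deriv_pos fun τ => by
    rw [(hasDerivAt_theta p τ).deriv]
    exact div_pos (wt_pos p τ) (hI_pos p)

lemma theta_add_one (p : Par × (ℝ × ℝ)) (τ : ℝ) : theta p (τ + 1) = theta p τ + 1 := by
  rw [theta, theta, ← integral_add_adjacent_intervals (b := τ)
    ((continuous_wt p).intervalIntegrable 0 τ) ((continuous_wt p).intervalIntegrable τ (τ + 1)),
    (wt_periodic p).intervalIntegral_add_eq τ 0, zero_add, add_div, show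
      (∫ s in (0 : ℝ)..1, wt p s) = hI p from rfl, div_self (hI_pos p).ne']

lemma theta_int (p : Par × (ℝ × ℝ)) (n : ℤ) : theta p n = n := by
  have h := (wt_periodic p).intervalIntegral_add_zsmul_eq n 0
    (fun a b => (continuous_wt p).intervalIntegrable a b)
  simp only [zero_add, zsmul_eq_mul, mul_one] at h
  rw [theta, h, show (∫ s in (0 : ℝ)..1, wt p s) = hI p from rfl,
    mul_div_assoc, div_self (hI_pos p).ne', mul_one]

lemma exists_theta_eq (p : Par × (ℝ × ℝ)) (θ : ℝ) : ∃ τ, theta p τ = θ := by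
  obtain ⟨τ, -, hτ⟩ := intermediate_value_Icc
    (a := (⌊θ⌋ : ℝ)) (b := ((⌊θ⌋ + 1 : ℤ) : ℝ)) (by push_cast; linarith)
    (continuous_theta p).continuousOn (show θ ∈ _ by
      rw [Set.mem_Icc, theta_int, theta_int]
      push_cast
      exact ⟨Int.floor_le θ, (Int.lt_floor_add_one θ).le⟩)
  exact ⟨τ, hτ⟩

/-- The inverse of `theta`. -/
def time (p : Par × (ℝ × ℝ)) (θ : ℝ) : ℝ := (exists_theta_eq p θ).choose


lemma theta_time (p : Par × (ℝ × ℝ)) (θ : ℝ) : theta p (time p θ) = θ :=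
  (exists_theta_eq p θ).choose_spec

lemma time_eq (p : Par × (ℝ × ℝ)) {τ θ : ℝ} (h : theta p τ = θ) : time p θ = τ :=
  (theta_strictMono p).injective ((theta_time p θ).trans h.symm)

attribute [local irreducible] theta time hI defect beta

lemma time_add_one (p : Par × (ℝ × ℝ)) (θ : ℝ) : time p (θ + 1) = time p θ + 1 :=
  time_eq p (by rw [theta_add_one, theta_time])

theorem contDiff_time : ContDiff ℝ ∞ fun q : (Par × (ℝ × ℝ)) × ℝ => time q.1 q.2 := by
  refine contDiff_iff_contDiffAt.2 fun q => ?_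
  have hG : ContDiff ℝ ∞ fun z : ((Par × (ℝ × ℝ)) × ℝ) × ℝ => theta z.1.1 z.2 - z.1.2 :=
    (contDiff_theta.comp (contDiff_fst.fst.prodMk contDiff_snd)).sub contDiff_fst.snd
  obtain ⟨g, hg, -, he⟩ := exists_implicit hG (q, time q.1 q.2) fun v hv => by
    have hl : HasDerivAt (fun t : ℝ => ((q, t) : ((Par × (ℝ × ℝ)) × ℝ) × ℝ)) (0, 1)
        (time q.1 q.2) := (hasDerivAt_const _ q).prodMk (hasDerivAt_id _)
    have h1 := ((hG.differentiable (by simp)) (q, time q.1 q.2)).hasFDerivAt.comp_hasDerivAt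
      (time q.1 q.2) hl
    have h2 := h1.unique ((hasDerivAt_theta q.1 (time q.1 q.2)).sub_const q.2)
    rw [show ((0, v) : ((Par × (ℝ × ℝ)) × ℝ) × ℝ) = v • (0, 1) by simp, map_smul, h2,
      smul_eq_mul] at hv
    exact (mul_eq_zero.1 hv).resolve_right (div_pos (wt_pos _ _) (hI_pos _)).ne'
  refine hg.congr_of_eventuallyEq ?_
  filter_upwards [he] with a ha
  refine time_eq a.1 ?_
  simp only [theta_time, sub_self] at ha
  linarith

lemma hasDerivAt_time (p : Par × (ℝ × ℝ)) (θ : ℝ) :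
    HasDerivAt (time p) (hI p / wt p (time p θ)) θ := by
  have hc : Continuous (time p) := contDiff_time.continuous.comp (Continuous.prodMk_right p)
  have h := (hasDerivAt_theta p (time p θ)).of_local_left_inverse hc.continuousAt
    (div_pos (wt_pos _ _) (hI_pos _)).ne' (Filter.Eventually.of_forall (theta_time p))
  rwa [inv_div] at h

/-! ### The loop -/

/-- The loop. -/
def loop (y : Par) (θ : ℝ) : ℝ × ℝ := zv y (time (y, beta y) θ)

lemma loop_periodic (y : Par) : Function.Periodic (loop y) 1 := fun θ => by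
  rw [loop, time_add_one, zv_periodic]
  rfl

lemma loop_circle (y : Par) (θ : ℝ) : (loop y θ).1 ^ 2 + (loop y θ).2 ^ 2 = 1 := by
  simp [loop, zv]

lemma continuous_loop (y : Par) : Continuous (loop y) :=
  (continuous_zv y).comp (contDiff_time.continuous.comp (Continuous.prodMk_right (y, beta y)))

/-- The loop is smooth in all its variables. -/
theorem contDiffAt_loop {y : Par} (hy : Good y) (θ : ℝ) :
    ContDiffAt ℝ ∞ (fun q : Par × ℝ => loop q.1 q.2) (y, θ) := by
  have hb : ContDiffAt ℝ ∞ (fun q : Par × ℝ => beta q.1) (y, θ) :=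
    (contDiffAt_beta hy).comp (y, θ) contDiffAt_fst
  exact contDiff_zv.contDiffAt.comp (y, θ) (contDiffAt_fst.prodMk (contDiff_time.contDiffAt.comp
    (y, θ) ((contDiffAt_fst.prodMk hb).prodMk contDiffAt_snd)))

/-- The loop has the prescribed mean. -/
theorem mean_loop {y : Par} (hy : Good y) : ∫ θ in (0 : ℝ)..1, loop y θ = y.2 := by
  obtain ⟨p, hp⟩ : ∃ p : Par × (ℝ × ℝ), p = (y, beta y) := ⟨_, rfl⟩
  have hs := integral_deriv_smul_comp (a := (0 : ℝ)) (b := 1)
    (fun τ _ => hasDerivAt_theta p τ)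
    ((continuous_wt p).div_const (hI p)).continuousOn (continuous_loop y)
  have e0 : theta p 0 = 0 := by simpa using theta_int p 0
  have e1 : theta p 1 = 1 := by simpa using theta_int p 1
  rw [e0, e1] at hs
  rw [← hs]
  have e : ∀ τ, loop y (theta p τ) = zv y τ := fun τ => by
    rw [loop, ← hp, time_eq p rfl]
  simp only [Function.comp_apply, e]
  have hd : defect p = 0 := hp ▸ defect_beta hy
  have hc : Continuous fun τ => wt p τ • (zv p.1 τ - p.1.2) :=
    (continuous_wt p).smul ((continuous_zv p.1).sub continuous_const)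
  calc (∫ τ in (0 : ℝ)..1, (wt p τ / hI p) • zv y τ)
      = ∫ τ in (0 : ℝ)..1, ((hI p)⁻¹ • (wt p τ • (zv p.1 τ - p.1.2)) + (wt p τ / hI p) • y.2) :=
        integral_congr fun τ _ => by
          simp only [hp, smul_smul, ← smul_add, div_eq_inv_mul, sub_add_cancel]
    _ = (hI p)⁻¹ • defect p + (hI p / hI p) • y.2 := by
        have c1 : Continuous fun τ => (hI p)⁻¹ • (wt p τ • (zv p.1 τ - p.1.2)) :=
          Continuous.smul (f := fun _ => (hI p)⁻¹) continuous_const hc
        have c2 : Continuous fun τ => (wt p τ / hI p) • y.2 :=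
          ((continuous_wt p).div_const _).smul continuous_const
        rw [intervalIntegral.integral_add (f := fun τ => (hI p)⁻¹ • (wt p τ • (zv p.1 τ - p.1.2)))
          (c1.intervalIntegrable 0 1) (c2.intervalIntegrable 0 1),
          intervalIntegral.integral_smul, intervalIntegral.integral_smul_const,
          intervalIntegral.integral_div]
        simp only [defect, hI]
    _ = y.2 := by rw [hd, smul_zero, zero_add, div_self (hI_pos p).ne', one_smul]

lemma hasDerivAt_ang (y : Par) (τ : ℝ) :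
    HasDerivAt (ang y) (2 * Real.pi * cs τ * (2 * y.1.1 / den y.1.1 τ + y.1.2)) τ := by
  have hl : HasDerivAt (fun t => 2 * Real.pi * t) (2 * Real.pi) τ := by
    simpa using (hasDerivAt_id τ).const_mul (2 * Real.pi)
  have hs : HasDerivAt sn (cs τ * (2 * Real.pi)) τ := hl.sin
  have hc : HasDerivAt cs (-sn τ * (2 * Real.pi)) τ := hl.cos
  have hd0 : HasDerivAt (fun t => 1 + y.1.1 ^ 2 * cs t ^ 2)
      (y.1.1 ^ 2 * (2 * cs τ * (-sn τ * (2 * Real.pi)))) τ := by
    simpa using (((hc.pow 2).const_mul (y.1.1 ^ 2)).const_add 1)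
  have hd : HasDerivAt (den y.1.1)
      (y.1.1 ^ 2 * (2 * cs τ * (-sn τ * (2 * Real.pi))) / (2 * den y.1.1 τ)) τ :=
    hd0.sqrt (by positivity)
  have h := (((hs.const_mul y.1.1).div hd (den_pos _ _).ne').arctan.const_mul 2).add
    (hs.const_mul y.1.2)
  refine (h.congr_of_eventuallyEq (Filter.Eventually.of_forall fun t => by
    simp [ang])).congr_deriv ?_
  have hp := den_pos y.1.1 τ
  have h2 := den_sq y.1.1 τ
  have h3 : den y.1.1 τ ^ 2 + y.1.1 ^ 2 * sn τ ^ 2 = 1 + y.1.1 ^ 2 := by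
    rw [h2]; linear_combination y.1.1 ^ 2 * sn_sq_add τ
  have h4 : 0 < den y.1.1 τ ^ 2 + y.1.1 ^ 2 * sn τ ^ 2 := by positivity
  simp only [Pi.div_apply]
  rw [show 1 + (y.1.1 * sn τ / den y.1.1 τ) ^ 2 = (1 + y.1.1 ^ 2) / den y.1.1 τ ^ 2 by
    field_simp; exact h3]
  have hu : (1 + y.1.1 ^ 2 : ℝ) ≠ 0 := by positivity
  field_simp
  linear_combination (2 * y.1.1 * cs τ) * h3

/-- The velocity of the loop. -/
theorem hasDerivAt_loop (y : Par) (θ : ℝ) :
    HasDerivAt (loop y)
      ((hI (y, beta y) / wt (y, beta y) (time (y, beta y) θ) *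
        (2 * Real.pi * cs (time (y, beta y) θ) *
          (2 * y.1.1 / den y.1.1 (time (y, beta y) θ) + y.1.2))) •
        (-(loop y θ).2, (loop y θ).1)) θ := by
  have ha := hasDerivAt_ang y (time (y, beta y) θ)
  have hz : HasDerivAt (zv y) ((2 * Real.pi * cs (time (y, beta y) θ) *
      (2 * y.1.1 / den y.1.1 (time (y, beta y) θ) + y.1.2)) • (-(loop y θ).2, (loop y θ).1))
      (time (y, beta y) θ) := by
    refine ((ha.cos.prodMk ha.sin).congr_of_eventuallyEq
      (Filter.Eventually.of_forall fun t => by simp [zv])).congr_deriv ?_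
    simp only [loop, zv, Prod.smul_mk, smul_eq_mul]
    exact Prod.ext (by ring) (by ring)
  rw [mul_smul]
  exact hz.scomp θ (hasDerivAt_time (y, beta y) θ)

/-! ### The plain loop -/

/-- The mean of the plain loop. -/
def plainMean (u : ℝ) : ℝ × ℝ := (1 / (1 + u ^ 2), 0)

/-- The plain loop minus `(1, 0)`, divided by the swing. -/
def plainQuot (u τ : ℝ) : ℝ × ℝ :=
  (-(2 * u * sn τ ^ 2) / (1 + u ^ 2), 2 * sn τ * den u τ / (1 + u ^ 2))

lemma zv_plain (u : ℝ) (c : ℝ × ℝ) (τ : ℝ) :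
    zv ((u, 0), c) τ = ((1, 0) : ℝ × ℝ) + u • plainQuot u τ := by
  have hp := den_pos u τ
  have h2 := den_sq u τ
  have h3 : den u τ ^ 2 + u ^ 2 * sn τ ^ 2 = 1 + u ^ 2 := by
    rw [h2]; linear_combination u ^ 2 * sn_sq_add τ
  have hu : 0 < 1 + u ^ 2 := by positivity
  have h4 : 1 + (u * sn τ / den u τ) ^ 2 = (1 + u ^ 2) / den u τ ^ 2 := by
    field_simp; exact h3
  have e : ∀ x : ℝ, Real.cos (2 * Real.arctan x) = (1 - x ^ 2) / (1 + x ^ 2) ∧
      Real.sin (2 * Real.arctan x) = 2 * x / (1 + x ^ 2) := fun x => by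
    have h : 0 < 1 + x ^ 2 := by positivity
    refine ⟨?_, ?_⟩
    · rw [Real.cos_two_mul, Real.cos_sq_arctan]; field_simp; ring
    · rw [Real.sin_two_mul, Real.sin_arctan, Real.cos_arctan]
      field_simp
      rw [Real.sq_sqrt h.le]
  obtain ⟨e1, e2⟩ := e (u * sn τ / den u τ)
  simp only [zv, ang, zero_mul, add_zero, e1, e2, h4, plainQuot, Prod.smul_mk, smul_eq_mul,
    Prod.mk_add_mk]
  refine Prod.ext ?_ ?_ <;> field_simp
  · linear_combination h3
  · ring

lemma contDiff_plainQuot : ContDiff ℝ ∞ fun q : ℝ × ℝ => plainQuot q.1 q.2 := by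
  have hl : ContDiff ℝ ∞ fun q : ℝ × ℝ => 2 * Real.pi * q.2 := contDiff_const.mul contDiff_snd
  have hs : ContDiff ℝ ∞ fun q : ℝ × ℝ => sn q.2 := Real.contDiff_sin.comp hl
  have hc : ContDiff ℝ ∞ fun q : ℝ × ℝ => cs q.2 := Real.contDiff_cos.comp hl
  have hd : ContDiff ℝ ∞ fun q : ℝ × ℝ => den q.1 q.2 :=
    (contDiff_const.add ((contDiff_fst.pow 2).mul (hc.pow 2))).sqrt fun q => by positivity
  have hu : ∀ q : ℝ × ℝ, (1 + q.1 ^ 2) ≠ 0 := fun q => by positivity
  exact (((contDiff_const.mul contDiff_fst).mul (hs.pow 2)).neg.div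
    (contDiff_const.add (contDiff_fst.pow 2)) hu).prodMk
    (((contDiff_const.mul hs).mul hd).div (contDiff_const.add (contDiff_fst.pow 2)) hu)

lemma mean_zv_plain (u : ℝ) : defect (((u, 0), plainMean u), 0) = 0 := by
  have hc : Continuous fun τ => zv ((u, 0), plainMean u) τ - plainMean u :=
    (continuous_zv _).sub continuous_const
  simp only [defect, wt, dot, Prod.fst_zero, Prod.snd_zero, zero_mul, add_zero, Real.exp_zero,
    one_smul]
  have hd : ∀ τ, HasDerivAt (fun t => u ^ 2 / (1 + u ^ 2) *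
      (Real.sin (2 * (2 * Real.pi * t)) / (4 * Real.pi)))
      (zv ((u, 0), plainMean u) τ - plainMean u).1 τ := fun τ => by
    refine (((((hasDerivAt_id τ).const_mul (2 * Real.pi)).const_mul 2).sin.div_const
      (4 * Real.pi)).const_mul (u ^ 2 / (1 + u ^ 2))).congr_deriv ?_
    rw [zv_plain]
    simp only [Prod.fst_sub, plainMean, plainQuot, Prod.smul_mk, smul_eq_mul, Prod.mk_add_mk]
    rw [show Real.cos (2 * (2 * Real.pi * id τ)) = 1 - 2 * sn τ ^ 2 by
      rw [sn, id, Real.cos_two_mul]; linarith [Real.sin_sq_add_cos_sq (2 * Real.pi * τ)]]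
    field_simp
    ring
  obtain ⟨g, hg⟩ : ∃ g : ℝ → ℝ, g = fun τ => (zv ((u, 0), plainMean u) τ - plainMean u).2 :=
    ⟨_, rfl⟩
  have hg' : ∀ τ, g τ = u * (2 * sn τ * den u τ / (1 + u ^ 2)) := fun τ => by
    rw [hg]; simp only [zv_plain]; simp [plainQuot, plainMean]
  have hp : Function.Periodic g 1 := fun τ => by rw [hg', hg', den, den, cs_one, sn_one]
  have hh : ∀ τ, g (τ + 1 / 2) = -g τ := fun τ => by
    have e : 2 * Real.pi * (τ + 1 / 2) = 2 * Real.pi * τ + Real.pi := by ring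
    simp only [hg', sn, cs, den, e, Real.sin_add_pi, Real.cos_add_pi, neg_sq]
    ring
  have h1 : (∫ τ in (0 : ℝ)..1, g (τ + 1 / 2)) = ∫ τ in (0 : ℝ)..1, g τ := by
    rw [intervalIntegral.integral_comp_add_right, zero_add, add_comm (1 : ℝ)]
    simpa using hp.intervalIntegral_add_eq (1 / 2) 0
  simp only [hh, intervalIntegral.integral_neg] at h1
  refine Prod.ext ?_ ?_
  · rw [← ContinuousLinearMap.coe_fst' (R := ℝ) (M₁ := ℝ) (M₂ := ℝ),
      ← (ContinuousLinearMap.fst ℝ ℝ ℝ).intervalIntegral_comp_comm (hc.intervalIntegrable 0 1)]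
    simp only [ContinuousLinearMap.coe_fst', Prod.fst_zero]
    rw [integral_eq_sub_of_hasDerivAt (fun τ _ => hd τ) (hc.fst.intervalIntegrable 0 1),
      show 2 * (2 * Real.pi * 1) = ((4 : ℕ) : ℝ) * Real.pi by push_cast; ring, Real.sin_nat_mul_pi]
    simp
  · rw [← ContinuousLinearMap.coe_snd' (R := ℝ) (M₁ := ℝ) (M₂ := ℝ),
      ← (ContinuousLinearMap.snd ℝ ℝ ℝ).intervalIntegral_comp_comm (hc.intervalIntegrable 0 1)]
    simp only [ContinuousLinearMap.coe_snd', Prod.snd_zero]
    rw [hg] at h1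
    linarith

theorem good_plain {u : ℝ} (hu : u ≠ 0) : Good ((u, 0), plainMean u) := by
  intro ξ hξ
  have hd : (0 : ℝ) < 1 + u ^ 2 := by positivity
  have hu2 : 0 < u ^ 2 := by positivity
  have key : ∀ τ, dot ξ (zv ((u, 0), plainMean u) τ - plainMean u) * (1 + u ^ 2) =
      ξ.1 * (u ^ 2 * (1 - 2 * sn τ ^ 2)) + ξ.2 * (2 * u * sn τ * den u τ) := fun τ => by
    simp only [zv_plain, dot, plainQuot, plainMean, Prod.fst_sub, Prod.snd_sub, Prod.smul_mk,
      smul_eq_mul, Prod.mk_add_mk]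
    field_simp
    ring
  have pos : ∀ τ, 0 < ξ.1 * (u ^ 2 * (1 - 2 * sn τ ^ 2)) + ξ.2 * (2 * u * sn τ * den u τ) →
      ∃ τ, 0 < dot ξ (zv ((u, 0), plainMean u) τ - plainMean u) := fun τ h =>
    ⟨τ, pos_of_mul_pos_left (key τ ▸ h) hd.le⟩
  rcases lt_or_ge 0 ξ.1 with h1 | h1
  · refine pos 0 ?_
    simp only [sn, mul_zero, Real.sin_zero]
    simpa using mul_pos h1 hu2
  · have s1 : sn (1 / 4) = 1 ∧ den u (1 / 4) = 1 := by
      constructor
      · rw [sn, show 2 * Real.pi * (1 / 4) = Real.pi / 2 by ring, Real.sin_pi_div_two]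
      · rw [den, cs, show 2 * Real.pi * (1 / 4) = Real.pi / 2 by ring, Real.cos_pi_div_two]
        simp
    have s2 : sn (-(1 / 4)) = -1 ∧ den u (-(1 / 4)) = 1 := by
      constructor
      · rw [sn, show 2 * Real.pi * -(1 / 4) = -(Real.pi / 2) by ring, Real.sin_neg,
          Real.sin_pi_div_two]
      · rw [den, cs, show 2 * Real.pi * -(1 / 4) = -(Real.pi / 2) by ring, Real.cos_neg,
          Real.cos_pi_div_two]
        simp
    rcases lt_trichotomy (ξ.2 * u) 0 with h2 | h2 | h2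
    · refine pos (-(1 / 4)) ?_
      rw [s2.1, s2.2]
      nlinarith
    · have hz : ξ.2 = 0 := (mul_eq_zero.1 h2).resolve_right hu
      have h1' : ξ.1 < 0 := h1.lt_of_ne fun h => hξ (Prod.ext h hz)
      refine pos (1 / 4) ?_
      rw [s1.1, s1.2]
      nlinarith
    · refine pos (1 / 4) ?_
      rw [s1.1, s1.2]
      nlinarith

lemma beta_plain {u : ℝ} (hu : u ≠ 0) : beta ((u, 0), plainMean u) = 0 :=
  beta_eq (good_plain hu) (mean_zv_plain u)

/-- With no wide swing and the plain mean the loop is the plain loop. -/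
theorem loop_plain (u θ : ℝ) :
    loop ((u, 0), plainMean u) θ = ((1, 0) : ℝ × ℝ) + u • plainQuot u θ := by
  rcases eq_or_ne u 0 with rfl | hu
  · rw [loop, zv_plain]; simp
  have hw : ∀ s, wt (((u, 0), plainMean u), beta ((u, 0), plainMean u)) s = 1 := fun s => by
    simp [wt, beta_plain hu, dot]
  have ht : time (((u, 0), plainMean u), beta ((u, 0), plainMean u)) θ = θ :=
    time_eq _ (by simp [theta, hI, hw])
  rw [loop, ht, zv_plain]

/-- The swing of the amplitude `a` over a vector of length `n` gives the required mean. -/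
lemma plainMean_swing {n : ℝ} (hn : 0 < n) (a : ℝ) :
    plainMean (a / √(n * (√(n ^ 2 + a ^ 2) + n))) = (n / √(n ^ 2 + a ^ 2), 0) := by
  have hr : 0 < √(n ^ 2 + a ^ 2) := Real.sqrt_pos.2 (by positivity)
  have h2 : √(n ^ 2 + a ^ 2) ^ 2 = n ^ 2 + a ^ 2 := Real.sq_sqrt (by positivity)
  rw [plainMean, div_pow, Real.sq_sqrt (by positivity)]
  refine Prod.ext ?_ rfl
  field_simp
  linear_combination h2

/-! ### Criteria -/

/-- The largest phase. -/
def width (u E : ℝ) : ℝ := 2 * Real.arctan u + E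

lemma ang_quarter (y : Par) : ang y (1 / 4) = width y.1.1 y.1.2 := by
  have e : 2 * Real.pi * (1 / 4) = Real.pi / 2 := by ring
  simp only [ang, den, sn, cs, width, e, Real.sin_pi_div_two, Real.cos_pi_div_two]
  simp

lemma ang_neg (y : Par) (τ : ℝ) : ang y (-τ) = -ang y τ := by
  simp only [ang, den, sn, cs, mul_neg, Real.sin_neg, Real.cos_neg, neg_div, Real.arctan_neg]
  ring

lemma abs_ang_le {y : Par} (hu : 0 ≤ y.1.1) (hE : 0 ≤ y.1.2) (τ : ℝ) :
    |ang y τ| ≤ width y.1.1 y.1.2 := by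
  have hS := abs_le.1 (Real.abs_sin_le_one (2 * Real.pi * τ))
  have hd : 1 ≤ den y.1.1 τ := Real.one_le_sqrt.2 (le_add_of_nonneg_right (by positivity))
  have hx : |y.1.1 * sn τ / den y.1.1 τ| ≤ y.1.1 := by
    rw [abs_div, abs_mul, abs_of_nonneg hu, abs_of_pos (den_pos _ _)]
    exact (div_le_self (by positivity) hd).trans
      (mul_le_of_le_one_right hu (Real.abs_sin_le_one _))
  obtain ⟨x1, x2⟩ := abs_le.1 hx
  have a1 := Real.arctan_strictMono.monotone x1
  have a2 := Real.arctan_strictMono.monotone x2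
  rw [Real.arctan_neg] at a1
  have b1 : -y.1.2 ≤ y.1.2 * sn τ := by unfold sn; nlinarith [hS.1]
  have b2 : y.1.2 * sn τ ≤ y.1.2 := by unfold sn; nlinarith [hS.2]
  rw [ang, width, abs_le]
  constructor <;> linarith

lemma exists_ang_eq (y : Par) {t : ℝ} (ht : |t| ≤ width y.1.1 y.1.2) : ∃ τ, ang y τ = t := by
  have hc := continuous_ang y
  obtain ⟨τ, -, hτ⟩ := intermediate_value_Icc (by norm_num : -(1 / 4 : ℝ) ≤ 1 / 4) hc.continuousOn
    (show t ∈ _ by rw [Set.mem_Icc, ang_neg, ang_quarter]; exact abs_le.1 ht)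
  exact ⟨τ, hτ⟩

/-- A wider arc keeps the target inside. -/
theorem good_mono {y : Par} (hy : Good y) (hu : 0 ≤ y.1.1) (hE : 0 ≤ y.1.2) {u E : ℝ}
    (h : width y.1.1 y.1.2 ≤ width u E) : Good ((u, E), y.2) := fun ξ hξ => by
  obtain ⟨τ, hτ⟩ := hy ξ hξ
  obtain ⟨s, hs⟩ := exists_ang_eq ((u, E), y.2) ((abs_ang_le hu hE τ).trans h)
  refine ⟨s, ?_⟩
  rw [show zv ((u, E), y.2) s = zv y τ by rw [zv, zv, hs]]
  exact hτ

/-- An arc covering the circle has every point of the open disc inside. -/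
theorem good_wide {y : Par} (hw : Real.pi ≤ width y.1.1 y.1.2)
    (hc : y.2.1 ^ 2 + y.2.2 ^ 2 < 1) : Good y := fun ξ hξ => by
  obtain ⟨τ, hτ⟩ := exists_ang_eq y
    (t := Complex.arg ⟨ξ.1, ξ.2⟩) ((Complex.abs_arg_le_pi _).trans hw)
  refine ⟨τ, ?_⟩
  obtain ⟨r, hr⟩ : ∃ r : ℝ, r = ‖(⟨ξ.1, ξ.2⟩ : ℂ)‖ := ⟨_, rfl⟩
  have h1 : r * Real.cos (ang y τ) = ξ.1 := by
    rw [hr, hτ]; exact Complex.norm_mul_cos_arg _
  have h2 : r * Real.sin (ang y τ) = ξ.2 := by
    rw [hr, hτ]; exact Complex.norm_mul_sin_arg _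
  have hr0 : 0 ≤ r := hr ▸ norm_nonneg _
  have hne : r ≠ 0 := fun h => hξ (Prod.ext (by simp [← h1, h]) (by simp [← h2, h]))
  have hpos : 0 < r := lt_of_le_of_ne hr0 hne.symm
  have hcs := Real.cos_sq_add_sin_sq (ang y τ)
  obtain ⟨C, hC⟩ : ∃ C, C = Real.cos (ang y τ) := ⟨_, rfl⟩
  obtain ⟨S, hS⟩ : ∃ S, S = Real.sin (ang y τ) := ⟨_, rfl⟩
  simp only [dot, zv, Prod.fst_sub, Prod.snd_sub, ← h1, ← h2, ← hC, ← hS] at hcs ⊢
  have : 0 < 1 - (C * y.2.1 + S * y.2.2) := by
    nlinarith [sq_nonneg (C - y.2.1), sq_nonneg (S - y.2.2)]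
  nlinarith [mul_pos hpos this]

/-- The phase is stationary only at the two turning times. -/
lemma ang_deriv_eq_zero {y : Par} (hu : 0 ≤ y.1.1) (hE : 0 ≤ y.1.2)
    (hp : 0 < y.1.1 + y.1.2) (τ : ℝ) :
    2 * Real.pi * cs τ * (2 * y.1.1 / den y.1.1 τ + y.1.2) = 0 ↔ cs τ = 0 := by
  have : 0 < 2 * y.1.1 / den y.1.1 τ + y.1.2 := by
    rcases hu.lt_or_eq with h | h
    · have := den_pos y.1.1 τ; positivity
    · have hE' : 0 < y.1.2 := by linarith
      rw [← h]; simpa using hE'
  simp [Real.pi_ne_zero, this.ne']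

end

end Vale.Agent.P205.LoopFamily
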