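import Vale.Agent.P205.Full.FinalForm
import Vale.Agent.P205.Full.HybridProof
import Vale.Agent.P205.Full.Bridge.Assembly
import Vale.Agent.P205.Full.Round1.Plane
import Vale.Agent.P205.Full.Holes.Start
import Vale.Agent.P205.Full.Global.Final

/-!
# P205: the answer from the two plane cell statements
-/

namespace Vale.Agent.P205.Full

noncomputable section

universe u

/-- The surface theorem from the generic cell and the approximants of round two. -/
theorem globalStatement_of_cells (h1 : Round1.PlaneGenericStatement)
    (h2 : Bridge.ApproxStatement) : GlobalStatement.{u} :=
  globalStatement_of hybridStatement (Round1.genericStatement_of_plane h1)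
    (Bridge.exactStatement_of_approximants h2) startStatement

end

end Vale.Agent.P205.Full
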