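import Mathlib

/-!
# P205: the vocabulary of the final statement

The two definitions are stated over an abstract model space `E` and an abstract target `E'`.
-/

namespace Vale.Agent.P205.Full

open Bundle Function
open scoped Manifold ContDiff

universe u v w

variable (E : Type u) [NormedAddCommGroup E] [InnerProductSpace ℝ E]
  (M : Type v) [TopologicalSpace M] [ChartedSpace E M] [IsManifold 𝓘(ℝ, E) ∞ M]

/-- A smooth Riemannian metric on the tangent bundle of a manifold modeled on `E`. -/
abbrev SmoothMetric : Type (max v u) :=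
  ContMDiffRiemannianMetric 𝓘(ℝ, E) ∞ E (fun x : M => TangentSpace 𝓘(ℝ, E) x)

variable {E M}

/-- `F` is a smooth map with injective differentials that carry `g` to the inner product
of `E'`. -/
def IsSmoothIsometricImmersion {E' : Type w} [NormedAddCommGroup E'] [InnerProductSpace ℝ E']
    (g : SmoothMetric E M) (F : M → E') : Prop :=
  ContMDiff 𝓘(ℝ, E) 𝓘(ℝ, E') ∞ F ∧
    (∀ x : M, Injective (mfderiv 𝓘(ℝ, E) 𝓘(ℝ, E') F x)) ∧
    ∀ (x : M) (v w : TangentSpace 𝓘(ℝ, E) x),
      inner ℝ (show E' from mfderiv 𝓘(ℝ, E) 𝓘(ℝ, E') F x v)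
        (show E' from mfderiv 𝓘(ℝ, E) 𝓘(ℝ, E') F x w) = g.inner x v w

end Vale.Agent.P205.Full
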