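import Vale.Agent.P205.Full.Statement
import Vale.Agent.P205.Full.Reduced
import Vale.Agent.P205.Full.Round1.GenericProof

/-!
# P205: the surface theorem in the vocabulary of the final statement
-/

namespace Vale.Agent.P205.Full

open scoped Manifold ContDiff

noncomputable section

universe u

/-- Every closed surface with a smooth metric has a smooth isometric immersion into four
dimensional Euclidean space, given the approximants of round two. -/
theorem exists_isometric_immersion_of_approx (h : Bridge.ApproxStatement) (M : Type u)
    [TopologicalSpace M] [T2Space M] [CompactSpace M]
    [ChartedSpace (EuclideanSpace ℝ (Fin 2)) M] [IsManifold (𝓡 2) ∞ M]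
    (g : SmoothMetric (EuclideanSpace ℝ (Fin 2)) M) :
    ∃ F : M → EuclideanSpace ℝ (Fin 4), IsSmoothIsometricImmersion g F := by
  obtain ⟨F, h1, h2, h3⟩ := exists_immersion_of_global
    (globalStatement_of hybridStatement Round1.genericStatement
      (Bridge.exactStatement_of_approximants h) startStatement) M g
  exact ⟨F, h1, h2, h3⟩

end

end Vale.Agent.P205.Full
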